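import Vale.Agent.P167.H327.DivR
import Vale.Agent.P167.BVP.Pot

/-!
# P167, [NOFLUX]: a smooth charge of total mass zero is the divergence of a compactly supported flow
-/

open Set Filter Topology MeasureTheory Bornology
open scoped ContDiff Manifold

namespace Vale.Agent.P167.H327

open BVP (Test)

variable {U : Set ℂ}

/-- `g` is the divergence of a smooth flow with compact support in `U`. -/
def Sol (U : Set ℂ) (g : ℂ → ℝ) : Prop :=
  ∃ φ₁ φ₂ : ℂ → ℝ, Test U φ₁ ∧ Test U φ₂ ∧
    ∀ z, g z = fderiv ℝ φ₁ z 1 + fderiv ℝ φ₂ z Complex.I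

theorem test_add {f g : ℂ → ℝ} (hf : Test U f) (hg : Test U g) :
    Test U fun z => f z + g z := by
  refine ⟨hf.1.add hg.1, hf.2.1.add hg.2.1, ?_⟩
  exact (tsupport_add f g).trans (union_subset hf.2.2 hg.2.2)

theorem test_smul {f : ℂ → ℝ} (hf : Test U f) (m : ℝ) : Test U fun z => m * f z := by
  refine ⟨contDiff_const.mul hf.1, hf.2.1.mul_left (f := fun _ => m), ?_⟩
  exact (tsupport_mul_subset_right (f := fun _ => m)).trans hf.2.2

theorem test_zero : Test U fun _ => (0 : ℝ) := by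
  refine ⟨contDiff_const, HasCompactSupport.zero, ?_⟩
  have : tsupport (fun _ : ℂ => (0 : ℝ)) = ∅ := by
    rw [tsupport_eq_empty_iff]
    rfl
  rw [this]
  exact empty_subset _

theorem test_diff {f : ℂ → ℝ} (hf : Test U f) (z : ℂ) : DifferentiableAt ℝ f z :=
  (hf.1.differentiable (by simp)).differentiableAt

theorem Sol.add {f g : ℂ → ℝ} (hf : Sol U f) (hg : Sol U g) : Sol U fun z => f z + g z := by
  obtain ⟨a, b, ha, hb, hab⟩ := hf
  obtain ⟨a', b', ha', hb', hab'⟩ := hg
  refine ⟨_, _, test_add ha ha', test_add hb hb', fun z => ?_⟩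
  show f z + g z = _
  rw [fderiv_fun_add (test_diff ha z) (test_diff ha' z),
    fderiv_fun_add (test_diff hb z) (test_diff hb' z), hab z, hab' z]
  simp only [ContinuousLinearMap.add_apply]
  ring

theorem Sol.smul {f : ℂ → ℝ} (hf : Sol U f) (m : ℝ) : Sol U fun z => m * f z := by
  obtain ⟨a, b, ha, hb, hab⟩ := hf
  refine ⟨_, _, test_smul ha m, test_smul hb m, fun z => ?_⟩
  show m * f z = _
  rw [fderiv_const_mul (test_diff ha z), fderiv_const_mul (test_diff hb z), hab z]
  simp only [ContinuousLinearMap.smul_apply, smul_eq_mul]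
  ring

theorem Sol.zero : Sol U fun _ => 0 :=
  ⟨_, _, test_zero, test_zero, fun z => by simp⟩

theorem Sol.sum {ι : Type*} (s : Finset ι) {f : ι → ℂ → ℝ} (h : ∀ i ∈ s, Sol U (f i)) :
    Sol U fun z => ∑ i ∈ s, f i z := by
  classical
  induction s using Finset.induction_on with
  | empty => simpa using Sol.zero
  | insert i s hi ih =>
    simp only [Finset.sum_insert hi]
    exact (h i (Finset.mem_insert_self _ _)).add
      (ih fun j hj => h j (Finset.mem_insert_of_mem hj))

/-- the closed square -/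
def Sq (x : ℂ) (r : ℝ) : Set ℂ :=
  {z | x.re - r ≤ z.re ∧ z.re ≤ x.re + r ∧ x.im - r ≤ z.im ∧ z.im ≤ x.im + r}

/-- vanishing outside the square -/
def VanS (x : ℂ) (r : ℝ) (g : ℂ → ℝ) : Prop := ∀ z, z ∉ Sq x r → g z = 0

theorem isCompact_Sq (x : ℂ) (r : ℝ) : IsCompact (Sq x r) := by
  have e : Sq x r = Icc (x.re - r) (x.re + r) ×ℂ Icc (x.im - r) (x.im + r) := by
    ext z
    simp only [Sq, mem_ofPred_eq, Complex.mem_reProdIm, mem_Icc]
    tauto
  rw [e]
  exact isCompact_Icc.reProdIm isCompact_Icc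

theorem closedBall_subset_Sq (x : ℂ) (r : ℝ) : Metric.closedBall x r ⊆ Sq x r := by
  intro z hz
  rw [Metric.mem_closedBall, dist_eq_norm] at hz
  have h1 := (Complex.abs_re_le_norm (z - x)).trans hz
  have h2 := (Complex.abs_im_le_norm (z - x)).trans hz
  rw [Complex.sub_re, abs_le] at h1
  rw [Complex.sub_im, abs_le] at h2
  exact ⟨by linarith [h1.1], by linarith [h1.2], by linarith [h2.1], by linarith [h2.2]⟩

theorem Sq_subset_closedBall (x : ℂ) (r : ℝ) : Sq x r ⊆ Metric.closedBall x (2 * r) := by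
  rintro z ⟨h1, h2, h3, h4⟩
  rw [Metric.mem_closedBall, dist_eq_norm]
  refine (Complex.norm_le_abs_re_add_abs_im _).trans ?_
  have a1 : |(z - x).re| ≤ r := by
    rw [Complex.sub_re, abs_le]
    constructor <;> linarith
  have a2 : |(z - x).im| ≤ r := by
    rw [Complex.sub_im, abs_le]
    constructor <;> linarith
  linarith

theorem test_of_vanS {x : ℂ} {r : ℝ} {g : ℂ → ℝ} (hU : Sq x r ⊆ U) (hg : ContDiff ℝ ∞ g)
    (hv : VanS x r g) : Test U g := by
  have h1 : tsupport g ⊆ Sq x r := by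
    refine closure_minimal ?_ (isCompact_Sq x r).isClosed
    intro z hz
    by_contra hc
    exact hz (hv z hc)
  exact ⟨hg, (isCompact_Sq x r).of_isClosed_subset (isClosed_tsupport g) h1, h1.trans hU⟩

/-- squares: a smooth function of total mass zero is a divergence -/
theorem sol_of_vanS {x : ℂ} {r : ℝ} (hr : 0 < r) {g : ℂ → ℝ} (hU : Sq x r ⊆ U)
    (hg : ContDiff ℝ ∞ g) (hv : VanS x r g) (h0 : ∫ z, g z = 0) : Sol U g := by
  obtain ⟨φ₁, φ₂, h1, h2, h3, h4, h5⟩ := rect_div (a := x.re - r) (b := x.re + r)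
    (c := x.im - r) (d := x.im + r) (by linarith) (by linarith) hg (fun z hz => hv z hz) h0
  exact ⟨φ₁, φ₂, test_of_vanS hU h1 (fun z hz => h3 z hz), test_of_vanS hU h2
    (fun z hz => h4 z hz), h5⟩

/-- a bump of total mass one in a small ball -/
theorem exists_bump (y : ℂ) {r : ℝ} (hr : 0 < r) : ∃ η : ℂ → ℝ, ContDiff ℝ ∞ η ∧
    VanS y r η ∧ (∫ z, η z = 1) ∧ ∀ z, z ∉ Metric.closedBall y r → η z = 0 := by
  let B : ContDiffBump (y : ℂ) := ⟨r / 2, r, by linarith, by linarith⟩
  have h1 : ∀ z, z ∉ Metric.closedBall y r → B.normed volume z = 0 := by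
    intro z hz
    by_contra hne
    have h1 : z ∈ Function.support (B.normed volume) := hne
    rw [B.support_normed_eq] at h1
    exact hz (Metric.ball_subset_closedBall h1)
  exact ⟨B.normed volume, B.contDiff_normed, fun z hz => h1 z fun hc =>
    hz (closedBall_subset_Sq y r hc), B.integral_normed, h1⟩

theorem integrable_of_vanS {x : ℂ} {r : ℝ} {g : ℂ → ℝ} (hg : Continuous g) (hv : VanS x r g) :
    Integrable g :=
  hg.integrable_of_hasCompactSupport (HasCompactSupport.intro (isCompact_Sq x r) hv)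

/-- **Every smooth charge of total mass zero with compact support in a connected open set is the
divergence of a smooth flow with compact support in the set.** -/
theorem exists_div (hU : IsOpen U) (hc : IsPreconnected U) {f : ℂ → ℝ} (hf : Test U f)
    (h0 : ∫ z, f z = 0) : ∃ φ₁ φ₂ : ℂ → ℝ, Test U φ₁ ∧ Test U φ₂ ∧
      ∀ z, f z = fderiv ℝ φ₁ z 1 + fderiv ℝ φ₂ z Complex.I := by
  rcases U.eq_empty_or_nonempty with rfl | ⟨x₀, hx₀⟩
  · have h1 : f = fun _ => 0 := by
      funext z
      by_contra hne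
      exact hf.2.2 (subset_tsupport f hne)
    rw [h1]
    exact Sol.zero
  have hsq : ∀ x ∈ U, ∃ r > 0, Sq x r ⊆ U := by
    intro x hx
    obtain ⟨r, hr, hb⟩ := Metric.isOpen_iff.1 hU x hx
    exact ⟨r / 4, by positivity, (Sq_subset_closedBall x _).trans
      ((Metric.closedBall_subset_ball (by linarith)).trans hb)⟩
  obtain ⟨r₀, hr₀, hU₀⟩ := hsq x₀ hx₀
  obtain ⟨θ, hθs, hθv, hθ1, -⟩ := exists_bump x₀ hr₀
  have hθi : Integrable θ := integrable_of_vanS hθs.continuous hθv
  -- good points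
  set G : Set ℂ := {x | ∃ r > 0, Sq x r ⊆ U ∧ ∀ g : ℂ → ℝ, ContDiff ℝ ∞ g → VanS x r g →
    Sol U fun z => g z + (-(∫ w, g w)) * θ z} with hG
  have hself : ∀ x r, 0 < r → Sq x r ⊆ U → ∀ η : ℂ → ℝ, ContDiff ℝ ∞ η → VanS x r η →
      (∫ z, η z = 1) → ∀ g : ℂ → ℝ, ContDiff ℝ ∞ g → VanS x r g →
        Sol U fun z => g z + (-(∫ w, g w)) * η z := by
    intro x r hr hxU η hη hηv hη1 g hg hgv
    refine sol_of_vanS hr hxU (hg.add (contDiff_const.mul hη)) (fun z hz => ?_) ?_
    · rw [hgv z hz, hηv z hz, mul_zero, add_zero]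
    · rw [integral_add (integrable_of_vanS hg.continuous hgv)
        ((integrable_of_vanS hη.continuous hηv).const_mul _), integral_const_mul, hη1]
      ring
  have hG0 : x₀ ∈ G := ⟨r₀, hr₀, hU₀, fun g hg hgv => hself x₀ r₀ hr₀ hU₀ θ hθs hθv hθ1 g hg hgv⟩
  have hGopen : IsOpen G := by
    rw [Metric.isOpen_iff]
    rintro x ⟨r, hr, hxU, hx⟩
    refine ⟨r / 2, by positivity, fun y hy => ?_⟩
    have hsub : Sq y (r / 4) ⊆ Sq x r := by
      rw [Metric.mem_ball, dist_eq_norm] at hy
      have h1 := (Complex.abs_re_le_norm (y - x)).trans hy.le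
      have h2 := (Complex.abs_im_le_norm (y - x)).trans hy.le
      rw [Complex.sub_re, abs_le] at h1
      rw [Complex.sub_im, abs_le] at h2
      rintro z ⟨a1, a2, a3, a4⟩
      exact ⟨by linarith [h1.1], by linarith [h1.2], by linarith [h2.1], by linarith [h2.2]⟩
    exact ⟨r / 4, by positivity, hsub.trans hxU, fun g hg hgv =>
      hx g hg fun z hz => hgv z fun hc => hz (hsub hc)⟩
  have hGclosed : closure G ∩ U ⊆ G := by
    rintro x ⟨hx, hxU⟩
    obtain ⟨r, hr, hrU⟩ := hsq x hxU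
    obtain ⟨y, hy, hxy⟩ := Metric.mem_closure_iff.1 hx (r / 2) (by positivity)
    obtain ⟨ry, hry, hryU, hyG⟩ := hy
    have hρ : 0 < min ry (r / 4) := lt_min hry (by positivity)
    obtain ⟨η, hηs, hηv, hη1, -⟩ := exists_bump y hρ
    have hη2 : VanS y ry η := fun z hz => hηv z fun hc => hz
      ⟨by linarith [hc.1, min_le_left ry (r / 4)], by linarith [hc.2.1, min_le_left ry (r / 4)],
        by linarith [hc.2.2.1, min_le_left ry (r / 4)],
        by linarith [hc.2.2.2, min_le_left ry (r / 4)]⟩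
    have hη3 : VanS x r η := by
      intro z hz
      refine hηv z fun hc => hz ?_
      rw [dist_comm, dist_eq_norm] at hxy
      have h1 := (Complex.abs_re_le_norm (y - x)).trans hxy.le
      have h2 := (Complex.abs_im_le_norm (y - x)).trans hxy.le
      rw [Complex.sub_re, abs_le] at h1
      rw [Complex.sub_im, abs_le] at h2
      have h3 := min_le_right ry (r / 4)
      exact ⟨by linarith [hc.1, h1.1], by linarith [hc.2.1, h1.2], by linarith [hc.2.2.1, h2.1],
        by linarith [hc.2.2.2, h2.2]⟩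
    refine ⟨r, hr, hrU, fun g hg hgv => ?_⟩
    have h1 := hself x r hr hrU η hηs hη3 hη1 g hg hgv
    have h2 := (hyG η hηs hη2).smul (∫ w, g w)
    have h3 := h1.add h2
    convert h3 using 2 with z
    rw [hη1]
    ring
  have hUG : U ⊆ G := hc.subset_of_closure_inter_subset hGopen ⟨x₀, hx₀, hG0⟩ hGclosed
  -- partition of unity
  set K := tsupport f with hK
  have hKc : IsCompact K := hf.2.1
  have hex : ∀ x ∈ K, ∃ r > 0, Sq x r ⊆ U ∧ ∀ g : ℂ → ℝ, ContDiff ℝ ∞ g → VanS x r g →
      Sol U fun z => g z + (-(∫ w, g w)) * θ z := fun x hx => hUG (hf.2.2 hx)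
  choose! r hr1 hr2 hr3 using hex
  obtain ⟨t, htK, htc⟩ := hKc.elim_nhds_subcover (fun x => Metric.ball x (r x))
    (fun x hx => Metric.ball_mem_nhds x (hr1 x hx))
  obtain ⟨ρ, hρ⟩ := SmoothPartitionOfUnity.exists_isSubordinate 𝓘(ℝ, ℂ) hKc.isClosed
    (fun i : t => Metric.ball (i : ℂ) (r i)) (fun i => Metric.isOpen_ball) (by
      intro z hz
      obtain ⟨i, hi, hzi⟩ := mem_iUnion₂.1 (htc hz)
      exact mem_iUnion.2 ⟨⟨i, hi⟩, hzi⟩)
  have hs1 : ∀ z, f z = ∑ i : t, ρ i z * f z := by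
    intro z
    by_cases hz : z ∈ K
    · have h1 := ρ.sum_eq_one hz
      rw [finsum_eq_sum_of_fintype] at h1
      rw [← Finset.sum_mul, h1, one_mul]
    · rw [image_eq_zero_of_notMem_tsupport hz]
      simp
  have hρs : ∀ i : t, ContDiff ℝ ∞ fun z => ρ i z * f z := fun i =>
    ((ρ i).contMDiff.contDiff).mul hf.1
  have hρv : ∀ i : t, VanS (i : ℂ) (r i) fun z => ρ i z * f z := by
    intro i z hz
    have h1 : z ∉ tsupport (ρ i) := fun hc =>
      hz (closedBall_subset_Sq _ _ (Metric.ball_subset_closedBall (hρ i hc)))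
    show ρ i z * f z = 0
    rw [image_eq_zero_of_notMem_tsupport h1, zero_mul]
  have hsol : ∀ i : t, Sol U fun z => ρ i z * f z + (-(∫ w, ρ i w * f w)) * θ z := fun i =>
    hr3 i (htK i i.2) _ (hρs i) (hρv i)
  have hsum := Sol.sum Finset.univ fun (i : t) _ => hsol i
  have hint : ∑ i : t, (∫ w, ρ i w * f w) = 0 := by
    rw [← integral_finsetSum _ fun i _ => integrable_of_vanS (hρs i).continuous (hρv i), ← h0]
    exact integral_congr_ae (Eventually.of_forall fun z => (hs1 z).symm)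
  have hfin : (fun z => ∑ i : t, (ρ i z * f z + (-(∫ w, ρ i w * f w)) * θ z)) = f := by
    funext z
    rw [Finset.sum_add_distrib, ← hs1 z, ← Finset.sum_mul, Finset.sum_neg_distrib, hint]
    simp
  rw [hfin] at hsum
  exact hsum

end Vale.Agent.P167.H327
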