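import Vale.Agent.P167.H825.Defs2A
import Vale.Agent.P167.H327.Div
import Vale.Agent.P167.E6.Poly6

/-!
# P167, [DISC]: the lattice flow of a smooth flow

`fl φ₁ φ₂ δ` is the flow on the medial edges whose value at an edge is the flux of `φ` through the
side of the cell; its divergence is exactly the cell mass `H638.cm (dvg φ₁ φ₂) δ`.
-/

open Set Filter Topology MeasureTheory
open scoped ContDiff

namespace Vale.Agent.P167.H327

open H825 (dv epos dvg domP enl FlowIn)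
open E6 (IsPolygon Encloses region)

/-- The lattice flow: fluxes through the sides of the cells. -/
noncomputable def fl (φ₁ φ₂ : ℝ × ℝ → ℝ) (δ : ℝ) : Ed → ℝ
  | Sum.inl v => -∫ x in (δ * v.1)..(δ * (v.1 + 1)), φ₂ (x, δ * v.2)
  | Sum.inr v => ∫ y in (δ * v.2)..(δ * (v.2 + 1)), φ₁ (δ * v.1, y)

variable {φ₁ φ₂ φ₁' φ₂' : ℝ × ℝ → ℝ} {δ : ℝ}

theorem cont_dvg (h1 : ContDiff ℝ ∞ φ₁) (h2 : ContDiff ℝ ∞ φ₂) : Continuous (dvg φ₁ φ₂) := by
  have a1 : Continuous fun x => fderiv ℝ φ₁ x := h1.continuous_fderiv (by simp)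
  have a2 : Continuous fun x => fderiv ℝ φ₂ x := h2.continuous_fderiv (by simp)
  exact (a1.clm_apply continuous_const).add (a2.clm_apply continuous_const)

theorem contDiff_dvg (h1 : ContDiff ℝ ∞ φ₁) (h2 : ContDiff ℝ ∞ φ₂) :
    ContDiff ℝ ∞ (dvg φ₁ φ₂) := by
  have a1 : ContDiff ℝ ∞ fun x => fderiv ℝ φ₁ x := h1.fderiv_right (by simp)
  have a2 : ContDiff ℝ ∞ fun x => fderiv ℝ φ₂ x := h2.fderiv_right (by simp)
  exact (a1.clm_apply contDiff_const).add (a2.clm_apply contDiff_const)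

theorem dvg_eq_zero {x : ℝ × ℝ} (h1 : x ∉ tsupport φ₁) (h2 : x ∉ tsupport φ₂) :
    dvg φ₁ φ₂ x = 0 := by
  have e1 : fderiv ℝ φ₁ x = 0 :=
    image_eq_zero_of_notMem_tsupport fun h => h1 (tsupport_fderiv_subset ℝ h)
  have e2 : fderiv ℝ φ₂ x = 0 :=
    image_eq_zero_of_notMem_tsupport fun h => h2 (tsupport_fderiv_subset ℝ h)
  simp [dvg, e1, e2]

theorem tsupport_dvg : tsupport (dvg φ₁ φ₂) ⊆ tsupport φ₁ ∪ tsupport φ₂ := by
  refine closure_minimal (fun x hx => ?_) ((isClosed_tsupport _).union (isClosed_tsupport _))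
  by_contra hc
  rw [mem_union, not_or] at hc
  exact hx (dvg_eq_zero hc.1 hc.2)

theorem hcs_dvg (h1 : HasCompactSupport φ₁) (h2 : HasCompactSupport φ₂) :
    HasCompactSupport (dvg φ₁ φ₂) :=
  (h1.isCompact.union h2.isCompact).of_isClosed_subset (isClosed_tsupport _) tsupport_dvg

/-- **The divergence of the lattice flow is the cell mass of the divergence.** -/
theorem dv_fl (h1 : ContDiff ℝ ∞ φ₁) (h2 : ContDiff ℝ ∞ φ₂) (hδ : 0 < δ) (z : ℤ × ℤ) :
    dv (fl φ₁ φ₂ δ) z = H638.cm (dvg φ₁ φ₂) δ z := by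
  have hle : ((δ * ((z.1 : ℝ) - 1), δ * ((z.2 : ℝ) - 1)) : ℝ × ℝ) ≤ (δ * z.1, δ * z.2) := by
    refine ⟨?_, ?_⟩ <;> simp only <;> nlinarith
  have key := integral_divergence_prod_Icc_of_hasFDerivAt_off_countable_of_le φ₁ φ₂
    (fderiv ℝ φ₁) (fderiv ℝ φ₂) (δ * ((z.1 : ℝ) - 1), δ * ((z.2 : ℝ) - 1)) (δ * z.1, δ * z.2)
    hle ∅ countable_empty h1.continuous.continuousOn h2.continuous.continuousOn
    (fun x _ => (h1.differentiable (by simp) x).hasFDerivAt)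
    (fun x _ => (h2.differentiable (by simp) x).hasFDerivAt)
    ((cont_dvg h1 h2).continuousOn.integrableOn_compact isCompact_Icc)
  have hset : H638.cl δ z =ᵐ[volume]
      Icc (δ * ((z.1 : ℝ) - 1), δ * ((z.2 : ℝ) - 1)) ((δ * z.1, δ * z.2) : ℝ × ℝ) := by
    rw [H638.cl_eq hδ, ← Icc_prod_Icc, Measure.volume_eq_prod]
    exact Measure.set_prod_ae_eq Ico_ae_eq_Icc Ico_ae_eq_Icc
  have hcm : H638.cm (dvg φ₁ φ₂) δ z = _ := (setIntegral_congr_set hset).trans key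
  rw [hcm]
  simp only [dv, fl]
  push_cast
  have e1 : (z.1 : ℝ) - 1 + 1 = z.1 := by ring
  have e2 : (z.2 : ℝ) - 1 + 1 = z.2 := by ring
  rw [e1, e2]
  ring

theorem fl_add (h1 : Continuous φ₁) (h2 : Continuous φ₂) (h1' : Continuous φ₁')
    (h2' : Continuous φ₂') (e : Ed) : fl (fun x => φ₁ x + φ₁' x) (fun x => φ₂ x + φ₂' x) δ e =
      fl φ₁ φ₂ δ e + fl φ₁' φ₂' δ e := by
  rcases e with v | v
  · simp only [fl]
    rw [intervalIntegral.integral_add]
    · ring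
    · exact (h2.comp (by fun_prop : Continuous fun x : ℝ => (x, δ * (v.2 : ℝ)))).intervalIntegrable
        _ _
    · exact (h2'.comp (by fun_prop : Continuous fun x : ℝ => (x, δ * (v.2 : ℝ)))).intervalIntegrable
        _ _
  · simp only [fl]
    rw [intervalIntegral.integral_add]
    · exact (h1.comp (by fun_prop : Continuous fun y : ℝ => (δ * (v.1 : ℝ), y))).intervalIntegrable
        _ _
    · exact (h1'.comp (by fun_prop : Continuous fun y : ℝ => (δ * (v.1 : ℝ), y))).intervalIntegrable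
        _ _

theorem fl_smul (s : ℝ) (e : Ed) : fl (fun x => s * φ₁ x) (fun x => s * φ₂ x) δ e =
    s * fl φ₁ φ₂ δ e := by
  rcases e with v | v
  · simp only [fl]
    rw [intervalIntegral.integral_const_mul]
    ring
  · simp only [fl]
    rw [intervalIntegral.integral_const_mul]

/-- A point of the support in the side of the edge. -/
theorem fl_ne (hδ : 0 < δ) {e : Ed} (he : fl φ₁ φ₂ δ e ≠ 0) :
    ∃ x, (φ₁ x ≠ 0 ∨ φ₂ x ≠ 0) ∧ δ * (epos e).1 ≤ x.1 ∧ x.1 ≤ δ * ((epos e).1 + 1) ∧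
      δ * (epos e).2 ≤ x.2 ∧ x.2 ≤ δ * ((epos e).2 + 1) := by
  rcases e with v | v
  · simp only [fl, neg_ne_zero] at he
    by_contra hc
    push Not at hc
    refine he ?_
    refine intervalIntegral.integral_zero_ae (Eventually.of_forall fun x hx => ?_)
    rw [uIoc_of_le (by nlinarith)] at hx
    by_contra hne
    have h := hc (x, δ * v.2) (Or.inr hne) hx.1.le hx.2 le_rfl
    simp only [epos] at h
    nlinarith
  · simp only [fl] at he
    by_contra hc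
    push Not at hc
    refine he ?_
    refine intervalIntegral.integral_zero_ae (Eventually.of_forall fun y hy => ?_)
    rw [uIoc_of_le (by nlinarith)] at hy
    by_contra hne
    have h := hc (δ * v.1, y) (Or.inl hne) le_rfl (by simp only [epos]; nlinarith) hy.1.le
    simp only [epos] at h
    linarith [hy.2]

theorem fl_le {M : ℝ} (h1 : ∀ x, |φ₁ x| ≤ M) (h2 : ∀ x, |φ₂ x| ≤ M) (hδ : 0 < δ) (e : Ed) :
    |fl φ₁ φ₂ δ e| ≤ M * δ := by
  rcases e with v | v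
  · simp only [fl, abs_neg]
    have h := intervalIntegral.norm_integral_le_of_norm_le_const (a := δ * (v.1 : ℝ))
      (b := δ * ((v.1 : ℝ) + 1)) (f := fun x => φ₂ (x, δ * v.2)) (C := M) fun x _ => h2 _
    rw [show δ * ((v.1 : ℝ) + 1) - δ * v.1 = δ by ring, abs_of_pos hδ, Real.norm_eq_abs] at h
    exact h
  · simp only [fl]
    have h := intervalIntegral.norm_integral_le_of_norm_le_const (a := δ * (v.2 : ℝ))
      (b := δ * ((v.2 : ℝ) + 1)) (f := fun y => φ₁ (δ * v.1, y)) (C := M) fun x _ => h1 _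
    rw [show δ * ((v.2 : ℝ) + 1) - δ * v.2 = δ by ring, abs_of_pos hδ, Real.norm_eq_abs] at h
    exact h

theorem cm_abs_le {F : ℝ × ℝ → ℝ} {M : ℝ} (hM : ∀ x, |F x| ≤ M) (hδ : 0 < δ) (s : ℤ × ℤ) :
    |H638.cm F δ s| ≤ M * δ ^ 2 := by
  have hv : volume.real (H638.cl δ s) = δ ^ 2 := by
    rw [Measure.real, H638.vol_cl hδ, ENNReal.toReal_ofReal (by positivity)]
  have hfin : volume (H638.cl δ s) < ⊤ := by rw [H638.vol_cl hδ]; exact ENNReal.ofReal_lt_top
  have h := norm_setIntegral_le_of_norm_le_const (f := F) hfin fun x _ => hM x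
  rw [hv, Real.norm_eq_abs] at h
  exact h

theorem exists_bd {F : ℝ × ℝ → ℝ} (h : Continuous F) (hs : HasCompactSupport F) :
    ∃ M : ℝ, 0 ≤ M ∧ ∀ x, |F x| ≤ M := by
  obtain ⟨M, hM⟩ := h.bounded_above_of_compact_support hs
  exact ⟨max M 0, le_max_right _ _, fun x => (hM x).trans (le_max_left _ _)⟩

/-- **Bounds of the lattice flow.** -/
theorem exists_B (h1 : ContDiff ℝ ∞ φ₁) (h2 : ContDiff ℝ ∞ φ₂) (s1 : HasCompactSupport φ₁)
    (s2 : HasCompactSupport φ₂) : ∃ B : ℝ, 0 < B ∧ ∀ δ > 0, (∀ e, |fl φ₁ φ₂ δ e| ≤ B * δ) ∧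
      ∀ z, |dv (fl φ₁ φ₂ δ) z| ≤ B * δ ^ 2 := by
  obtain ⟨M1, hM1, hb1⟩ := exists_bd h1.continuous s1
  obtain ⟨M2, hM2, hb2⟩ := exists_bd h2.continuous s2
  obtain ⟨M3, hM3, hb3⟩ := exists_bd (cont_dvg h1 h2) (hcs_dvg s1 s2)
  refine ⟨M1 + M2 + M3 + 1, by positivity, fun δ hδ => ⟨fun e => ?_, fun z => ?_⟩⟩
  · exact (fl_le (fun x => (hb1 x).trans (by linarith)) (fun x => (hb2 x).trans (by linarith)) hδ e)
  · rw [dv_fl h1 h2 hδ]
    exact cm_abs_le (fun x => (hb3 x).trans (by linarith)) hδ z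

/-- **Distance of the lattice flow to a closed set which does not meet the support.** -/
theorem exists_far {L : Set (ℝ × ℝ)} (hL : IsClosed L) (s1 : HasCompactSupport φ₁)
    (s2 : HasCompactSupport φ₂) (d1 : Disjoint (tsupport φ₁) L) (d2 : Disjoint (tsupport φ₂) L)
    (C : ℝ) : ∃ κ > 0, ∀ᶠ n : ℕ in atTop, ∀ e, fl φ₁ φ₂ (1 / n) e ≠ 0 → ∀ w : ℤ × ℤ,
      (∃ y ∈ L, |n * y.1 - w.1| ≤ C ∧ |n * y.2 - w.2| ≤ C) → κ * n ≤ (nm (epos e - w) : ℝ) := by
  obtain ⟨r, hr, hd⟩ := Disjoint.exists_cthickenings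
    (disjoint_union_left.2 ⟨d1, d2⟩) (s1.isCompact.union s2.isCompact) hL
  have hd2 : ∀ x ∈ tsupport φ₁ ∪ tsupport φ₂, ∀ y ∈ L, r < dist x y := by
    intro x hx y hy
    by_contra hc
    push Not at hc
    exact disjoint_left.1 hd (Metric.mem_cthickening_of_dist_le y x r _ hx (by rwa [dist_comm]))
      (Metric.self_subset_cthickening _ hy)
  refine ⟨r / 2, by positivity, ?_⟩
  have hn : ∀ᶠ n : ℕ in atTop, (2 * (1 + C) / r : ℝ) ≤ n :=
    tendsto_natCast_atTop_atTop.eventually_ge_atTop _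
  filter_upwards [hn, eventually_gt_atTop 0] with n hn hn0 e he w hw
  obtain ⟨y, hy, hy1, hy2⟩ := hw
  have hn0' : (0 : ℝ) < n := by exact_mod_cast hn0
  obtain ⟨x, hx, a1, a2, a3, a4⟩ := fl_ne (by positivity) he
  have hx' : x ∈ tsupport φ₁ ∪ tsupport φ₂ := hx.imp (fun h => subset_tsupport _ h)
    (fun h => subset_tsupport _ h)
  have h := hd2 x hx' y hy
  rw [Prod.dist_eq, lt_max_iff, Real.dist_eq, Real.dist_eq] at h
  rw [div_le_iff₀ hr] at hn
  rw [one_div_mul_eq_div, div_le_iff₀ hn0'] at a1 a3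
  rw [one_div_mul_eq_div, le_div_iff₀ hn0'] at a2 a4
  have hnm : (nm (epos e - w) : ℝ) = max |((epos e).1 : ℝ) - w.1| |((epos e).2 : ℝ) - w.2| := by
    simp [nm]
  rw [hnm, le_max_iff]
  rw [abs_le] at hy1 hy2
  rcases h with h | h
  · left
    rw [le_abs]
    rcases lt_abs.1 h with h | h
    · left
      nlinarith [mul_lt_mul_of_pos_left h hn0']
    · right
      nlinarith [mul_lt_mul_of_pos_left h hn0']
  · right
    rw [le_abs]
    rcases lt_abs.1 h with h | h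
    · left
      nlinarith [mul_lt_mul_of_pos_left h hn0']
    · right
      nlinarith [mul_lt_mul_of_pos_left h hn0']

/-- The support of the lattice flow. -/
theorem exists_R (s1 : HasCompactSupport φ₁) (s2 : HasCompactSupport φ₂) :
    ∃ R : ℝ, 0 < R ∧ ∀ n : ℕ, 0 < n → ∀ e, fl φ₁ φ₂ (1 / n) e ≠ 0 → (nm (epos e) : ℝ) ≤ R * n := by
  obtain ⟨R, hR⟩ := (s1.isCompact.union s2.isCompact).isBounded.subset_closedBall (0 : ℝ × ℝ)
  refine ⟨|R| + 1, by positivity, fun n hn0 e he => ?_⟩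
  have hn0' : (0 : ℝ) < n := by exact_mod_cast hn0
  have hn1 : (1 : ℝ) ≤ n := by exact_mod_cast hn0
  obtain ⟨x, hx, a1, a2, a3, a4⟩ := fl_ne (by positivity) he
  have hx' : x ∈ tsupport φ₁ ∪ tsupport φ₂ := hx.imp (fun h => subset_tsupport _ h)
    (fun h => subset_tsupport _ h)
  have h := hR hx'
  rw [mem_closedBall_zero_iff, Prod.norm_def, sup_le_iff, Real.norm_eq_abs, Real.norm_eq_abs,
    abs_le, abs_le] at h
  rw [one_div_mul_eq_div, div_le_iff₀ hn0'] at a1 a3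
  rw [one_div_mul_eq_div, le_div_iff₀ hn0'] at a2 a4
  have hnm : (nm (epos e) : ℝ) = max |((epos e).1 : ℝ)| |((epos e).2 : ℝ)| := by
    simp [nm]
  have hRR := le_abs_self R
  rw [hnm, max_le_iff, abs_le, abs_le]
  refine ⟨⟨?_, ?_⟩, ?_, ?_⟩
  · nlinarith [h.1.1, h.1.2]
  · nlinarith [h.1.1, h.1.2]
  · nlinarith [h.2.1, h.2.2]
  · nlinarith [h.2.1, h.2.2]

theorem mem_enl {S₀ : Finset (ℤ × ℤ)} {n : ℕ} {v : ℤ × ℤ} : v ∈ enl S₀ n ↔ ∃ f ∈ S₀,
    (n * f.1 ≤ v.1 ∧ v.1 < n * f.1 + n) ∧ n * f.2 ≤ v.2 ∧ v.2 < n * f.2 + n := by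
  simp only [enl, Finset.mem_biUnion, Finset.mem_image, Finset.mem_product, Finset.mem_range]
  refine exists_congr fun f => and_congr_right fun _ => ⟨?_, ?_⟩
  · rintro ⟨a, ⟨h1, h2⟩, rfl⟩
    simp only
    omega
  · rintro ⟨⟨h1, h2⟩, h3, h4⟩
    refine ⟨((v.1 - n * f.1).toNat, (v.2 - n * f.2).toNat), ⟨?_, ?_⟩, ?_⟩
    · simp only
      omega
    · simp only
      omega
    · apply Prod.ext <;> simp only <;> omega

theorem isOpen_domP (S₀ : Finset (ℤ × ℤ)) : IsOpen (domP S₀) := by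
  have : Continuous fun x : ℝ × ℝ => (⟨x.1, x.2⟩ : ℂ) :=
    Complex.equivRealProdCLM.symm.continuous
  exact isOpen_interior.preimage this

theorem domP_eq (S₀ : Finset (ℤ × ℤ)) :
    domP S₀ = Complex.equivRealProdCLM.symm ⁻¹' (E6.D6 1 S₀) := rfl

theorem isPreconnected_domP {l : ℕ} {p : ZMod l → ℤ × ℤ} {S₀ : Finset (ℤ × ℤ)}
    (hp : IsPolygon p) (hS : Encloses p S₀) : IsPreconnected (domP S₀) := by
  rw [domP_eq]
  have h := (E6.isConnected_D6 one_pos hp hS).isPreconnected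
  have e : Complex.equivRealProdCLM.symm ⁻¹' (E6.D6 1 S₀) =
      Complex.equivRealProdCLM '' (E6.D6 1 S₀) :=
    (Complex.equivRealProdCLM.toEquiv.image_eq_preimage_symm _).symm
  rw [e]
  exact h.image _ Complex.equivRealProdCLM.continuous.continuousOn

/-- **The lattice flow is a flow in the enlarged polygon.** -/
theorem exists_flowIn {S₀ : Finset (ℤ × ℤ)} (h1 : ContDiff ℝ ∞ φ₁) (h2 : ContDiff ℝ ∞ φ₂)
    (s1 : HasCompactSupport φ₁) (s2 : HasCompactSupport φ₂) (t1 : tsupport φ₁ ⊆ domP S₀)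
    (t2 : tsupport φ₂ ⊆ domP S₀) : ∃ κ > 0, ∃ B > 0, ∀ᶠ n : ℕ in atTop,
      FlowIn (enl S₀ n) κ B n (fl φ₁ φ₂ (1 / n)) := by
  obtain ⟨B, hB, hB'⟩ := exists_B h1 h2 s1 s2
  obtain ⟨κ, hκ, hκ'⟩ := exists_far (L := (domP S₀)ᶜ) (isOpen_domP S₀).isClosed_compl s1 s2
    (disjoint_compl_right_iff_subset.2 t1) (disjoint_compl_right_iff_subset.2 t2) (1 / 2)
  refine ⟨κ / 2, by positivity, B, hB, ?_⟩
  filter_upwards [hκ', eventually_gt_atTop 0] with n hn hn0
  have hn0' : (0 : ℝ) < n := by exact_mod_cast hn0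
  refine ⟨fun e he v hv => ?_, fun e => ?_, fun z => ?_⟩
  · set y : ℝ × ℝ := ((v.1 + 1 / 2) / n, (v.2 + 1 / 2) / n) with hy
    have hyd : y ∈ domP S₀ := by
      by_contra hc
      have h := hn e he v ⟨y, hc, by rw [hy]; field_simp; norm_num, by
        rw [hy]; field_simp; norm_num⟩
      have h2 : (nm (v - epos e) : ℝ) = nm (epos e - v) := by
        simp only [nm, Prod.fst_sub, Prod.snd_sub]
        rw [abs_sub_comm, abs_sub_comm v.2]
      rw [h2] at hv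
      nlinarith
    have hyr : (⟨y.1, y.2⟩ : ℂ) ∈ region 1 S₀ := interior_subset hyd
    obtain ⟨f, hf, b1, b2, b3, b4⟩ := hyr
    simp only [one_mul] at b1 b2 b3 b4
    rw [mem_enl]
    rw [hy] at b1 b2 b3 b4
    simp only at b1 b2 b3 b4
    rw [le_div_iff₀ hn0'] at b1 b3
    rw [div_le_iff₀ hn0'] at b2 b4
    refine ⟨f, hf, ⟨?_, ?_⟩, ?_, ?_⟩
    · have : ((n * f.1 : ℤ) : ℝ) < (v.1 + 1 : ℤ) := by push_cast; linarith
      have := Int.cast_lt.1 this
      omega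
    · have : (v.1 : ℝ) < (n * f.1 + n : ℤ) := by push_cast; linarith
      exact_mod_cast this
    · have : ((n * f.2 : ℤ) : ℝ) < (v.2 + 1 : ℤ) := by push_cast; linarith
      have := Int.cast_lt.1 this
      omega
    · have : (v.2 : ℝ) < (n * f.2 + n : ℤ) := by push_cast; linarith
      exact_mod_cast this
  · have := (hB' (1 / n) (by positivity)).1 e
    rwa [mul_one_div] at this
  · have := (hB' (1 / n) (by positivity)).2 z
    rwa [div_pow, one_pow, mul_one_div] at this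

/-- **Every smooth charge of total mass zero with compact support in a connected open set of the
plane is a divergence** (`ℝ × ℝ` form). -/
theorem exists_dvg {U : Set (ℝ × ℝ)} (hU : IsOpen U) (hc : IsPreconnected U) {f : ℝ × ℝ → ℝ}
    (hf : ContDiff ℝ ∞ f) (hs : HasCompactSupport f) (ht : tsupport f ⊆ U)
    (h0 : ∫ x, f x = 0) : ∃ φ₁ φ₂ : ℝ × ℝ → ℝ, ContDiff ℝ ∞ φ₁ ∧ ContDiff ℝ ∞ φ₂ ∧
      HasCompactSupport φ₁ ∧ HasCompactSupport φ₂ ∧ tsupport φ₁ ⊆ U ∧ tsupport φ₂ ⊆ U ∧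
      f = dvg φ₁ φ₂ := by
  set E := Complex.equivRealProdCLM with hE
  have hUE : IsOpen (E ⁻¹' U) := hU.preimage E.continuous
  have hcE : IsPreconnected (E ⁻¹' U) := by
    have e : E ⁻¹' U = E.symm '' U := (E.symm.toEquiv.image_eq_preimage_symm _).symm
    rw [e]
    exact hc.image _ E.symm.continuous.continuousOn
  have hT : BVP.Test (E ⁻¹' U) (f ∘ E) := by
    refine ⟨hf.comp E.contDiff, ?_, ?_⟩
    · exact hs.comp_homeomorph E.toHomeomorph
    · have : tsupport (f ∘ E) = E ⁻¹' tsupport f := tsupport_comp_eq_preimage f E.toHomeomorph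
      rw [this]
      exact preimage_mono ht
  have hI : ∫ z, (f ∘ E) z = 0 := by
    rw [← h0]
    exact Complex.volume_preserving_equiv_real_prod.integral_comp
      Complex.measurableEquivRealProd.measurableEmbedding f
  obtain ⟨a, b, ha, hb, hab⟩ := exists_div hUE hcE hT hI
  have hsup : ∀ g : ℂ → ℝ, tsupport (g ∘ E.symm) = E.symm ⁻¹' tsupport g := fun g =>
    tsupport_comp_eq_preimage g E.symm.toHomeomorph
  have hsub : ∀ g : ℂ → ℝ, tsupport g ⊆ E ⁻¹' U → tsupport (g ∘ E.symm) ⊆ U := by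
    intro g hg x hx
    rw [hsup] at hx
    have := hg hx
    rwa [mem_preimage, E.apply_symm_apply] at this
  have hfd : ∀ g : ℂ → ℝ, ContDiff ℝ ∞ g → ∀ x v, fderiv ℝ (g ∘ E.symm) x v =
      fderiv ℝ g (E.symm x) (E.symm v) := by
    intro g hg x v
    rw [fderiv_comp x (hg.differentiable (by simp) _) E.symm.differentiableAt,
      E.symm.fderiv]
    rfl
  refine ⟨a ∘ E.symm, b ∘ E.symm, ha.1.comp E.symm.contDiff, hb.1.comp E.symm.contDiff,
    ha.2.1.comp_homeomorph E.symm.toHomeomorph, hb.2.1.comp_homeomorph E.symm.toHomeomorph,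
    hsub a ha.2.2, hsub b hb.2.2, ?_⟩
  funext x
  have h := hab (E.symm x)
  have e1 : E.symm ((1 : ℝ), (0 : ℝ)) = (1 : ℂ) := rfl
  have e2 : E.symm ((0 : ℝ), (1 : ℝ)) = Complex.I := rfl
  rw [dvg, hfd a ha.1, hfd b hb.1, e1, e2, ← h]
  simp

/-- **Smooth neutral charges in a polygon are divergences.** -/
theorem exists_dvg_domP {l : ℕ} {p : ZMod l → ℤ × ℤ} {S₀ : Finset (ℤ × ℤ)}
    (hp : IsPolygon p) (hS : Encloses p S₀) {f : ℝ × ℝ → ℝ}
    (hf : ContDiff ℝ ∞ f) (hs : HasCompactSupport f) (ht : tsupport f ⊆ domP S₀)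
    (h0 : ∫ x, f x = 0) : ∃ φ₁ φ₂ : ℝ × ℝ → ℝ, ContDiff ℝ ∞ φ₁ ∧ ContDiff ℝ ∞ φ₂ ∧
      HasCompactSupport φ₁ ∧ HasCompactSupport φ₂ ∧ tsupport φ₁ ⊆ domP S₀ ∧
      tsupport φ₂ ⊆ domP S₀ ∧ f = dvg φ₁ φ₂ :=
  exists_dvg (isOpen_domP S₀) (isPreconnected_domP hp hS) hf hs ht h0

end Vale.Agent.P167.H327
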