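import Vale.Agent.P167.H327.Ori
import Vale.Agent.P167.H72.Cells
import Vale.Agent.P167.H634.CellDefs

/-!
# P167, block POS (L3), part 4: geometry

`pc p i`: the dart which ends at the midpoint of the edge `i` of the polygon, with the domain on the
left of the edge. In its local coordinates `qp`: the centre of the inner face is `(0, -1/2)`, the
vertex `p i` is `(-1/2, 0)`, the point `QF p δ (i + 1/2)` of the boundary of `Om δ S` is `(0, 3/8)`.
If the edge was not read, the path does not meet the cross of the edge.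
-/

set_option autoImplicit false
set_option linter.unusedSimpArgs false
set_option linter.unnecessarySeqFocus false

open Set Metric

namespace Vale.Agent.P167.H327

open Vale.Agent.P167.E6 Vale.Agent.P167.E2 Vale.Agent.P167.Fjord Vale.Agent.P167.H72
open Vale.Agent.P167.H634 (cf)

variable {n : ℕ} {p : ZMod n → ℤ × ℤ} {S : Finset (ℤ × ℤ)} {δ : ℝ} {k : ℕ}
  {A : Finset (Sym2 (ℤ × ℤ))}

/-- The dart of the edge `i` of the polygon. -/
noncomputable def pc (p : ZMod n → ℤ × ℤ) (i : ZMod n) : Medial := (p i, ro p i - 1)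

theorem fin4_m1 (r : Fin 4) : r - 1 + 1 = r := by
  revert r
  decide

theorem ahead_pc (hp : IsPolygon p) (i : ZMod n) : ahead (pc p i) = s(p i, p (i + 1)) := by
  unfold ahead pc
  simp only [fin4_m1]
  rw [← ro_spec hp]

theorem cf_qp (v : ℤ × ℤ) (r : Fin 4) :
    cf δ (face v r) = (δ : ℂ) * qp (v, r - 1) 0 (-(1 / 2)) := by
  unfold cf
  congr 1
  revert r
  refine forall4 ?_ ?_ ?_ ?_ <;> apply Complex.ext <;>
    simp only [qp, Fjord.em, adv_0, adv_1, adv_2, adv_3, face0, face1, face2, face3, dir0, dir1,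
      dir2, dir3, f4_01, f4_11, f4_21, f4_31, f4_0m, f4_1m, f4_2m, f4_3m, pt, Int.cast_one,
      Int.cast_zero, Int.cast_neg, Int.cast_add, Int.cast_sub, Complex.add_re, Complex.add_im,
      Complex.div_ofNat_re, Complex.div_ofNat_im, Complex.one_re, Complex.one_im, Complex.I_re,
      Complex.I_im] <;> ring

theorem pt_qp' (v : ℤ × ℤ) (r : Fin 4) : pt v = qp (v, r) (-(1 / 2)) 0 := pt_qp (v, r)

theorem QF_half (hp : IsPolygon p) (hS : Encloses p S) (i : ℤ) :
    QF p δ (i + 1 / 2) = (δ : ℂ) * qp (pc p i) 0 (3 / 8) := by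
  rw [QF, qF_near hp i (by norm_num) le_rfl, (loc_out (ri_ne_ro hp hS) (by norm_num)).1,
    (loc_out (ri_ne_ro hp hS) (by norm_num)).2]
  congr 1
  have e : ∀ x : ℝ, x + 1 / 2 * (1 - 2 * x) = 1 / 2 := fun x => by ring
  rw [e]
  unfold pc
  generalize ro p (i : ZMod n) = b
  generalize p (i : ZMod n) = v
  revert b
  refine forall4 ?_ ?_ ?_ ?_ <;> apply Complex.ext <;>
    simp only [nr, qp, Fjord.em, adv_0, adv_1, adv_2, adv_3, ex0, ex1, ex2, ex3, ey0, ey1, ey2, ey3,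
      dir0, dir1, dir2, dir3, f4_01, f4_11, f4_21, f4_31, f4_0m, f4_1m, f4_2m, f4_3m, Int.cast_one,
      Int.cast_zero, Int.cast_neg, Int.cast_add, Int.cast_sub] <;> ring

/-- The cross of an edge of the polygon is in the domain. -/
theorem qp_mem_Om (hδ : 0 < δ) (hp : IsPolygon p) (hS : Encloses p S) (i : ZMod n) {u t : ℝ}
    (hu : |u| ≤ 1 / 2) (ht0 : -(1 / 2) ≤ t) (ht1 : t < 3 / 8) :
    (δ : ℂ) * qp (pc p i) u t ∈ Om δ S := by
  rw [mem_Om hδ]
  have hf := (enc_out hp hS (i := i)).1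
  refine ⟨face (p i) (ro p i), hf, ?_⟩
  rw [abs_le] at hu
  obtain ⟨hu0, hu1⟩ := hu
  unfold pc
  clear hf
  generalize ro p (i : ZMod n) = b
  generalize p (i : ZMod n) = v
  revert b
  refine forall4 ?_ ?_ ?_ ?_ <;>
    simp only [qp, Fjord.em, adv_0, adv_1, adv_2, adv_3, face0, face1, face2, face3,
      dir0, dir1, dir2, dir3, f4_01, f4_11, f4_21, f4_31, f4_0m, f4_1m, f4_2m, f4_3m, Int.cast_one,
      Int.cast_zero, Int.cast_neg, Int.cast_add, Int.cast_sub] <;>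
    refine ⟨?_, ?_, ?_, ?_⟩ <;> linarith

/-- The points of the path. -/
theorem path_pt {j : ℕ} (hj : j - 1 ≤ len p k A) {s : ℝ} (hs : s ∈ Icc (0 : ℝ) j) :
    (∃ θ ∈ Icc (1 / 4 : ℝ) (3 / 8), ∃ c, lin (xv p k A) s = cpt θ c) ∨
    ∃ i < j - 1, (∃ u : ℝ, |u| ≤ 1 / 4 ∧ lin (xv p k A) s = qp (run p k A i) u (1 / 4)) ∨
      ∃ t : ℝ, |t| ≤ 1 / 4 ∧ lin (xv p k A) s = qp (run p k A i) (-(1 / 4)) t := by
  rcases le_or_gt s 1 with h1 | h1
  · left
    exact ⟨3 / 8 - s / 8, ⟨by linarith, by linarith [hs.1]⟩, cs p, lin_first h1⟩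
  · right
    have h2 : 1 < ⌈s⌉₊ := by
      have := Nat.lt_ceil.2 (show ((1 : ℕ) : ℝ) < s by push_cast; exact h1)
      exact this
    have h3 : ⌈s⌉₊ ≤ j := Nat.ceil_le.2 hs.2
    obtain ⟨i, hi⟩ : ∃ i, ⌈s⌉₊ = i + 2 := ⟨⌈s⌉₊ - 2, by omega⟩
    have h4 : s ≤ i + 2 := by
      have := Nat.le_ceil s
      rw [hi] at this
      push_cast at this
      exact this
    have h5 : (i : ℝ) + 1 < s := by
      have h6 : i + 1 < ⌈s⌉₊ := by omega
      have := Nat.lt_ceil.1 h6
      push_cast at this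
      exact this
    refine ⟨i, by omega, ?_⟩
    have e1 : lin (xv p k A) s = cpt (1 / 4) (run p k A i) +
        ((s - (i + 1) : ℝ) : ℂ) * (cpt (1 / 4) (run p k A (i + 1)) - cpt (1 / 4) (run p k A i)) := by
      rw [lin_eq _ (i + 1) (Or.inl (by push_cast; linarith)) (by push_cast; linarith),
        xv_mid (by omega), xv_mid (by omega)]
      push_cast
      ring
    set τ : ℝ := s - (i + 1) with hτ
    have hτ0 : 0 ≤ τ := by rw [hτ]; linarith
    have hτ1 : τ ≤ 1 := by rw [hτ]; linarith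
    by_cases ho : ahead (run p k A i) ∈ wiredOpen p k A
    · left
      have hr : run p k A (i + 1) = adv (run p k A i) := by rw [run_succ, next_open ho]; rfl
      refine ⟨-(1 / 4) + τ / 2, abs_le.2 ⟨by linarith, by linarith⟩, ?_⟩
      rw [e1, hr, cpt_qp, cpt_adv_qp]
      apply Complex.ext <;>
        simp only [qp, Complex.add_re, Complex.add_im, Complex.sub_re, Complex.sub_im,
          Complex.re_ofReal_mul, Complex.im_ofReal_mul] <;> ring
    · right
      have hr : run p k A (i + 1) = rot (run p k A i) := by rw [run_succ, next_closed ho]; rfl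
      refine ⟨1 / 4 - τ / 2, abs_le.2 ⟨by linarith, by linarith⟩, ?_⟩
      rw [e1, hr, cpt_qp, cpt_rot_qp]
      apply Complex.ext <;>
        simp only [qp, Complex.add_re, Complex.add_im, Complex.sub_re, Complex.sub_im,
          Complex.re_ofReal_mul, Complex.im_ofReal_mul] <;> ring

/-- **The path does not meet the cross of an edge which was not read.** -/
theorem path_avoid (hδ : 0 < δ) {j : ℕ} (hj : j - 1 ≤ len p k A) {c : Medial}
    (hun : ∀ i < j - 1, ahead (run p k A i) ≠ ahead c) {u t : ℝ}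
    (hut : (u = 0 ∧ |t| ≤ 1 / 2) ∨ (t = 0 ∧ |u| ≤ 1 / 2)) :
    (δ : ℂ) * qp c u t ∉ pl p k δ A '' Icc 0 (j : ℝ) := by
  rintro ⟨s, hs, he⟩
  have h0 : (δ : ℂ) ≠ 0 := by exact_mod_cast hδ.ne'
  have he' : lin (xv p k A) s = qp c u t := mul_left_cancel₀ h0 he
  have hu2 : |u| ≤ 1 / 2 := by
    rcases hut with ⟨h, -⟩ | ⟨-, h⟩
    · rw [h, abs_zero]; norm_num
    · exact h
  have ht2 : |t| ≤ 1 / 2 := by
    rcases hut with ⟨-, h⟩ | ⟨h, -⟩
    · exact h
    · rw [h, abs_zero]; norm_num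
  have hq := qp_dz (c := c) hu2 ht2
  have hdia : |u| + |t| < 1 / 2 → Dia c (qp c u t) := qp_dia
  have hu0 := abs_nonneg u
  have ht0 := abs_nonneg t
  have hut' : |u| = 0 ∨ |t| = 0 := by
    rcases hut with ⟨h, -⟩ | ⟨h, -⟩
    · left; rw [h, abs_zero]
    · right; rw [h, abs_zero]
  rcases path_pt hj hs with ⟨θ, hθ, c', h1⟩ | ⟨i, hi, ⟨v, hv, h1⟩ | ⟨v, hv, h1⟩⟩
  · rw [he', cpt_qp] at h1
    have e1 : |θ - 1 / 2| = 1 / 2 - θ := by
      rw [abs_of_nonpos (by linarith [hθ.2])]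
      ring
    have e2 : |θ| = θ := abs_of_nonneg (by linarith [hθ.1])
    have h2 := qp_dz (c := c') (u := θ - 1 / 2) (t := θ) (by rw [e1]; linarith [hθ.1])
      (by rw [e2]; linarith [hθ.2])
    rw [← h1, e1, e2] at h2
    have h3 : dz (qp c u t).re = θ ∧ dz (qp c u t).im = θ := by
      rcases h2 with ⟨a, b⟩ | ⟨a, b⟩ <;> constructor <;> linarith
    rw [h3.1, h3.2] at hq
    rcases hut' with h4 | h4 <;> rcases hq with ⟨a, b⟩ | ⟨a, b⟩ <;> linarith [hθ.1, hθ.2]
  · rw [he'] at h1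
    have hv0 := abs_nonneg v
    have e2 : |(1 / 4 : ℝ)| = 1 / 4 := by norm_num
    have h2 := qp_dz (c := run p k A i) (u := v) (t := 1 / 4) (by linarith) (by rw [e2]; norm_num)
    have h5 : |v| + |(1 / 4 : ℝ)| < 1 / 2 → Dia (run p k A i) (qp (run p k A i) v (1 / 4)) := qp_dia
    rw [← h1, e2] at h2 h5
    have h6 : |u| + |t| < 1 / 2 ∧ |v| + 1 / 4 < 1 / 2 := by
      rcases hut' with h4 | h4 <;> rcases hq with ⟨a, b⟩ | ⟨a, b⟩ <;>
        rcases h2 with ⟨a', b'⟩ | ⟨a', b'⟩ <;> constructor <;> linarith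
    exact hun i hi (dia_unique (h5 h6.2) (hdia h6.1))
  · rw [he'] at h1
    have hv0 := abs_nonneg v
    have e2 : |(-(1 / 4) : ℝ)| = 1 / 4 := by rw [abs_neg]; norm_num
    have h2 := qp_dz (c := run p k A i) (u := -(1 / 4)) (t := v) (by rw [e2]; norm_num)
      (by linarith)
    have h5 : |(-(1 / 4) : ℝ)| + |v| < 1 / 2 →
      Dia (run p k A i) (qp (run p k A i) (-(1 / 4)) v) := qp_dia
    rw [← h1, e2] at h2 h5
    have h6 : |u| + |t| < 1 / 2 ∧ 1 / 4 + |v| < 1 / 2 := by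
      rcases hut' with h4 | h4 <;> rcases hq with ⟨a, b⟩ | ⟨a, b⟩ <;>
        rcases h2 with ⟨a', b'⟩ | ⟨a', b'⟩ <;> constructor <;> linarith
    exact hun i hi (dia_unique (h5 h6.2) (hdia h6.1))

end Vale.Agent.P167.H327
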