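import Vale.Agent.P167.H327.Cur
import Vale.Agent.P167.H174.Exh
import Vale.Agent.P153.R2.R1.Out1

/-!
# P167, block E2-GEO, part 4: convergence of the uniformizers of the pushed domains
-/

set_option linter.all false

open Set Topology Metric Filter Bornology

namespace Vale.Agent.P167.H327

open Vale.Agent.P167.E6 Vale.Agent.P167.E2
open Vale.Agent.P153.R2.R1
open Vale.Agent.P153.R2.Final (dom circ toC IsUniformizer)

variable {n : ℕ} {p : ZMod n → ℤ × ℤ} {S : Finset (ℤ × ℤ)} {δ : ℝ}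

/-! ### The mesh `δ` -/

/-- The boundary curve of `Om δ S`. -/
noncomputable def QF (p : ZMod n → ℤ × ℤ) (δ : ℝ) (x : ℝ) : ℂ := (δ : ℂ) * qF p x

theorem jcurve_QF (hδ : 0 < δ) (hp : IsPolygon p) (hS : Encloses p S) : JCurve (QF p δ) n where
  pos := (jcurve_qF hp hS).pos
  cont := continuous_const.mul continuous_qF
  per x := by rw [QF, QF, qF_per]
  inj x y h := by
    have h0 : (δ : ℂ) ≠ 0 := by exact_mod_cast hδ.ne'
    exact (jcurve_qF hp hS).inj x y (mul_left_cancel₀ h0 h)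

theorem isOpen_Om (hδ : 0 < δ) (S : Finset (ℤ × ℤ)) : IsOpen (Om δ S) := by
  have h0 : (δ : ℂ) ≠ 0 := by exact_mod_cast hδ.ne'
  rw [Om_eq hδ]
  exact (Homeomorph.mulLeft₀ (δ : ℂ) h0).isOpenMap _ (isOpen_O1 _)

theorem frontier_Om (hδ : 0 < δ) (hp : IsPolygon p) (hS : Encloses p S) :
    frontier (Om δ S) = range (QF p δ) := by
  have h0 : (δ : ℂ) ≠ 0 := by exact_mod_cast hδ.ne'
  have h1 := (Homeomorph.mulLeft₀ (δ : ℂ) h0).image_frontier (O1 (S : Set (ℤ × ℤ)))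
  rw [frontier_O1_eq hp hS, ← range_comp] at h1
  rw [Om_eq hδ]
  exact h1.symm

theorem isBounded_Om (hδ : 0 < δ) (S : Finset (ℤ × ℤ)) : IsBounded (Om δ S) := by
  have h1 : IsBounded (O1 (S : Set (ℤ × ℤ))) := by
    rw [O1_eq]
    exact (isBounded_biUnion S.finite_toSet).2 fun f _ =>
      (isBounded_Ioo _ _).reProdIm (isBounded_Ioo _ _)
  rw [Om_eq hδ]
  obtain ⟨R, hR⟩ := h1.subset_closedBall 0
  refine (isBounded_closedBall (x := (0 : ℂ)) (r := δ * R)).subset ?_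
  rintro _ ⟨z, hz, rfl⟩
  have := hR hz
  rw [mem_closedBall_zero_iff] at this ⊢
  rw [norm_mul, Complex.norm_real, Real.norm_of_nonneg hδ.le]
  exact mul_le_mul_of_nonneg_left this hδ.le

theorem region_subset_Om (hδ : 0 < δ) (S : Finset (ℤ × ℤ)) : region δ S ⊆ Om δ S := by
  intro z hz
  refine ⟨z, hz, ?_, ?_⟩ <;> rw [sub_self, abs_zero] <;> positivity

/-- `Om δ S` is a bounded Jordan domain, if it is simply connected. -/
theorem good_Om (hδ : 0 < δ) (hp : IsPolygon p) (hS : Encloses p S)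
    (hr : P153.TOP.RMT.RDom (Om δ S)) : Good (Om δ S) where
  isOpen := isOpen_Om hδ S
  rdom := hr
  bdd := isBounded_Om hδ S
  lc := (jcurve_QF hδ hp hS).lc (frontier_Om hδ hp hS)
  nocut := (jcurve_QF hδ hp hS).noCut (frontier_Om hδ hp hS)

/-! ### The distance to the polygon -/

theorem dist_nr {v : ℤ × ℤ} {x y : ℝ} (hx : |x| ≤ 1 / 2) (hy : |y| ≤ 1 / 2) :
    dist (nr v x y) (pt v) ≤ 1 := by
  rw [dist_eq_norm]
  refine (Complex.norm_le_abs_re_add_abs_im _).trans ?_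
  have e1 : (nr v x y - pt v).re = x := by simp [nr, pt]
  have e2 : (nr v x y - pt v).im = y := by simp [nr, pt]
  rw [e1, e2]
  linarith

theorem dist_dir (v : ℤ × ℤ) (r : Fin 4) : dist (pt (v + dir r)) (pt v) = 1 := by
  rw [dist_eq_norm, pt_add, add_sub_cancel_left]
  revert r
  refine forall4 ?_ ?_ ?_ ?_
  · rw [pd0]
    have : (⟨1, 0⟩ : ℂ) = 1 := rfl
    rw [this, norm_one]
  · rw [pd1]
    have : (⟨0, 1⟩ : ℂ) = Complex.I := rfl
    rw [this, Complex.norm_I]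
  · rw [pd2]
    have : (⟨-1, 0⟩ : ℂ) = -1 := by apply Complex.ext <;> simp
    rw [this, norm_neg, norm_one]
  · rw [pd3]
    have : (⟨0, -1⟩ : ℂ) = -Complex.I := by apply Complex.ext <;> simp
    rw [this, norm_neg, Complex.norm_I]

theorem dist_qF (hp : IsPolygon p) (hS : Encloses p S) (x : ℝ) :
    dist (qF p x) (pt (p ⌊x⌋)) ≤ 2 := by
  have h1 := Int.floor_le x
  have h2 := Int.lt_floor_add_one x
  set i := ⌊x⌋ with hi
  rcases le_or_gt x (i + 1 / 2) with h | h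
  · have e : x = i + (x - i) := by ring
    have a1 : -(1 / 2) ≤ x - i := by linarith
    have a2 : x - i ≤ 1 / 2 := by linarith
    rw [e, qF_near hp i a1 a2]
    obtain ⟨b1, b2⟩ := loc_le (ri_ne_ro hp hS (i := i)) a1 a2
    linarith [dist_nr (v := p i) b1 b2]
  · have e : x = ((i + 1 : ℤ) : ℝ) + (x - i - 1) := by push_cast; ring
    have a1 : -(1 / 2) ≤ x - i - 1 := by linarith
    have a2 : x - i - 1 ≤ 1 / 2 := by linarith
    rw [e, qF_near hp (i + 1) a1 a2]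
    obtain ⟨b1, b2⟩ := loc_le (ri_ne_ro hp hS (i := ((i + 1 : ℤ) : ZMod n))) a1 a2
    have h3 := dist_nr (v := p ((i + 1 : ℤ) : ZMod n)) b1 b2
    have h4 : dist (pt (p ((i + 1 : ℤ) : ZMod n))) (pt (p i)) = 1 := by
      have h5 : p ((i + 1 : ℤ) : ZMod n) = p i + dir (ro p i) := by
        rw [← ro_spec hp]
        push_cast
        rfl
      rw [h5]
      exact dist_dir _ _
    have h5 := dist_triangle (nr (p ((i + 1 : ℤ) : ZMod n))
      (lX (ri p ((i + 1 : ℤ) : ZMod n)) (ro p ((i + 1 : ℤ) : ZMod n)) (x - i - 1))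
      (lY (ri p ((i + 1 : ℤ) : ZMod n)) (ro p ((i + 1 : ℤ) : ZMod n)) (x - i - 1)))
      (pt (p ((i + 1 : ℤ) : ZMod n))) (pt (p i))
    linarith

theorem dist_QF (hδ : 0 < δ) (hp : IsPolygon p) (hS : Encloses p S) (x : ℝ) :
    dist (QF p δ x) ((δ : ℂ) * pt (p ⌊x⌋)) ≤ 2 * δ := by
  rw [QF, dist_eq_norm, ← mul_sub, norm_mul, Complex.norm_real, Real.norm_of_nonneg hδ.le,
    ← dist_eq_norm]
  nlinarith [dist_qF hp hS x]

/-! ### The marks -/

theorem quad_cl (c r : Fin 4) : cl r (3 / 8 * sx c) (3 / 8 * sy c) := by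
  unfold cl
  revert c r
  refine forall4 ?_ ?_ ?_ ?_ <;> refine forall4 ?_ ?_ ?_ ?_ <;>
  simp only [sx0, sx1, sx2, sx3, sy0, sy1, sy2, sy3] <;> constructor <;> norm_num

theorem quad_op (c r : Fin 4) (h : r ≠ c) : ¬ op r (3 / 8 * sx c) (3 / 8 * sy c) := by
  unfold op
  revert c r
  refine forall4 ?_ ?_ ?_ ?_ <;> refine forall4 ?_ ?_ ?_ ?_ <;> intro h
  all_goals first
    | exact absurd rfl h
    | (simp only [sx0, sx1, sx2, sx3, sy0, sy1, sy2, sy3]
       rintro ⟨h1, h2⟩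
       linarith)

theorem quad_le (c : Fin 4) : |3 / 8 * sx c| ≤ 1 / 2 ∧ |3 / 8 * sy c| ≤ 1 / 2 := by
  revert c
  refine forall4 ?_ ?_ ?_ ?_ <;>
  simp only [sx0, sx1, sx2, sx3, sy0, sy1, sy2, sy3, abs_le] <;>
  refine ⟨⟨?_, ?_⟩, ?_, ?_⟩ <;> norm_num

theorem sq_eq' (c : Fin 4) : E2.sq c = ⟨sx c, sy c⟩ := by
  revert c
  refine forall4 ?_ ?_ ?_ ?_ <;>
  simp only [sx0, sx1, sx2, sx3, sy0, sy1, sy2, sy3, E2.sq] <;> apply Complex.ext <;> simp

theorem quad_eq (v : ℤ × ℤ) (c : Fin 4) :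
    pt v + (3 / 8 : ℝ) * E2.sq c = nr v (3 / 8 * sx c) (3 / 8 * sy c) := by
  rw [sq_eq']
  apply Complex.ext
  · rw [Complex.add_re, Complex.re_ofReal_mul]; rfl
  · rw [Complex.add_im, Complex.im_ofReal_mul]; rfl

theorem quad_frontier {v : ℤ × ℤ} {c r : Fin 4} (hc : face v c ∉ S) (hr : face v r ∈ S) :
    pt v + (3 / 8 : ℝ) * E2.sq c ∈ frontier (O1 (S : Set (ℤ × ℤ))) := by
  rw [quad_eq, mem_frontier_near (quad_le c).1 (quad_le c).2]
  refine ⟨⟨r, hr, quad_cl c r⟩, fun s hs => quad_op c s ?_⟩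
  rintro rfl
  exact hc hs

theorem image_frontier_Om (hδ : 0 < δ) {z : ℂ} (hz : z ∈ frontier (O1 (S : Set (ℤ × ℤ)))) :
    (δ : ℂ) * z ∈ frontier (Om δ S) := by
  have h0 : (δ : ℂ) ≠ 0 := by exact_mod_cast hδ.ne'
  have h1 := (Homeomorph.mulLeft₀ (δ : ℂ) h0).image_frontier (O1 (S : Set (ℤ × ℤ)))
  rw [Om_eq hδ]
  have h2 : (δ : ℂ) * z ∈ (Homeomorph.mulLeft₀ (δ : ℂ) h0) '' frontier (O1 (S : Set (ℤ × ℤ))) :=
    ⟨z, hz, rfl⟩
  rw [h1] at h2
  exact h2

theorem aM_mem (hδ : 0 < δ) (hp : IsPolygon p) (hS : Encloses p S) :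
    aM p δ ∈ frontier (Om δ S) :=
  image_frontier_Om hδ (quad_frontier (enc_out hp hS).2 (enc_out hp hS).1)

theorem bM_mem (hδ : 0 < δ) (hp : IsPolygon p) (hS : Encloses p S) (k : ℕ) :
    bM p k δ ∈ frontier (Om δ S) :=
  image_frontier_Om hδ (quad_frontier (enc_in hp hS).1 (enc_in hp hS).2)

theorem quad_inj {v w : ℤ × ℤ} {c d : Fin 4} (h : pt v + (3 / 8 : ℝ) * E2.sq c =
    pt w + (3 / 8 : ℝ) * E2.sq d) : v = w := by
  rw [quad_eq, quad_eq] at h
  have hx : (v.1 : ℝ) + 3 / 8 * sx c = w.1 + 3 / 8 * sx d := congrArg Complex.re h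
  have hy : (v.2 : ℝ) + 3 / 8 * sy c = w.2 + 3 / 8 * sy d := congrArg Complex.im h
  have key : ∀ {a b : ℤ} {s t : ℝ}, (s = 1 ∨ s = -1) → (t = 1 ∨ t = -1) →
      (a : ℝ) + 3 / 8 * s = b + 3 / 8 * t → a = b := by
    intro a b s t hs ht h
    have hi : ∀ {c : ℤ}, (8 : ℝ) * a = 8 * b + c → 8 * a = 8 * b + c := by
      intro c h
      exact_mod_cast h
    rcases hs with rfl | rfl <;> rcases ht with rfl | rfl
    · have := hi (c := 0) (by push_cast; linarith)
      omega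
    · have := hi (c := -6) (by push_cast; linarith)
      omega
    · have := hi (c := 6) (by push_cast; linarith)
      omega
    · have := hi (c := 0) (by push_cast; linarith)
      omega
  have hsx : ∀ c, sx c = 1 ∨ sx c = -1 := forall4 (Or.inl rfl) (Or.inr rfl) (Or.inr rfl) (Or.inl rfl)
  have hsy : ∀ c, sy c = 1 ∨ sy c = -1 := forall4 (Or.inl rfl) (Or.inl rfl) (Or.inr rfl) (Or.inr rfl)
  exact Prod.ext (key (hsx c) (hsx d) hx) (key (hsy c) (hsy d) hy)

theorem aM_ne_bM (hδ : 0 < δ) (hp : IsPolygon p) {k : ℕ} (hk : k + 1 < n) :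
    aM p δ ≠ bM p k δ := by
  have h0 : (δ : ℂ) ≠ 0 := by exact_mod_cast hδ.ne'
  intro h
  have h1 := hp.2.1 (quad_inj (mul_left_cancel₀ h0 h))
  have h2 : ((k + 1 : ℕ) : ZMod n) = 0 := by
    push_cast
    rw [← h1]
    ring
  rw [ZMod.natCast_eq_zero_iff] at h2
  have := Nat.le_of_dvd (by omega) h2
  omega

theorem dist_quad (hδ : 0 < δ) (v : ℤ × ℤ) (c : Fin 4) :
    dist ((δ : ℂ) * (pt v + (3 / 8 : ℝ) * E2.sq c)) ((δ : ℂ) * pt v) ≤ δ := by
  rw [dist_eq_norm, ← mul_sub, norm_mul, Complex.norm_real, Real.norm_of_nonneg hδ.le, quad_eq,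
    ← dist_eq_norm]
  nlinarith [dist_nr (v := v) (quad_le c).1 (quad_le c).2]

/-! ### Approximations -/

variable {Φ : (ℝ × ℝ) ≃ₜ (ℝ × ℝ)} {δn : ℕ → ℝ} {N k : ℕ → ℕ} {P : ∀ n, ZMod (N n) → ℤ × ℤ}
  {T : ℕ → Finset (ℤ × ℤ)}

/-- The boundary curves are uniformly close modulo reparametrisation. -/
theorem approx_close6 (h : Approx Φ δn N k P T) {ε : ℝ} (hε : 0 < ε) :
    ∀ᶠ n in atTop, ∃ σ : ℝ → ℝ, Continuous σ ∧ Monotone σ ∧
      (∀ x, σ (x + N n) = σ x + 2 * Real.pi) ∧ σ 0 = 0 ∧ σ (k n) = Real.pi ∧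
      ∀ x, dist (QF (P n) (δn n) x) (FC Φ (σ x)) ≤ ε := by
  obtain ⟨h1, h2, h3⟩ := h
  have hδ : ∀ᶠ n in atTop, δn n < ε / 4 := h2.eventually (gt_mem_nhds (by positivity))
  filter_upwards [hδ, h3 (ε / 2) (by positivity)] with n hδn ⟨s, hs, s0, sk, sN, hsd⟩
  obtain ⟨hδ0, hk0, hkN, hp, hS⟩ := h1 n
  have hN : 0 < N n := by omega
  have hmono := monotone_st hN hs s0 sN
  refine ⟨pl (st s (N n)), continuous_pl _, monotone_pl hmono, ?_, ?_, ?_, ?_⟩
  · intro x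
    have := pl_add (st s (N n)) (st s (N n)) (N n) (2 * Real.pi) (st_add hN) x
    exact_mod_cast this
  · have := pl_int (st s (N n)) 0
    rw [Int.cast_zero] at this
    rw [this]
    have e := st_nat (s := s) (N := N n) (i := 0) hN
    rw [Nat.cast_zero] at e
    rw [e, s0]
  · have := pl_int (st s (N n)) (k n)
    rw [Int.cast_natCast] at this
    rw [this, st_nat hkN, sk]
  · intro x
    have h7 := dist_QF (p := P n) hδ0 hp hS x
    set i := ⌊x⌋ with hi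
    have hσ := pl_mem_Icc hmono x
    rw [← hi] at hσ
    obtain ⟨e1, e2⟩ := st_step hN s0 sN i
    rw [e1, e2] at hσ
    set r := (i % (N n : ℤ)).toNat with hr
    set q := i / (N n : ℤ) with hq
    have hN0 : (0 : ℤ) < N n := by omega
    have hr0 : 0 ≤ i % (N n : ℤ) := Int.emod_nonneg i hN0.ne'
    have hr1 : i % (N n : ℤ) < N n := Int.emod_lt_of_pos i hN0
    have hrN : r < N n := by omega
    have hpi : P n (i : ZMod (N n)) = P n (r : ZMod (N n)) := by
      congr 1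
      have e3 : (i : ZMod (N n)) = ((r : ℤ) : ZMod (N n)) := by
        rw [ZMod.intCast_eq_intCast_iff_dvd_sub]
        refine ⟨-q, ?_⟩
        have e4 := Int.mul_ediv_add_emod i (N n)
        rw [← hq] at e4
        have e5 : (r : ℤ) = i % (N n) := by omega
        rw [e5]
        linarith
      rw [e3]
      push_cast
      rfl
    have hd := hsd r hrN (pl (st s (N n)) x - q * (2 * Real.pi))
      ⟨by linarith [hσ.1], by linarith [hσ.2]⟩
    have hF : FC Φ (pl (st s (N n)) x - q * (2 * Real.pi)) = FC Φ (pl (st s (N n)) x) := by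
      have := per_int (jcurve_FC Φ).per (-q) (pl (st s (N n)) x)
      push_cast at this
      rw [← this]
      congr 1
      ring
    rw [hpi] at h7
    have h6 : dist ((δn n : ℂ) * pt (P n r)) (FC Φ (pl (st s (N n)) x)) ≤ ε / 2 := by
      rw [← hF]
      exact hd.le
    have h8 := dist_triangle (QF (P n) (δn n) x) ((δn n : ℂ) * pt (P n r))
      (FC Φ (pl (st s (N n)) x))
    linarith

theorem kconv6 (h : Approx Φ δn N k P T) : KConv atTop (fun n => Om (δn n) (T n)) (DC Φ) where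
  bdd := by
    obtain ⟨R, hR⟩ := (isBounded_DC Φ).closure.subset_closedBall 0
    refine ⟨|R| + 1, by positivity, ?_⟩
    filter_upwards [approx_close6 h one_pos] with n hn
    obtain ⟨σ, -, -, -, -, -, hd⟩ := hn
    obtain ⟨hδ0, -, -, hp, hS⟩ := h.1 n
    refine subset_closedBall_of_frontier (isOpen_Om hδ0 _) (isBounded_Om hδ0 _) ?_
    rw [frontier_Om hδ0 hp hS]
    rintro _ ⟨x, rfl⟩
    have h1 : FC Φ (σ x) ∈ closedBall (0 : ℂ) R :=
      hR (frontier_subset_closure (FC_mem_frontier Φ (σ x)))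
    rw [mem_closedBall] at h1 ⊢
    have h2 := dist_triangle (QF (P n) (δn n) x) (FC Φ (σ x)) 0
    linarith [hd x, le_abs_self R]
  ctrl := by
    intro ε hε
    obtain ⟨η, hη, ε₁, hε₁, hctrl⟩ := (jcurve_FC Φ).ctrl hε
    refine ⟨η, hη, ?_⟩
    filter_upwards [approx_close6 h hε₁] with n hn
    obtain ⟨σ, hσc, hσm, hσp, -, -, hd⟩ := hn
    obtain ⟨hδ0, -, -, hp, hS⟩ := h.1 n
    have hJ := jcurve_QF hδ0 hp hS
    exact hctrl _ σ (N n) _ hJ.pos hJ.cont hJ.per hσc hσm hσp hd (frontier_Om hδ0 hp hS)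
  inner := by
    intro K hK hKc
    filter_upwards [H174.exhausts_of_approx h K hK hKc] with n hn
    exact hn.trans (region_subset_Om (h.1 n).1 _)
  outer := by
    intro q hq r hr
    rw [frontier_DC] at hq
    obtain ⟨t, rfl⟩ := hq
    filter_upwards [approx_close6 h (half_pos hr)] with n hn hsub
    obtain ⟨σ, hσc, hσm, hσp, hσ0, -, hd⟩ := hn
    obtain ⟨hδ0, -, -, hp, hS⟩ := h.1 n
    -- a parameter of the same point in `[0, 2π]`
    obtain ⟨j, hj, -⟩ := existsUnique_add_zsmul_mem_Ico (jcurve_FC Φ).pos t 0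
    rw [zsmul_eq_mul, zero_add] at hj
    have hN0 : (0 : ℝ) ≤ N n := by positivity
    have hσN : σ (N n) = 2 * Real.pi := by
      have := hσp 0
      rw [zero_add, hσ0, zero_add] at this
      exact this
    obtain ⟨x, -, hx⟩ := intermediate_value_Icc hN0 hσc.continuousOn
      (show t + j * (2 * Real.pi) ∈ Icc (σ 0) (σ (N n)) by
        rw [hσ0, hσN]; exact ⟨hj.1, hj.2.le⟩)
    have h1 := hd x
    rw [hx, per_int (jcurve_FC Φ).per j t] at h1
    have h2 : QF (P n) (δn n) x ∈ frontier (Om (δn n) (T n)) := by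
      rw [frontier_Om hδ0 hp hS]; exact mem_range_self x
    refine notMem_of_frontier (isOpen_Om hδ0 _) h2 (hsub ?_)
    rw [mem_ball]
    linarith

theorem tendsto_aM (h : Approx Φ δn N k P T) :
    Tendsto (fun n => aM (P n) (δn n)) atTop (𝓝 (FC Φ 0)) := by
  rw [Metric.tendsto_nhds]
  intro ε hε
  have hδ : ∀ᶠ n in atTop, δn n < ε / 2 := h.2.1.eventually (gt_mem_nhds (half_pos hε))
  filter_upwards [hδ, h.2.2 (ε / 2) (by positivity)] with n hδn ⟨s, hs, s0, sk, sN, hsd⟩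
  obtain ⟨hδ0, hk0, hkN, hp, hS⟩ := h.1 n
  have h1 := hsd (N n - 1) (by omega) (2 * Real.pi) ⟨by rw [← sN]; exact hs (by omega), by
    rw [Nat.sub_add_cancel (by omega), sN]⟩
  have e1 : ((N n - 1 : ℕ) : ZMod (N n)) = -1 := by
    rw [Nat.cast_sub (by omega)]
    simp
  have e2 : toC (Φ (circ (2 * Real.pi))) = FC Φ 0 := by
    have := (jcurve_FC Φ).per 0
    rw [zero_add] at this
    exact this
  rw [e1, e2] at h1
  have h2 := dist_quad hδ0 (P n (-1)) (ro (P n) (-1) - 1)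
  have h3 := dist_triangle (aM (P n) (δn n)) ((δn n : ℂ) * pt (P n (-1))) (FC Φ 0)
  have h4 : dist (aM (P n) (δn n)) ((δn n : ℂ) * pt (P n (-1))) ≤ δn n := h2
  linarith

theorem tendsto_bM (h : Approx Φ δn N k P T) :
    Tendsto (fun n => bM (P n) (k n) (δn n)) atTop (𝓝 (FC Φ Real.pi)) := by
  rw [Metric.tendsto_nhds]
  intro ε hε
  have hδ : ∀ᶠ n in atTop, δn n < ε / 2 := h.2.1.eventually (gt_mem_nhds (half_pos hε))
  filter_upwards [hδ, h.2.2 (ε / 2) (by positivity)] with n hδn ⟨s, hs, s0, sk, sN, hsd⟩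
  obtain ⟨hδ0, hk0, hkN, hp, hS⟩ := h.1 n
  have h1 := hsd (k n) hkN Real.pi ⟨sk.le, by rw [← sk]; exact hs (by omega)⟩
  have h2 := dist_quad hδ0 (P n (k n : ZMod (N n))) (ri (P n) (k n : ZMod (N n)))
  have h3 := dist_triangle (bM (P n) (k n) (δn n)) ((δn n : ℂ) * pt (P n (k n : ZMod (N n))))
    (FC Φ Real.pi)
  have h4 : dist (bM (P n) (k n) (δn n)) ((δn n : ℂ) * pt (P n (k n : ZMod (N n)))) ≤ δn n := h2
  have h5 : dist ((δn n : ℂ) * pt (P n (k n : ZMod (N n)))) (FC Φ Real.pi) < ε / 2 := h1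
  linarith

/-- Eventually there are at least two wired vertices. -/
theorem eventually_two (h : Approx Φ δn N k P T) : ∀ᶠ n in atTop, k n + 1 < N n := by
  have hd : 0 < dist (FC Φ 0) (FC Φ Real.pi) := dist_pos.2 (FC_zero_ne_pi Φ)
  have h1 := (tendsto_aM h).dist (tendsto_bM h)
  have h2 : ∀ᶠ n in atTop, dist (FC Φ 0) (FC Φ Real.pi) / 2 <
      dist (aM (P n) (δn n)) (bM (P n) (k n) (δn n)) := h1.eventually (lt_mem_nhds (by linarith))
  have h3 : ∀ᶠ n in atTop, δn n < dist (FC Φ 0) (FC Φ Real.pi) / 4 :=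
    h.2.1.eventually (gt_mem_nhds (by positivity))
  filter_upwards [h2, h3] with n h2 h3
  obtain ⟨hδ0, hk0, hkN, hp, hS⟩ := h.1 n
  by_contra hcon
  have hk : k n = N n - 1 := by omega
  have e1 : ((k n : ℕ) : ZMod (N n)) = -1 := by
    rw [hk, Nat.cast_sub (by omega)]
    simp
  have h4 : dist (aM (P n) (δn n)) ((δn n : ℂ) * pt (P n (-1))) ≤ δn n := dist_quad hδ0 _ _
  have h5 : dist (bM (P n) (k n) (δn n)) ((δn n : ℂ) * pt (P n (k n : ZMod (N n)))) ≤ δn n :=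
    dist_quad hδ0 _ _
  rw [e1] at h5
  have h6 := dist_triangle_right (aM (P n) (δn n)) (bM (P n) (k n) (δn n))
    ((δn n : ℂ) * pt (P n (-1)))
  linarith

/-- **Convergence of the uniformizers of the pushed domains.** -/
theorem rado6 (hr : ∀ n, P153.TOP.RMT.RDom (Om (δn n) (T n))) (h : Approx Φ δn N k P T)
    {ψ : ℂ → ℂ} (hψ : IsUniformizer Φ ψ) :
    ∃ (b' : ℕ → ℂ) (ψn : ℕ → ℂ → ℂ),
      (∀ n, k n + 1 < N n → b' n = bM (P n) (k n) (δn n)) ∧
      Tendsto b' atTop (𝓝 (FC Φ Real.pi)) ∧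
      (∀ n, b' n ∈ frontier (Om (δn n) (T n)) ∧ aM (P n) (δn n) ≠ b' n ∧
        IsU (ψn n) (Om (δn n) (T n)) (aM (P n) (δn n)) (b' n) ∧
        InjOn (ψn n) {z | 0 ≤ z.im}) ∧
      TendstoUniformlyOn ψn ψ atTop {z | 0 ≤ z.im} := by
  classical
  have hG : ∀ n, Good (Om (δn n) (T n)) := fun n => by
    obtain ⟨h1, -, -, h2, h3⟩ := h.1 n
    exact good_Om h1 h2 h3 (hr n)
  have hA : ∀ n, aM (P n) (δn n) ∈ frontier (Om (δn n) (T n)) := fun n => by
    obtain ⟨h1, -, -, h2, h3⟩ := h.1 n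
    exact aM_mem h1 h2 h3
  have hB : ∀ n, bM (P n) (k n) (δn n) ∈ frontier (Om (δn n) (T n)) := fun n => by
    obtain ⟨h1, -, -, h2, h3⟩ := h.1 n
    exact bM_mem h1 h2 h3 _
  have hex : ∀ n, ∃ b, b ∈ frontier (Om (δn n) (T n)) ∧ aM (P n) (δn n) ≠ b ∧
      (k n + 1 < N n → b = bM (P n) (k n) (δn n)) := by
    intro n
    obtain ⟨h1, -, -, h2, h3⟩ := h.1 n
    by_cases hk : k n + 1 < N n
    · exact ⟨_, hB n, aM_ne_bM h1 h2 hk, fun _ => rfl⟩
    · have hfr := frontier_Om h1 h2 h3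
      have hJ := jcurve_QF h1 h2 h3
      by_cases hc : QF (P n) (δn n) 0 = aM (P n) (δn n)
      · refine ⟨QF (P n) (δn n) (1 / 2), by rw [hfr]; exact mem_range_self _, ?_,
          fun h => absurd h hk⟩
        intro he
        rw [← hc] at he
        obtain ⟨m, hm⟩ := hJ.inj _ _ he
        have hN : (2 : ℝ) < N n := by exact_mod_cast h2.1
        have h4 : (m : ℝ) * N n = -(1 / 2) := by linarith
        rcases lt_trichotomy m 0 with hm0 | hm0 | hm0
        · have : (m : ℝ) ≤ -1 := by exact_mod_cast (by omega : m ≤ -1)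
          nlinarith
        · rw [hm0] at h4
          push_cast at h4
          linarith
        · have : (1 : ℝ) ≤ m := by exact_mod_cast hm0
          nlinarith
      · exact ⟨QF (P n) (δn n) 0, by rw [hfr]; exact mem_range_self _, fun he => hc he.symm,
          fun h => absurd h hk⟩
  choose b' hb1 hb2 hb3 using hex
  have hbt : Tendsto b' atTop (𝓝 (FC Φ Real.pi)) := by
    refine (tendsto_bM h).congr' ?_
    filter_upwards [eventually_two h] with n hn
    exact (hb3 n hn).symm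
  obtain ⟨ψn, h1, h2⟩ := half_rado (kconv6 h) hG (fun n => (hr n).nonempty)
    (good_DC Φ).nocut ((isUniformizer_iff Φ ψ).1 hψ)
    (an := fun n => aM (P n) (δn n)) (bn := b') hA hb1 hb2 (tendsto_aM h) hbt
  exact ⟨b', ψn, hb3, hbt, fun n => ⟨hb1 n, hb2 n, h1 n⟩, h2⟩

end Vale.Agent.P167.H327
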