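import Vale.Agent.P153.R2.R1.Out1
import Vale.Agent.P153.R2.DET.Uni
import Vale.Agent.P153.R2.OBSV.Holo

/-!
# P167, [CG5] ORI: the boundary values of the uniformizer of a Jordan domain run through the boundary
curve in the positive direction
-/

set_option linter.all false

open Set Topology Metric Filter Bornology

namespace Vale.Agent.P167.H327

open Vale.Agent.P153.R2
open Vale.Agent.P153.R2.R1
open Vale.Agent.P153.R2.DET (Uni HC)

section gen

variable {ψ : ℂ → ℂ} {D : Set ℂ} {a b : ℂ} {F : ℝ → ℂ} {L : ℝ}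

theorem uni_of (hU : IsU ψ D a b) (hn : NoCut D) : Uni ψ b :=
  ⟨hU.cont, (hU.injOn hn).1, hU.infty, (hU.injOn hn).2⟩

/-- The inverse of the uniformizer on the closed half-plane. -/
noncomputable def ph (ψ : ℂ → ℂ) : ℂ → ℂ := Function.invFunOn ψ HC

theorem ph_eq (h : Uni ψ b) {z : ℂ} (hz : z ∈ HC) : ph ψ (ψ z) = z :=
  h.inj (Function.invFunOn_mem ⟨z, hz, rfl⟩) hz (Function.invFunOn_eq ⟨z, hz, rfl⟩)

theorem ph_img {z : ℂ} (hz : z ∈ ψ '' HC) : ph ψ z ∈ HC ∧ ψ (ph ψ z) = z :=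
  ⟨Function.invFunOn_mem hz, Function.invFunOn_eq hz⟩

theorem ph_cont (h : Uni ψ b) : ContinuousOn (ph ψ) (ψ '' HC) := by
  rintro _ ⟨y, hy, rfl⟩
  show Tendsto _ _ _
  rw [ph_eq h hy]
  refine h.tendsto (u := ph ψ) ?_ hy ?_
  · filter_upwards [self_mem_nhdsWithin] with z hz
    exact (ph_img hz).1
  · refine (tendsto_id.mono_left nhdsWithin_le_nhds).congr' ?_
    filter_upwards [self_mem_nhdsWithin] with z hz
    exact (ph_img hz).2.symm

theorem pos_HC {z : ℂ} (h : 0 < z.im) : z ∈ HC := le_of_lt (α := ℝ) h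

theorem ph_mem (hU : IsU ψ D a b) (hn : NoCut D) {z : ℂ} (hz : z ∈ D) :
    0 < (ph ψ z).im ∧ ψ (ph ψ z) = z := by
  rw [← hU.img] at hz
  obtain ⟨w, hw, rfl⟩ := hz
  have hw' : 0 < w.im := hw
  rw [ph_eq (uni_of hU hn) (pos_HC hw')]
  exact ⟨hw', rfl⟩

theorem closure_sub (hU : IsU ψ D a b) (hn : NoCut D) {z : ℂ} (hz : z ∈ closure D)
    (hzb : z ≠ b) : z ∈ ψ '' HC := by
  have : (𝓝[D] z).NeBot := mem_closure_iff_nhdsWithin_neBot.1 hz
  refine (uni_of hU hn).exists (l := 𝓝[D] z) (u := ph ψ) ?_ hzb ?_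
  · filter_upwards [self_mem_nhdsWithin] with w hw
    exact pos_HC (ph_mem hU hn hw).1
  · refine (tendsto_id.mono_left nhdsWithin_le_nhds).congr' ?_
    filter_upwards [self_mem_nhdsWithin] with w hw
    exact (ph_mem hU hn hw).2.symm

/-- The points of the boundary, except the end point, correspond to the real points. -/
theorem frontier_real (hU : IsU ψ D a b) (hn : NoCut D) (hD : IsOpen D) {z : ℂ}
    (hz : z ∈ frontier D) (hzb : z ≠ b) : ∃ x : ℝ, ψ x = z ∧ ph ψ z = x := by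
  obtain ⟨w, hw, rfl⟩ := closure_sub hU hn (frontier_subset_closure hz) hzb
  have hw0 : w.im = 0 := by
    rcases (show (0 : ℝ) ≤ w.im from hw).eq_or_lt with h | h
    · exact h.symm
    · exfalso
      have h1 : ψ w ∈ D := hU.img ▸ ⟨w, h, rfl⟩
      rw [hD.frontier_eq] at hz
      exact hz.2 h1
  have e : w = (w.re : ℂ) := Complex.ext rfl (by simpa using hw0)
  refine ⟨w.re, by rw [← e], ?_⟩
  rw [ph_eq (uni_of hU hn) hw]
  exact e

theorem real_HC (x : ℝ) : (x : ℂ) ∈ HC := by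
  show (0 : ℝ) ≤ (x : ℂ).im
  simp

theorem real_frontier (hU : IsU ψ D a b) (hn : NoCut D) (hD : IsOpen D) (x : ℝ) :
    ψ x ∈ frontier D := by
  rw [hD.frontier_eq]
  refine ⟨?_, fun hc => ?_⟩
  · have h1 : (x : ℂ) ∈ closure {z : ℂ | 0 < z.im} := by
      rw [Complex.closure_setOf_lt_im]
      exact real_HC x
    have h2 : ContinuousWithinAt ψ {z : ℂ | 0 < z.im} x :=
      (hU.cont x (real_HC x)).mono fun z hz => le_of_lt (α := ℝ) hz
    rw [← hU.img]
    exact h2.mem_closure_image h1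
  · have h1 := (ph_mem hU hn hc).1
    rw [ph_eq (uni_of hU hn) (real_HC x)] at h1
    simp at h1

/-! ### The parameter -/

theorem per_zz (hF : JCurve F L) (x : ℝ) (k : ℤ) : F (x + k * L) = F x := per_int hF.per k x

theorem curve_ne (hF : JCurve F L) {tb t : ℝ} (ht : t ∈ Ioo tb (tb + L)) : F t ≠ F tb := by
  intro h
  obtain ⟨k, hk⟩ := hF.inj _ _ h
  have hL := hF.pos
  rcases lt_trichotomy k 0 with h0 | h0 | h0
  · have h1 : (k : ℝ) ≤ -1 := by exact_mod_cast (by omega : k ≤ -1)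
    nlinarith [ht.1]
  · rw [h0] at hk
    simp only [Int.cast_zero, zero_mul, add_zero] at hk
    exact ht.1.ne' hk
  · have h1 : (1 : ℝ) ≤ k := by exact_mod_cast h0
    nlinarith [ht.2]

/-- The real point which corresponds to the point of parameter `t` of the boundary. -/
noncomputable def hpar (ψ : ℂ → ℂ) (F : ℝ → ℂ) (t : ℝ) : ℝ := (ph ψ (F t)).re

variable {tb : ℝ}

theorem hpar_spec (hU : IsU ψ D a (F tb)) (hn : NoCut D) (hD : IsOpen D) (hF : JCurve F L)
    (hfr : frontier D = range F) {t : ℝ} (ht : t ∈ Ioo tb (tb + L)) :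
    ψ (hpar ψ F t) = F t ∧ ph ψ (F t) = hpar ψ F t := by
  obtain ⟨x, hx1, hx2⟩ := frontier_real hU hn hD (z := F t) (by rw [hfr]; exact ⟨t, rfl⟩)
    (curve_ne hF ht)
  have : hpar ψ F t = x := by rw [hpar, hx2]; simp
  rw [this]
  exact ⟨hx1, hx2⟩

theorem hpar_cont (hU : IsU ψ D a (F tb)) (hn : NoCut D) (hD : IsOpen D) (hF : JCurve F L)
    (hfr : frontier D = range F) : ContinuousOn (hpar ψ F) (Ioo tb (tb + L)) := by
  intro t ht
  have hm : ∀ u ∈ Ioo tb (tb + L), F u ∈ ψ '' HC := fun u hu =>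
    ⟨_, real_HC _, (hpar_spec hU hn hD hF hfr hu).1⟩
  have h1 : ContinuousWithinAt (fun t => ph ψ (F t)) (Ioo tb (tb + L)) t :=
    ContinuousWithinAt.comp (t := ψ '' HC) (ph_cont (uni_of hU hn) _ (hm t ht))
      hF.cont.continuousWithinAt fun u hu => hm u hu
  exact Complex.continuous_re.continuousAt.comp_continuousWithinAt h1

theorem hpar_inj (hU : IsU ψ D a (F tb)) (hn : NoCut D) (hD : IsOpen D) (hF : JCurve F L)
    (hfr : frontier D = range F) : InjOn (hpar ψ F) (Ioo tb (tb + L)) := by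
  intro t ht u hu h
  have h1 := (hpar_spec hU hn hD hF hfr ht).1
  have h2 := (hpar_spec hU hn hD hF hfr hu).1
  rw [h, h2] at h1
  obtain ⟨k, hk⟩ := hF.inj _ _ h1
  have hL := hF.pos
  rcases lt_trichotomy k 0 with h0 | h0 | h0
  · have h1 : (k : ℝ) ≤ -1 := by exact_mod_cast (by omega : k ≤ -1)
    nlinarith [ht.1, ht.2, hu.1, hu.2]
  · rw [h0] at hk
    simp only [Int.cast_zero, zero_mul, add_zero] at hk
    exact hk.symm
  · have h1 : (1 : ℝ) ≤ k := by exact_mod_cast h0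
    nlinarith [ht.1, ht.2, hu.1, hu.2]

/-- every real point is the value of a parameter -/
theorem hpar_surj (hU : IsU ψ D a (F tb)) (hn : NoCut D) (hD : IsOpen D) (hF : JCurve F L)
    (hfr : frontier D = range F) (x : ℝ) : ∃ t ∈ Ioo tb (tb + L), hpar ψ F t = x ∧ F t = ψ x := by
  obtain ⟨u, hu⟩ : ψ x ∈ range F := hfr ▸ real_frontier hU hn hD x
  obtain ⟨k, hk, -⟩ := existsUnique_add_zsmul_mem_Ico hF.pos u tb
  rw [zsmul_eq_mul] at hk
  have h1 : F (u + k * L) = ψ x := by rw [per_zz hF, hu]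
  have hne : u + k * L ≠ tb := by
    intro hc
    rw [hc] at h1
    exact (uni_of hU hn).ne x (real_HC x) h1.symm
  refine ⟨u + k * L, ⟨lt_of_le_of_ne hk.1 (Ne.symm hne), hk.2⟩, ?_, h1⟩
  rw [hpar, h1, ph_eq (uni_of hU hn) (real_HC x)]
  simp

theorem hpar_mono_or (hU : IsU ψ D a (F tb)) (hn : NoCut D) (hD : IsOpen D) (hF : JCurve F L)
    (hfr : frontier D = range F) :
    StrictMonoOn (hpar ψ F) (Ioo tb (tb + L)) ∨ StrictAntiOn (hpar ψ F) (Ioo tb (tb + L)) :=
  (hpar_cont hU hn hD hF hfr).strictMonoOn_of_injOn_Ioo (by linarith [hF.pos])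
    (hpar_inj hU hn hD hF hfr)

end gen

/-! ### Cauchy's theorem in a rectangle -/

theorem ofReal_add_mul_I (x y : ℝ) : ((x : ℂ) + (y : ℂ) * Complex.I).re = x ∧
    ((x : ℂ) + (y : ℂ) * Complex.I).im = y := by
  constructor <;> simp

/-- A function which maps the bottom side of a rectangle to the real line and the rectangle to the
upper half-plane does not reverse the order. -/
theorem rect_contra {G : ℂ → ℂ} {r : ℝ} (hr : 0 < r)
    (hc : ContinuousOn G (Icc (-r) r ×ℂ Icc (0 : ℝ) r))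
    (hd : DifferentiableOn ℂ G (Ioo (-r) r ×ℂ Ioo (0 : ℝ) r))
    (hbot : ∀ x ∈ Icc (-r) r, (G (x : ℂ)).im = 0)
    (him : ∀ z : ℂ, z.re ∈ Icc (-r) r → 0 < z.im → z.im ≤ r → 0 < (G z).im)
    (hA : (G (r : ℂ)).re < 0) (hB : 0 < (G ((-r : ℝ) : ℂ)).re) : False := by
  have hle : -r ≤ r := by linarith
  have hv : ∀ x ∈ Icc (-r) r,
      ContinuousOn (fun y : ℝ => G (x + y * Complex.I)) (Icc 0 r) := by
    intro x hx
    refine hc.comp (by fun_prop) ?_
    intro y hy
    exact ⟨by simpa using hx, by simpa using hy⟩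
  have hvA := hv r ⟨hle, le_rfl⟩
  have hvB := hv (-r) ⟨le_rfl, hle⟩
  have h0m : (0 : ℝ) ∈ Icc (0 : ℝ) r := ⟨le_rfl, hr.le⟩
  have eA : ∀ᶠ y : ℝ in 𝓝[Icc (0 : ℝ) r] (0 : ℝ), (G ((r : ℂ) + (y : ℂ) * Complex.I)).re < 0 := by
    have h3 : ContinuousWithinAt (fun y : ℝ => (G ((r : ℂ) + (y : ℂ) * Complex.I)).re)
      (Icc (0 : ℝ) r) 0 := Complex.continuous_re.continuousAt.comp_continuousWithinAt (hvA 0 h0m)
    refine h3.tendsto.eventually_lt_const ?_
    rw [Complex.ofReal_zero, zero_mul, add_zero]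
    exact hA
  have eB : ∀ᶠ y : ℝ in 𝓝[Icc (0 : ℝ) r] (0 : ℝ),
      0 < (G (((-r : ℝ) : ℂ) + (y : ℂ) * Complex.I)).re := by
    have h3 : ContinuousWithinAt (fun y : ℝ => (G (((-r : ℝ) : ℂ) + (y : ℂ) * Complex.I)).re)
      (Icc (0 : ℝ) r) 0 := Complex.continuous_re.continuousAt.comp_continuousWithinAt (hvB 0 h0m)
    refine h3.tendsto.eventually_const_lt ?_
    rw [Complex.ofReal_zero, zero_mul, add_zero]
    exact hB
  obtain ⟨ε, hε, hball⟩ := Metric.mem_nhdsWithin_iff.1 (eA.and eB)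
  set E := min (ε / 2) r with hE
  have hE0 : 0 < E := lt_min (by linarith) hr
  have hE8 : E ≤ r := min_le_right _ _
  have hEε : E < ε := (min_le_left _ _).trans_lt (by linarith)
  have hs1 : ∀ y ∈ Icc (0 : ℝ) E, (G ((r : ℂ) + (y : ℂ) * Complex.I)).re < 0 ∧
      0 < (G (((-r : ℝ) : ℂ) + (y : ℂ) * Complex.I)).re := by
    intro y hy
    have hm : y ∈ ball (0 : ℝ) ε ∩ Icc (0 : ℝ) r := by
      refine ⟨?_, hy.1, hy.2.trans hE8⟩
      rw [mem_ball, Real.dist_eq, sub_zero, abs_of_nonneg hy.1]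
      exact hy.2.trans_lt hEε
    exact hball hm
  have hC := Complex.integral_boundary_rect_eq_zero_of_continuousOn_of_differentiableOn G
    (⟨-r, 0⟩ : ℂ) (⟨r, E⟩ : ℂ) (hc.mono (by
      rintro z ⟨hz1, hz2⟩
      simp only [mem_preimage, uIcc_of_le hle, uIcc_of_le hE0.le] at hz1 hz2
      exact ⟨hz1, hz2.1, hz2.2.trans hE8⟩)) (hd.mono (by
      rintro z ⟨hz1, hz2⟩
      simp only [mem_preimage, min_eq_left hle, max_eq_right hle, min_eq_left hE0.le,
        max_eq_right hE0.le] at hz1 hz2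
      exact ⟨hz1, hz2.1, hz2.2.trans_le hE8⟩))
  simp only at hC
  have hI := congrArg Complex.im hC
  have ih1 : IntervalIntegrable (fun x : ℝ => G (x + (0 : ℝ) * Complex.I)) MeasureTheory.volume
      (-r) r := by
    apply ContinuousOn.intervalIntegrable
    rw [uIcc_of_le hle]
    refine hc.comp (by fun_prop) ?_
    intro x hx
    exact ⟨by simpa using hx, by simpa using hr.le⟩
  have hc2 : ContinuousOn (fun x : ℝ => G (x + E * Complex.I)) (Icc (-r) r) := by
    refine hc.comp (by fun_prop) ?_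
    intro x hx
    refine ⟨by simpa using hx, ?_⟩
    rw [mem_preimage, (ofReal_add_mul_I x E).2]
    exact ⟨hE0.le, hE8⟩
  have ih2 : IntervalIntegrable (fun x : ℝ => G (x + E * Complex.I)) MeasureTheory.volume
      (-r) r := hc2.intervalIntegrable_of_Icc hle
  have iv1 : IntervalIntegrable (fun y : ℝ => G ((r : ℂ) + y * Complex.I))
      MeasureTheory.volume 0 E := by
    apply ContinuousOn.intervalIntegrable
    rw [uIcc_of_le hE0.le]
    exact hvA.mono (Icc_subset_Icc_right hE8)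
  have iv2 : IntervalIntegrable (fun y : ℝ => G (((-r : ℝ) : ℂ) + y * Complex.I))
      MeasureTheory.volume 0 E := by
    apply ContinuousOn.intervalIntegrable
    rw [uIcc_of_le hE0.le]
    exact hvB.mono (Icc_subset_Icc_right hE8)
  have g1 : (∫ x : ℝ in (-r)..r, G (x + (0 : ℝ) * Complex.I)).im = 0 := by
    have := Complex.imCLM.intervalIntegral_comp_comm ih1
    rw [← Complex.imCLM_apply, ← this]
    rw [intervalIntegral.integral_congr (g := fun _ => (0 : ℝ))]
    · simp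
    · intro x hx
      rw [uIcc_of_le hle] at hx
      simp only [Complex.imCLM_apply, Complex.ofReal_zero, zero_mul, add_zero]
      exact hbot x hx
  have g2 : 0 < (∫ x : ℝ in (-r)..r, G (x + E * Complex.I)).im := by
    have := Complex.imCLM.intervalIntegral_comp_comm ih2
    rw [← Complex.imCLM_apply, ← this]
    refine intervalIntegral.intervalIntegral_pos_of_pos_on ?_ ?_ (by linarith)
    · exact (Complex.continuous_im.comp_continuousOn hc2).intervalIntegrable_of_Icc hle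
    · intro x hx
      simp only [Complex.imCLM_apply]
      obtain ⟨e1, e2⟩ := ofReal_add_mul_I x E
      exact him _ (by rw [e1]; exact Ioo_subset_Icc_self hx) (by rw [e2]; exact hE0)
        (by rw [e2]; exact hE8)
  have g3 : (∫ y : ℝ in (0 : ℝ)..E, G ((r : ℂ) + y * Complex.I)).re ≤ 0 := by
    have := Complex.reCLM.intervalIntegral_comp_comm iv1
    rw [← Complex.reCLM_apply, ← this]
    have h5 : 0 ≤ ∫ y : ℝ in (0 : ℝ)..E, -(Complex.reCLM (G ((r : ℂ) + y * Complex.I))) := by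
      refine intervalIntegral.integral_nonneg hE0.le ?_
      intro y hy
      have := (hs1 y hy).1
      rw [Complex.reCLM_apply]
      linarith
    rw [intervalIntegral.integral_neg] at h5
    linarith
  have g4 : 0 ≤ (∫ y : ℝ in (0 : ℝ)..E, G (((-r : ℝ) : ℂ) + y * Complex.I)).re := by
    have := Complex.reCLM.intervalIntegral_comp_comm iv2
    rw [← Complex.reCLM_apply, ← this]
    refine intervalIntegral.integral_nonneg hE0.le ?_
    intro y hy
    exact (hs1 y hy).2.le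
  simp only [Complex.add_im, Complex.sub_im, Complex.zero_im, smul_eq_mul, Complex.mul_im,
    Complex.I_re, Complex.I_im, zero_mul, one_mul, zero_add, add_zero] at hI
  rw [g1] at hI
  linarith

/-- The boundary curve `F` is straight at the parameter `t₀`, with the domain on its left. -/
def Flat (F : ℝ → ℂ) (D : Set ℂ) (t₀ : ℝ) : Prop :=
  ∃ (r c : ℝ) (u : ℂ), 0 < r ∧ 0 < c ∧ (∀ x ∈ Icc (-r) r, F (t₀ + c * x) = F t₀ + x * u) ∧
    ∀ x ∈ Icc (-r) r, ∀ y ∈ Ioc (0 : ℝ) r, F t₀ + (x + y * Complex.I) * u ∈ D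

variable {ψ : ℂ → ℂ} {D : Set ℂ} {a : ℂ} {F : ℝ → ℂ} {L tb : ℝ}

theorem ph_diff (hU : IsU ψ D a (F tb)) (hn : NoCut D) : DifferentiableOn ℂ (ph ψ) D := by
  have h4 := OBSV.inv_diff (f := ψ) (U := {z | 0 < z.im})
    (isOpen_lt continuous_const Complex.continuous_im) hU.diff hU.inj
  rw [hU.img] at h4
  refine h4.congr fun z hz => ?_
  have h7 : z ∈ ψ '' {z | 0 < z.im} := by rw [hU.img]; exact hz
  have h8 : 0 < (Function.invFunOn ψ {z | 0 < z.im} z).im := Function.invFunOn_mem h7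
  have h9 := Function.invFunOn_eq h7
  have := ph_eq (uni_of hU hn) (pos_HC h8)
  rw [h9] at this
  exact this

/-- **Orientation.** If the boundary curve is straight somewhere, with the domain on its left, then
the boundary values of the uniformizer run through the curve in the positive direction. -/
theorem hpar_mono (hU : IsU ψ D a (F tb)) (hn : NoCut D) (hD : IsOpen D) (hF : JCurve F L)
    (hfr : frontier D = range F) {t₀ : ℝ} (ht₀ : t₀ ∈ Ioo tb (tb + L)) (hfl : Flat F D t₀) :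
    StrictMonoOn (hpar ψ F) (Ioo tb (tb + L)) := by
  refine (hpar_mono_or hU hn hD hF hfr).resolve_right fun hanti => ?_
  obtain ⟨r, c, u, hr, hc, hF1, hF2⟩ := hfl
  obtain ⟨r', hr', hr1, hr2, hr3⟩ : ∃ r' > 0, r' ≤ r ∧ tb < t₀ - c * r' ∧ t₀ + c * r' < tb + L := by
    refine ⟨min r (min ((t₀ - tb) / (2 * c)) ((tb + L - t₀) / (2 * c))), ?_, min_le_left _ _, ?_, ?_⟩
    · refine lt_min hr (lt_min ?_ ?_)
      · exact div_pos (by linarith [ht₀.1]) (by linarith)
      · exact div_pos (by linarith [ht₀.2]) (by linarith)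
    · have h1 : c * min r (min ((t₀ - tb) / (2 * c)) ((tb + L - t₀) / (2 * c))) ≤
          c * ((t₀ - tb) / (2 * c)) :=
        mul_le_mul_of_nonneg_left ((min_le_right _ _).trans (min_le_left _ _)) hc.le
      have h2 : c * ((t₀ - tb) / (2 * c)) = (t₀ - tb) / 2 := by field_simp
      linarith [ht₀.1]
    · have h1 : c * min r (min ((t₀ - tb) / (2 * c)) ((tb + L - t₀) / (2 * c))) ≤
          c * ((tb + L - t₀) / (2 * c)) :=
        mul_le_mul_of_nonneg_left ((min_le_right _ _).trans (min_le_right _ _)) hc.le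
      have h2 : c * ((tb + L - t₀) / (2 * c)) = (tb + L - t₀) / 2 := by field_simp
      linarith [ht₀.2]
  have hU' := uni_of hU hn
  have hsub : ∀ x ∈ Icc (-r') r', x ∈ Icc (-r) r := fun x hx =>
    ⟨by linarith [hx.1], by linarith [hx.2]⟩
  have hpr : ∀ x ∈ Icc (-r') r', t₀ + c * x ∈ Ioo tb (tb + L) := fun x hx => by
    have h1 := mul_le_mul_of_nonneg_left hx.1 hc.le
    have h2 := mul_le_mul_of_nonneg_left hx.2 hc.le
    constructor <;> nlinarith
  set ℓ : ℂ → ℂ := fun z => F t₀ + z * u with hℓ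
  have hℓc : Continuous ℓ := by rw [hℓ]; fun_prop
  have hreal : ∀ x ∈ Icc (-r') r', ℓ (x : ℂ) = F (t₀ + c * x) := fun x hx =>
    (hF1 x (hsub x hx)).symm
  have hbd : ∀ x ∈ Icc (-r') r', ph ψ (ℓ (x : ℂ)) = hpar ψ F (t₀ + c * x) := fun x hx => by
    rw [hreal x hx]
    exact (hpar_spec hU hn hD hF hfr (hpr x hx)).2
  have hin : ∀ z : ℂ, z.re ∈ Icc (-r') r' → 0 < z.im → z.im ≤ r' → ℓ z ∈ D := by
    intro z h1 h2 h3
    have := hF2 z.re (hsub _ h1) z.im ⟨h2, h3.trans hr1⟩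
    rwa [Complex.re_add_im] at this
  have hmaps : MapsTo ℓ (Icc (-r') r' ×ℂ Icc (0 : ℝ) r') (ψ '' HC) := by
    rintro z ⟨hz1, hz2⟩
    rw [mem_preimage] at hz1 hz2
    rcases hz2.1.eq_or_lt with h0 | h0
    · have hzr : z = (z.re : ℂ) := Complex.ext rfl (by simp [← h0])
      rw [hzr, hreal _ hz1]
      exact ⟨_, real_HC _, (hpar_spec hU hn hD hF hfr (hpr _ hz1)).1⟩
    · obtain ⟨h3, h4⟩ := ph_mem hU hn (hin z hz1 h0 hz2.2)
      exact ⟨_, pos_HC h3, h4⟩
  refine rect_contra (G := fun z => ph ψ (ℓ z) - (hpar ψ F t₀ : ℂ)) hr' ?_ ?_ ?_ ?_ ?_ ?_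
  · exact ((ph_cont hU').comp hℓc.continuousOn hmaps).sub continuousOn_const
  · refine DifferentiableOn.sub ?_ (differentiableOn_const _)
    refine (ph_diff hU hn).comp (by rw [hℓ]; fun_prop) ?_
    rintro z ⟨hz1, hz2⟩
    exact hin z (Ioo_subset_Icc_self hz1) hz2.1 hz2.2.le
  · intro x hx
    rw [hbd x hx]
    simp
  · intro z h1 h2 h3
    simp only [Complex.sub_im, Complex.ofReal_im, sub_zero]
    exact (ph_mem hU hn (hin z h1 h2 h3)).1
  · have hm : r' ∈ Icc (-r') r' := ⟨by linarith, le_rfl⟩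
    rw [hbd r' hm]
    simp only [Complex.sub_re, Complex.ofReal_re, sub_neg]
    exact hanti ht₀ (hpr r' hm) (by nlinarith)
  · have hm : -r' ∈ Icc (-r') r' := ⟨le_rfl, by linarith⟩
    rw [hbd (-r') hm]
    simp only [Complex.sub_re, Complex.ofReal_re, sub_pos]
    exact hanti (hpr (-r') hm) ht₀ (by nlinarith)

end Vale.Agent.P167.H327
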