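import Vale.Agent.P167.H327.Half
import Vale.Agent.P167.H327.PosG
import Vale.Agent.P167.H446.Pos
import Vale.Agent.P167.H531.PosDefs

/-!
# P167, block POS (L3): the positions of the free edges which were not read

`xf ψ p δ i`: the real point which `ψ` maps to the boundary point `QF p δ (i + 1/2)` at the edge `i` of
the polygon. For `-1 ≤ i < k` these are positive and increase with `i`. If the edge was not read, the
point survives, on the right of the driver, and the position of the cross of the edge is close to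
`uX W t (xf ψ p δ i)`.

`posF`: the structure `PosF` of block ASM, with `u = uX W t (xf ψ p δ jf)`.
-/

set_option autoImplicit false

open Set Filter Topology Metric MeasureTheory Bornology
open scoped ComplexConjugate

namespace Vale.Agent.P167.H327

open Vale.Agent.P153.BESS Vale.Agent.P153.R2.R1
open Vale.Agent.P153.R2.L1 (HH)
open Vale.Agent.P164 (loewnerDomain Zf)
open Vale.Agent.P167.E6 Vale.Agent.P167.E2 Vale.Agent.P167.H72
open Vale.Agent.P167.H634 (cf)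
open Vale.Agent.P167.H756 (HConf Drv)
open Vale.Agent.P167.H947 (flow flow_rsol flow_gf surv isOpen_surv differentiableOn_flow)
open Vale.Agent.P167.H446 (uX)
open Vale.Agent.P167.H531 (CDat PosF Pos Unr)

variable {n : ℕ} {p : ZMod n → ℤ × ℤ} {S : Finset (ℤ × ℤ)} {δ : ℝ} {k : ℕ}
  {A : Finset (Sym2 (ℤ × ℤ))} {j : ℕ} {ψ : ℂ → ℂ} {W : ℝ → ℝ} {t T R Rd cd Y : ℝ}

/-- The real point of the edge `i` of the polygon. -/
noncomputable def xf (ψ : ℂ → ℂ) (p : ZMod n → ℤ × ℤ) (δ : ℝ) (i : ℤ) : ℝ :=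
  hpar ψ (QF p δ) (i + 1 / 2)

theorem xf_spec (hδ : 0 < δ) (hp : IsPolygon p) (hS : Encloses p S) (hk : 0 < k)
    (hkn : k + 1 < n) (hU : IsU ψ (Om δ S) (aM p δ) (bM p k δ)) :
    (∀ i : ℤ, -1 ≤ i → i < k → 0 < xf ψ p δ i ∧
      ψ (xf ψ p δ i) = (δ : ℂ) * qp (pc p i) 0 (3 / 8)) ∧
    ∀ i i' : ℤ, -1 ≤ i → i < i' → i' < k → xf ψ p δ i < xf ψ p δ i' := by
  obtain ⟨h1, h2, h3, h4, h5, h6, -⟩ := ori hδ hp hS hk hkn hU
  have ha := tA_bd (p := p)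
  have hb := tB_bd (p := p) k
  have hkn1 : (k : ℝ) + 1 + 1 ≤ n := by exact_mod_cast hkn
  have hmem : ∀ i : ℤ, -1 ≤ i → i < k → (i : ℝ) + 1 / 2 ∈ Ioo (tB p k - n) (tB p k) ∧
      tA p < (i : ℝ) + 1 / 2 := by
    intro i hi hik
    have a1 : (-1 : ℝ) ≤ i := by exact_mod_cast hi
    have a2 : (i : ℝ) + 1 ≤ k := by exact_mod_cast hik
    refine ⟨⟨by linarith, by linarith⟩, by linarith⟩
  refine ⟨fun i hi hik => ?_, fun i i' hi hii hik => ?_⟩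
  · obtain ⟨a1, a2⟩ := hmem i hi hik
    constructor
    · have := h3 ⟨h1, h2⟩ a1 a2
      rwa [h5] at this
    · have := h6 _ a1
      rwa [QF_half hp hS] at this
  · refine h3 (hmem i hi (by omega)).1 (hmem i' (by omega) hik).1 ?_
    have : (i : ℝ) < i' := by exact_mod_cast hii
    linarith

/-- A point of the domain minus the path. -/
theorem mem_dom (H : CDat δ p k S A j ψ W t T R Rd cd Y) {z : ℂ}
    (hz : z ∈ Om δ S) (hz' : z ∉ pl p k δ A '' Icc 0 (j : ℝ)) : z ∈ ψ '' loewnerDomain W t := by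
  rw [H.dom]
  exact ⟨hz, hz'⟩

theorem mem_dom' (H : CDat δ p k S A j ψ W t T R Rd cd Y) {z : ℂ} (hz : 0 < z.im)
    (hz' : ψ z ∉ pl p k δ A '' Icc 0 (j : ℝ)) : z ∈ loewnerDomain W t := by
  have h1 : ψ z ∈ Om δ S := by
    rw [← H.dom0]
    exact ⟨z, hz, rfl⟩
  obtain ⟨w, hw, hwz⟩ := mem_dom H h1 hz'
  have h2 : w ∈ HH := Vale.Agent.P164.im_pos_of_dom H.drv.nn hw
  have h3 := H.conf.inj h2 (show z ∈ HH from hz) hwz
  rwa [← h3]

/-- The real point of an edge which was not read survives. -/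
theorem xf_surv (H : CDat δ p k S A j ψ W t T R Rd cd Y)
    (hU : IsU ψ (Om δ S) (aM p δ) (bM p k δ)) (hW0 : W 0 = 0) {i : ℤ} (hi : -1 ≤ i) (hik : i < k)
    (hun : ∀ i' < j - 1, ahead (run p k A i') ≠ ahead (pc p i)) :
    ∃ y, RSol W (xf ψ p δ i) t y ∧ W t < y t ∧ uX W t (xf ψ p δ i) = y t - W t := by
  obtain ⟨h1, h2⟩ := (xf_spec H.hδ H.hp H.hS H.hk H.hkn hU).1 i hi hik
  have hWc : ContinuousOn W (Icc 0 t) := H.drv.cont.continuousOn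
  have hav := path_avoid (A := A) (k := k) (p := p) H.hδ H.hj hun (u := 0) (t := 3 / 8)
    (Or.inl ⟨rfl, by norm_num⟩)
  rw [← h2] at hav
  have hcl : IsClosed (pl p k δ A '' Icc 0 (j : ℝ)) :=
    (isCompact_Icc.image (continuous_pl δ)).isClosed
  have hnh : ψ ⁻¹' (pl p k δ A '' Icc 0 (j : ℝ))ᶜ ∈ 𝓝[{z : ℂ | 0 ≤ z.im}] (xf ψ p δ i : ℂ) :=
    (hU.cont _ (real_HC _)) (hcl.isOpen_compl.mem_nhds hav)
  obtain ⟨r, hr, hr'⟩ := Metric.mem_nhdsWithin_iff.1 hnh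
  obtain ⟨y, hy⟩ := half_surv H.drv.nn hWc (by rw [hW0]; exact h1) hr fun z hz hzr =>
    mem_dom' H hz (hr' ⟨hzr, show (0 : ℝ) ≤ z.im from hz.le⟩)
  refine ⟨y, hy, rsol_pos hWc hy (by rw [hW0]; exact h1) t ⟨H.drv.nn, le_rfl⟩, ?_⟩
  rw [uX, flow_rsol H.drv.nn hWc hy, ← Complex.ofReal_sub, Complex.ofReal_re]

/-- The cross of an edge. -/
def crs (δ : ℝ) (c : Medial) : Set ℂ :=
  (fun s : ℝ => (δ : ℂ) * qp c 0 s) '' Ico (-(1 / 2)) (3 / 8) ∪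
    (fun s : ℝ => (δ : ℂ) * qp c s 0) '' Icc (-(1 / 2)) 0

theorem qp_lin (c : Medial) (u s : ℝ) : qp c u s = Vale.Agent.P167.Fjord.em c +
    (u : ℂ) * ⟨(dir (c.2 + 1)).1, (dir (c.2 + 1)).2⟩ + (s : ℂ) * ⟨(dir c.2).1, (dir c.2).2⟩ := by
  apply Complex.ext <;>
    simp only [qp, Complex.add_re, Complex.add_im, Complex.re_ofReal_mul, Complex.im_ofReal_mul]

theorem cont_qp (δ : ℝ) (c : Medial) : Continuous (fun s : ℝ => (δ : ℂ) * qp c 0 s) ∧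
    Continuous (fun s : ℝ => (δ : ℂ) * qp c s 0) := by
  constructor <;> simp only [qp_lin] <;> fun_prop

theorem crs_conn (δ : ℝ) (c : Medial) : IsPreconnected (crs δ c) := by
  refine IsPreconnected.union ((δ : ℂ) * qp c 0 0) ?_ ?_ ?_ ?_
  · exact ⟨0, ⟨by norm_num, by norm_num⟩, rfl⟩
  · exact ⟨0, ⟨by norm_num, le_rfl⟩, rfl⟩
  · exact isPreconnected_Ico.image _ (cont_qp δ c).1.continuousOn
  · exact isPreconnected_Icc.image _ (cont_qp δ c).2.continuousOn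

theorem norm_dir (r : Fin 4) : ‖(⟨(dir r).1, (dir r).2⟩ : ℂ)‖ = 1 := by
  have h : ‖(⟨(dir r).1, (dir r).2⟩ : ℂ)‖ ^ 2 = 1 := by
    rw [Complex.sq_norm, Complex.normSq_apply]
    revert r
    refine forall4 ?_ ?_ ?_ ?_ <;> simp only [dir0, dir1, dir2, dir3] <;> norm_num
  have h0 := norm_nonneg (⟨(dir r).1, (dir r).2⟩ : ℂ)
  nlinarith

theorem crs_diam (hδ : 0 < δ) (c : Medial) : ∀ z ∈ crs δ c, ∀ z' ∈ crs δ c, dist z z' ≤ δ := by
  have key : ∀ z ∈ crs δ c, dist z ((δ : ℂ) * qp c 0 0) ≤ δ / 2 := by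
    rintro z (⟨s, hs, rfl⟩ | ⟨s, hs, rfl⟩)
    · have e : (δ : ℂ) * qp c 0 s - (δ : ℂ) * qp c 0 0 =
          ((δ * s : ℝ) : ℂ) * ⟨(dir c.2).1, (dir c.2).2⟩ := by
        rw [qp_lin, qp_lin]
        push_cast
        ring
      simp only
      rw [dist_eq_norm, e, norm_mul, norm_dir, mul_one, Complex.norm_real, Real.norm_eq_abs,
        abs_mul, abs_of_pos hδ]
      have : |s| ≤ 1 / 2 := abs_le.2 ⟨hs.1, by linarith [hs.2]⟩
      nlinarith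
    · have e : (δ : ℂ) * qp c s 0 - (δ : ℂ) * qp c 0 0 =
          ((δ * s : ℝ) : ℂ) * ⟨(dir (c.2 + 1)).1, (dir (c.2 + 1)).2⟩ := by
        rw [qp_lin, qp_lin]
        push_cast
        ring
      simp only
      rw [dist_eq_norm, e, norm_mul, norm_dir, mul_one, Complex.norm_real, Real.norm_eq_abs,
        abs_mul, abs_of_pos hδ]
      have : |s| ≤ 1 / 2 := abs_le.2 ⟨hs.1, by linarith [hs.2]⟩
      nlinarith
  intro z hz z' hz'
  have h1 := key z hz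
  have h2 := key z' hz'
  have h3 := dist_triangle_right z z' ((δ : ℂ) * qp c 0 0)
  linarith

theorem crs_sub (H : CDat δ p k S A j ψ W t T R Rd cd Y) {i : ZMod n}
    (hun : ∀ i' < j - 1, ahead (run p k A i') ≠ ahead (pc p i)) :
    crs δ (pc p i) ⊆ ψ '' loewnerDomain W t := by
  rintro z (⟨s, hs, rfl⟩ | ⟨s, hs, rfl⟩)
  · exact mem_dom H (qp_mem_Om H.hδ H.hp H.hS i (by rw [abs_zero]; norm_num) hs.1 hs.2)
      (path_avoid H.hδ H.hj hun (Or.inl ⟨rfl, abs_le.2 ⟨hs.1, by linarith [hs.2]⟩⟩))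
  · have h1 : |s| ≤ 1 / 2 := abs_le.2 ⟨hs.1, by linarith [hs.2]⟩
    exact mem_dom H (qp_mem_Om H.hδ H.hp H.hS i h1 (by norm_num) (by norm_num))
      (path_avoid H.hδ H.hj hun (Or.inr ⟨rfl, h1⟩))

theorem mb_contAt (u : ℝ) : ContinuousAt (mb 1 Complex.I) (u : ℂ) := by
  have h : (u : ℂ) - conj Complex.I ≠ 0 := by
    intro h0
    have h1 := congrArg Complex.im h0
    simp at h1
  have e : mb 1 Complex.I = fun z => 1 * ((z - Complex.I) / (z - conj Complex.I)) := rfl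
  rw [e]
  exact continuousAt_const.mul ((continuousAt_id.sub continuousAt_const).div
    (continuousAt_id.sub continuousAt_const) h)

/-- **The position of the cross of an edge which was not read.** -/
theorem crs_pos {ε : ℝ} (hRd : 0 < Rd) (hcd : 0 < cd) (hY0 : 0 < Y) (hY : 8 * R ≤ Y)
    (hY2 : 64 * T ≤ Y ^ 2) (hε : 0 < ε) : ∃ δ₀ > 0, ∀ {n : ℕ} {p : ZMod n → ℤ × ℤ}
      {S : Finset (ℤ × ℤ)} {δ : ℝ} {k : ℕ} {A : Finset (Sym2 (ℤ × ℤ))} {j : ℕ} {ψ : ℂ → ℂ}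
      {W : ℝ → ℝ} {t : ℝ}, CDat δ p k S A j ψ W t T R Rd cd Y →
      IsU ψ (Om δ S) (aM p δ) (bM p k δ) → W 0 = 0 → δ ≤ δ₀ → ∀ i : ℤ, -1 ≤ i → i < k →
      (∀ i' < j - 1, ahead (run p k A i') ≠ ahead (pc p i)) → ∀ z ∈ crs δ (pc p i),
      ∃ w ∈ loewnerDomain W t, ψ w = z ∧
        dist (mb 1 Complex.I (Zf W w t)) (mb 1 Complex.I (uX W t (xf ψ p δ i) : ℂ)) ≤ ε := by
  obtain ⟨η, hη, hsm⟩ := Vale.Agent.P167.H756.small_dom (T := T) (R := R) (Rd := Rd) (cd := cd)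
    (Y := Y) hRd hcd hY0 hY hY2 hε
  refine ⟨η, hη, ?_⟩
  intro n p S δ k A j ψ W t H hU hW0 hδ i hi hik hun z hz
  obtain ⟨-, hx2⟩ := (xf_spec H.hδ H.hp H.hS H.hk H.hkn hU).1 i hi hik
  obtain ⟨y, hy, hyt, huy⟩ := xf_surv H hU hW0 hi hik hun
  have hWc : ContinuousOn W (Icc 0 t) := H.drv.cont.continuousOn
  have hsub := crs_sub H (i := (i : ZMod n)) hun
  obtain ⟨w, hw, rfl⟩ := hsub hz
  refine ⟨w, hw, rfl, ?_⟩
  set x : ℝ := xf ψ p δ i with hx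
  have hG := good_Om6 H.hδ H.hp H.hS
  have hUn := uni_of hU hG.nocut
  -- the points of the cross which tend to the boundary
  set b : ℝ → ℂ := fun s => (δ : ℂ) * qp (pc p i) 0 s with hb
  have hbx : b (3 / 8) = ψ x := hx2.symm
  have hbC : ∀ s ∈ Ico (-(1 / 2) : ℝ) (3 / 8), b s ∈ crs δ (pc p i) := fun s hs =>
    Or.inl ⟨s, hs, rfl⟩
  have hbim : ∀ s ∈ Ico (-(1 / 2) : ℝ) (3 / 8), ph ψ (b s) ∈ loewnerDomain W t ∧
      ψ (ph ψ (b s)) = b s := by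
    intro s hs
    obtain ⟨w', hw', hwb⟩ := hsub (hbC s hs)
    have h1 : 0 < w'.im := Vale.Agent.P164.im_pos_of_dom H.drv.nn hw'
    have h2 : ph ψ (b s) = w' := by rw [← hwb, ph_eq hUn (pos_HC h1)]
    rw [h2]
    exact ⟨hw', hwb⟩
  have hlt : Tendsto (fun s => ph ψ (b s)) (𝓝[<] (3 / 8 : ℝ)) (𝓝 (x : ℂ)) := by
    have h1 := ph_cont hUn (ψ x) ⟨x, real_HC x, rfl⟩
    rw [ContinuousWithinAt, ph_eq hUn (real_HC x)] at h1
    refine h1.comp (tendsto_nhdsWithin_iff.2 ⟨?_, ?_⟩)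
    · rw [← hbx]
      exact ((cont_qp δ (pc p i)).1.tendsto _).mono_left nhdsWithin_le_nhds
    · filter_upwards [Ico_mem_nhdsLT (show (-(1 / 2) : ℝ) < 3 / 8 by norm_num)] with s hs
      obtain ⟨h2, h3⟩ := hbim s hs
      have h4 : 0 < (ph ψ (b s)).im := Vale.Agent.P164.im_pos_of_dom H.drv.nn h2
      exact ⟨_, pos_HC h4, h3⟩
  have hflow : ContinuousAt (flow W t) (x : ℂ) :=
    ((differentiableOn_flow H.drv.nn hWc).differentiableAt
      ((isOpen_surv H.drv.nn hWc).mem_nhds ⟨_, hy.csol⟩)).continuousAt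
  have hfx : flow W t x - W t = (uX W t x : ℂ) := by
    rw [huy, flow_rsol H.drv.nn hWc hy, ← Complex.ofReal_sub]
  have hmb : Tendsto (mb 1 Complex.I) (𝓝 (uX W t x : ℂ)) (𝓝 (mb 1 Complex.I (uX W t x : ℂ))) :=
    mb_contAt _
  have hlim : Tendsto (fun s => dist (mb 1 Complex.I (Zf W w t))
      (mb 1 Complex.I (flow W t (ph ψ (b s)) - W t))) (𝓝[<] (3 / 8 : ℝ))
      (𝓝 (dist (mb 1 Complex.I (Zf W w t)) (mb 1 Complex.I (uX W t x : ℂ)))) := by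
    have a1 : Tendsto (fun s => flow W t (ph ψ (b s)) - W t) (𝓝[<] (3 / 8 : ℝ))
        (𝓝 (uX W t x : ℂ)) := by
      rw [← hfx]
      exact (hflow.tendsto.comp hlt).sub_const _
    exact tendsto_const_nhds.dist (hmb.comp a1)
  refine le_of_tendsto hlim ?_
  filter_upwards [Ico_mem_nhdsLT (show (-(1 / 2) : ℝ) < 3 / 8 by norm_num)] with s hs
  obtain ⟨h2, h3⟩ := hbim s hs
  rw [flow_gf H.drv.nn hWc h2, Vale.Agent.P164.gf, add_sub_cancel_right]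
  exact hsm ψ H.conf W t H.drv (crs δ (pc p i)) hsub (crs_conn _ _)
    (fun z hz z' hz' => (crs_diam H.hδ _ z hz z' hz').trans hδ) w hw _ h2 hz
    (by rw [h3]; exact hbC s hs)

/-- **(L3)** for the position `uX W t (xf ψ p δ jf)` of the edge `jf`. -/
theorem posF {ε : ℝ} (hRd : 0 < Rd) (hcd : 0 < cd) (hY0 : 0 < Y) (hY : 8 * R ≤ Y)
    (hY2 : 64 * T ≤ Y ^ 2) (hε : 0 < ε) : ∃ δ₀ > 0, ∀ {n : ℕ} {p : ZMod n → ℤ × ℤ}
      {S : Finset (ℤ × ℤ)} {δ : ℝ} {k : ℕ} {A : Finset (Sym2 (ℤ × ℤ))} {j : ℕ} {ψ : ℂ → ℂ}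
      {W : ℝ → ℝ} {t : ℝ}, CDat δ p k S A j ψ W t T R Rd cd Y →
      IsU ψ (Om δ S) (aM p δ) (bM p k δ) → W 0 = 0 → δ ≤ δ₀ → ∀ jf : ℕ, jf < k →
      (∀ i : ℕ, jf ≤ i → i < k → Unr p k A j i) → 0 < uX W t (xf ψ p δ jf) ∧
        PosF δ p k A j ψ W t ε jf (uX W t (xf ψ p δ jf)) := by
  obtain ⟨δ₀, hδ₀, hpos⟩ := crs_pos (T := T) (R := R) hRd hcd hY0 hY hY2 hε
  refine ⟨δ₀, hδ₀, ?_⟩
  intro n p S δ k A j ψ W t H hU hW0 hδ jf hjf hunf
  have hun := hunf jf le_rfl hjf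
  have hWc : ContinuousOn W (Icc 0 t) := H.drv.cont.continuousOn
  have hcast : ∀ i : ℕ, (((i : ℤ)) : ZMod n) = (i : ZMod n) := fun i => by push_cast; rfl
  have hunr : ∀ i : ℕ, Unr p k A j i →
      ∀ i' < j - 1, ahead (run p k A i') ≠ ahead (pc p ((i : ℤ) : ZMod n)) := by
    intro i hi i' hi'
    rw [hcast, ahead_pc H.hp]
    exact hi i' hi'
  have hcf : ∀ i : ZMod n, cf δ (face (p i) (ro p i)) ∈ crs δ (pc p i) := by
    intro i
    rw [cf_qp]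
    exact Or.inl ⟨_, ⟨le_rfl, by norm_num⟩, rfl⟩
  obtain ⟨y, hy, hyt, huy⟩ := xf_surv H hU hW0 (i := (jf : ℤ)) (by omega) (by omega)
    (hunr jf hun)
  have hmono : ∀ i i' : ℤ, -1 ≤ i → i < i' → i' < k →
      (∀ l < j - 1, ahead (run p k A l) ≠ ahead (pc p i)) →
      (∀ l < j - 1, ahead (run p k A l) ≠ ahead (pc p i')) →
      0 < uX W t (xf ψ p δ i) ∧ uX W t (xf ψ p δ i) < uX W t (xf ψ p δ i') := by
    intro i i' hi hii hik h1 h2
    obtain ⟨y₁, a1, a2, a3⟩ := xf_surv H hU hW0 hi (by omega) h1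
    obtain ⟨y₂, b1, b2, b3⟩ := xf_surv H hU hW0 (by omega) hik h2
    have h3 := (xf_spec H.hδ H.hp H.hS H.hk H.hkn hU).2 i i' hi hii hik
    have h4 := rsol_lt H.drv.nn hWc a1 b1 h3 t ⟨H.drv.nn, le_rfl⟩
    rw [a3, b3]
    constructor <;> linarith
  have hu0 : 0 < uX W t (xf ψ p δ jf) := by rw [huy]; linarith
  refine ⟨hu0, ?_, hunf, ?_, ?_⟩
  · obtain ⟨w, hw, hwz, hd⟩ := hpos H hU hW0 hδ jf (by omega) (by omega) (hunr jf hun)
      ((δ : ℂ) * pt (p jf)) (by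
        rw [hcast]
        refine Or.inr ⟨-(1 / 2), ⟨le_rfl, by norm_num⟩, ?_⟩
        simp only
        rw [pc, ← pt_qp'])
    exact ⟨w, hw, hwz, _, rfl, hd⟩
  · intro i hi hun'
    rcases hi with hi | hi
    · obtain ⟨w, hw, hwz, hd⟩ := hpos H hU hW0 hδ i (by omega) (by omega) (hunr i hun') _
        (by rw [hcast]; exact hcf i)
      obtain ⟨h1, h2⟩ := hmono i jf (by omega) (by exact_mod_cast hi) (by omega) (hunr i hun')
        (hunr jf hun)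
      exact ⟨w, hw, hwz, _, ⟨h1.le, h2.le⟩, hd⟩
    · have hn : ((i : ℕ) : ZMod n) = ((-1 : ℤ) : ZMod n) := by
        have hn1 : 1 ≤ n := by have := H.hkn; omega
        rw [hi, Nat.cast_sub hn1]
        push_cast
        simp
      have hun1 : ∀ l < j - 1, ahead (run p k A l) ≠ ahead (pc p ((-1 : ℤ) : ZMod n)) := by
        intro l hl
        rw [← hn, ← hcast]
        exact hunr i hun' l hl
      obtain ⟨w, hw, hwz, hd⟩ := hpos H hU hW0 hδ (-1) le_rfl (by omega) hun1 _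
        (by rw [← hn]; exact hcf i)
      obtain ⟨h1, h2⟩ := hmono (-1) jf le_rfl (by omega) (by omega) hun1 (hunr jf hun)
      exact ⟨w, hw, hwz, _, ⟨h1.le, h2.le⟩, hd⟩
  · intro i hi hik hun'
    obtain ⟨w, hw, hwz, hd⟩ := hpos H hU hW0 hδ i (by omega) (by omega) (hunr i hun') _
      (by rw [hcast]; exact hcf i)
    refine ⟨w, hw, hwz, _, ?_, hd⟩
    rcases hi.eq_or_lt with h | h
    · rw [h]
      exact self_mem_Ici
    · exact (hmono jf i (by omega) (by exact_mod_cast h) (by exact_mod_cast hik) (hunr jf hun)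
        (hunr i hun')).2.le

/-- **(L3)** for every `u ≥ 0` which is close to the position of the foot. -/
theorem posF' {ε : ℝ} (hRd : 0 < Rd) (hcd : 0 < cd) (hY0 : 0 < Y) (hY : 8 * R ≤ Y)
    (hY2 : 64 * T ≤ Y ^ 2) (hε : 0 < ε) : ∃ ε₀ > 0, ∃ δ₀ > 0, ∀ {n : ℕ} {p : ZMod n → ℤ × ℤ}
      {S : Finset (ℤ × ℤ)} {δ : ℝ} {k : ℕ} {A : Finset (Sym2 (ℤ × ℤ))} {j : ℕ} {ψ : ℂ → ℂ}
      {W : ℝ → ℝ} {t : ℝ}, CDat δ p k S A j ψ W t T R Rd cd Y →
      IsU ψ (Om δ S) (aM p δ) (bM p k δ) → W 0 = 0 → δ ≤ δ₀ → ∀ jf : ℕ, jf < k →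
      (∀ i : ℕ, jf ≤ i → i < k → Unr p k A j i) → ∀ u : ℝ, 0 ≤ u →
      Pos ψ W t ε₀ {u} ((δ : ℂ) * pt (p jf)) → PosF δ p k A j ψ W t ε jf u := by
  obtain ⟨δ₀, hδ₀, hpos⟩ := posF (T := T) (R := R) (ε := ε / 4) hRd hcd hY0 hY hY2
    (by positivity)
  refine ⟨ε / 4, by positivity, δ₀, hδ₀, ?_⟩
  intro n p S δ k A j ψ W t H hU hW0 hδ jf hjf hunf u hu hfoot
  obtain ⟨hu₁, hF⟩ := hpos H hU hW0 hδ jf hjf hunf
  set u₁ : ℝ := uX W t (xf ψ p δ jf) with hu₁'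
  have hd : dist (mb 1 Complex.I (u₁ : ℂ)) (mb 1 Complex.I (u : ℂ)) ≤ ε / 2 := by
    obtain ⟨w, hw, hwz, x, hx, hwd⟩ := hfoot
    obtain ⟨w', hw', hwz', x', hx', hwd'⟩ := hF.foot
    have hww : w = w' := H.conf.inj (Vale.Agent.P164.im_pos_of_dom H.drv.nn hw)
      (Vale.Agent.P164.im_pos_of_dom H.drv.nn hw') (hwz.trans hwz'.symm)
    rw [mem_singleton_iff] at hx hx'
    rw [hx] at hwd
    rw [hx', ← hww] at hwd'
    have h3 := dist_triangle_left (mb 1 Complex.I (u₁ : ℂ)) (mb 1 Complex.I (u : ℂ))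
      (mb 1 Complex.I (Zf W w t))
    linarith
  have hmon : ∀ {I J : Set ℝ} {z : ℂ}, Pos ψ W t (ε / 4) I z →
      (∀ x ∈ I, ∃ y ∈ J, dist (mb 1 Complex.I (x : ℂ)) (mb 1 Complex.I (y : ℂ)) ≤ ε / 2) →
      Pos ψ W t ε J z := by
    rintro I J z ⟨w, hw, hwz, x, hx, hwd⟩ hIJ
    obtain ⟨y, hy, hxy⟩ := hIJ x hx
    refine ⟨w, hw, hwz, y, hy, ?_⟩
    have h3 := dist_triangle (mb 1 Complex.I (Zf W w t)) (mb 1 Complex.I (x : ℂ))
      (mb 1 Complex.I (y : ℂ))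
    linarith
  refine ⟨?_, hunf, ?_, ?_⟩
  · obtain ⟨w, hw, hwz, x, hx, hwd⟩ := hfoot
    exact ⟨w, hw, hwz, x, hx, hwd.trans (by linarith)⟩
  · intro i hi hun'
    refine hmon (hF.lo i hi hun') fun x hx => ?_
    rcases le_or_gt x u with h | h
    · exact ⟨x, ⟨hx.1, h⟩, by rw [dist_self]; positivity⟩
    · exact ⟨u, ⟨hu, le_rfl⟩, (Vale.Agent.P167.H446.chord_mono hu h.le hx.2).trans hd⟩
  · intro i hi hik hun'
    refine hmon (hF.hi i hi hik hun') fun x hx => ?_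
    rcases le_or_gt u x with h | h
    · exact ⟨x, h, by rw [dist_self]; positivity⟩
    · exact ⟨u, self_mem_Ici, (Vale.Agent.P167.H446.chord_mono' hu₁.le hx h.le).trans hd⟩

end Vale.Agent.P167.H327
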