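import Vale.Agent.P167.H327.Pos

/-!
# P167, block POS: the edges of the polygon far from the start were not read

`unr`: if the real point of the edge `jf` is larger than a multiple of `R + √T`, then the edges
`jf, …, k - 1` of the polygon were not read.
-/

set_option autoImplicit false

open Set Filter Topology Metric MeasureTheory Bornology
open scoped ComplexConjugate

namespace Vale.Agent.P167.H327

open Vale.Agent.P153.BESS
open Vale.Agent.P153.R2.R1 (mb IsU)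
open Vale.Agent.P153.R2.L1 (HH)
open Vale.Agent.P164 (loewnerDomain Zf)
open Vale.Agent.P167.E6 Vale.Agent.P167.E2 Vale.Agent.P167.H72 Vale.Agent.P167.Fjord
open Vale.Agent.P167.H756 (HConf Drv)
open Vale.Agent.P167.H531 (CDat Unr)

variable {n : ℕ} {p : ZMod n → ℤ × ℤ} {S : Finset (ℤ × ℤ)} {δ : ℝ} {k : ℕ}
  {A : Finset (Sym2 (ℤ × ℤ))} {j : ℕ} {ψ : ℂ → ℂ} {W : ℝ → ℝ} {t T R Rd cd Y : ℝ}

theorem em_of_ahead {c d : Medial} (h : ahead c = ahead d) : Fjord.em c = Fjord.em d := by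
  have e : ∀ c : Medial, (adv c).1 = c.1 + dir (c.2 + 1) := fun c => rfl
  unfold ahead at h
  rw [← e, ← e] at h
  unfold Fjord.em
  rcases Sym2.eq_iff.1 h with ⟨h1, h2⟩ | ⟨h1, h2⟩
  · rw [h1, h2]
  · rw [h1, h2]
    apply Complex.ext <;> simp only <;> ring

/-- The points of the square of side `1/2` around the midpoint of an edge. -/
theorem box_qp (d : Medial) {z : ℂ} (h1 : |z.re - (Fjord.em d).re| ≤ 1 / 4)
    (h2 : |z.im - (Fjord.em d).im| ≤ 1 / 4) :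
    ∃ u v : ℝ, |u| ≤ 1 / 4 ∧ |v| ≤ 1 / 4 ∧ z = qp d u v := by
  obtain ⟨v, r⟩ := d
  set a : ℝ := z.re - (Fjord.em (v, r)).re with ha
  set b : ℝ := z.im - (Fjord.em (v, r)).im with hb
  have e1 : z.re = (Fjord.em (v, r)).re + a := by rw [ha]; ring
  have e2 : z.im = (Fjord.em (v, r)).im + b := by rw [hb]; ring
  clear_value a b
  clear ha hb
  revert r
  refine forall4 ?_ ?_ ?_ ?_ <;> intro e1 e2
  · refine ⟨b, a, h2, h1, ?_⟩
    apply Complex.ext <;> simp only [qp, dir0, dir1, f4_01, e1, e2] <;> push_cast <;> ring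
  · refine ⟨-a, b, by rwa [abs_neg], h2, ?_⟩
    apply Complex.ext <;> simp only [qp, dir2, dir1, f4_11, e1, e2] <;> push_cast <;> ring
  · refine ⟨-b, -a, by rwa [abs_neg], by rwa [abs_neg], ?_⟩
    apply Complex.ext <;> simp only [qp, dir2, dir3, f4_21, e1, e2] <;> push_cast <;> ring
  · refine ⟨a, -b, h1, by rwa [abs_neg], ?_⟩
    apply Complex.ext <;> simp only [qp, dir0, dir3, f4_31, e1, e2] <;> push_cast <;> ring

theorem qp_box {d : Medial} {u v : ℝ} (hu : |u| ≤ 1 / 4) (hv : |v| ≤ 1 / 4) :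
    |(qp d u v).re - (Fjord.em d).re| ≤ 1 / 4 ∧ |(qp d u v).im - (Fjord.em d).im| ≤ 1 / 4 := by
  obtain ⟨w, r⟩ := d
  revert r
  refine forall4 ?_ ?_ ?_ ?_ <;>
    simp only [qp, dir0, dir1, dir2, dir3, f4_01, f4_11, f4_21, f4_31, Int.cast_one, Int.cast_zero,
      Int.cast_neg, mul_one, mul_zero, mul_neg, add_zero, add_sub_cancel_left, abs_neg]
  · exact ⟨hv, hu⟩
  · exact ⟨hu, hv⟩
  · exact ⟨hv, hu⟩
  · exact ⟨hu, hv⟩

/-- The point of the path at an edge which was read. -/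
theorem read_pt {i : ℕ} (hij : i < j - 1) (hj : j - 1 ≤ len p k A) {d : Medial}
    (h : ahead (run p k A i) = ahead d) : ∃ u v : ℝ, |u| ≤ 1 / 4 ∧ |v| ≤ 1 / 4 ∧
      (δ : ℂ) * qp d u v ∈ pl p k δ A '' Icc 0 (j : ℝ) := by
  have e0 : |(1 / 4 - 1 / 2 : ℝ)| ≤ 1 / 4 := by rw [abs_le]; constructor <;> norm_num
  have e1 : |(1 / 4 : ℝ)| ≤ 1 / 4 := by rw [abs_le]; constructor <;> norm_num
  obtain ⟨h1, h2⟩ := qp_box (d := run p k A i) e0 e1
  rw [em_of_ahead h] at h1 h2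
  obtain ⟨u, v, hu, hv, huv⟩ := box_qp d h1 h2
  refine ⟨u, v, hu, hv, ((i + 1 : ℕ) : ℝ), ⟨by positivity,
    by exact_mod_cast (by omega : i + 1 ≤ j)⟩, ?_⟩
  rw [← huv, ← cpt_qp, ← xv_mid (by omega : i ≤ len p k A)]
  unfold pl
  rw [lin_nat]

theorem mb_far {w : ℂ} {x x0 : ℝ} (hx0 : 0 < x0) (hx : x0 ≤ x) (hw : 0 < w.im)
    (hwx : ‖w‖ ≤ x0 / 8) :
    7 / 4 * x0 / ((1 + x0) * (1 + x0 / 8)) ≤ dist (mb 1 Complex.I w) (mb 1 Complex.I (x : ℂ)) := by
  have hI : ∀ z : ℂ, 0 ≤ z.im → z + Complex.I ≠ 0 := by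
    intro z hz h
    have := congrArg Complex.im h
    simp only [Complex.add_im, Complex.I_im, Complex.zero_im] at this
    linarith
  have h1 := hI w hw.le
  have h2 := hI (x : ℂ) (by simp)
  have e : mb 1 Complex.I w - mb 1 Complex.I (x : ℂ) =
      2 * Complex.I * (w - x) / ((w + Complex.I) * (x + Complex.I)) := by
    unfold mb
    rw [Complex.conj_I, sub_neg_eq_add, sub_neg_eq_add]
    field_simp
    ring
  have hxp : 0 < x := hx0.trans_le hx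
  have a1 : ‖w + Complex.I‖ ≤ 1 + x0 / 8 := by
    have := norm_add_le w Complex.I
    rw [Complex.norm_I] at this
    linarith
  have a2 : ‖(x : ℂ) + Complex.I‖ ≤ 1 + x := by
    have := norm_add_le (x : ℂ) Complex.I
    rw [Complex.norm_I, Complex.norm_real, Real.norm_eq_abs, abs_of_pos hxp] at this
    linarith
  have a3 : 7 / 8 * x ≤ ‖w - x‖ := by
    have := norm_sub_norm_le (x : ℂ) w
    rw [Complex.norm_real, Real.norm_eq_abs, abs_of_pos hxp, norm_sub_rev] at this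
    linarith
  have b1 : 0 < ‖w + Complex.I‖ := norm_pos_iff.2 h1
  have b2 : 0 < ‖(x : ℂ) + Complex.I‖ := norm_pos_iff.2 h2
  rw [dist_eq_norm, e, norm_div, norm_mul, norm_mul, norm_mul, Complex.norm_I, Complex.norm_ofNat,
    mul_one]
  calc 7 / 4 * x0 / ((1 + x0) * (1 + x0 / 8)) ≤ 7 / 4 * x / ((1 + x) * (1 + x0 / 8)) := by
        rw [div_le_div_iff₀ (by positivity) (by positivity)]
        have : 0 ≤ (x - x0) * (1 + x0 / 8) := mul_nonneg (by linarith) (by positivity)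
        nlinarith
    _ ≤ 2 * ‖w - x‖ / (‖w + Complex.I‖ * ‖(x : ℂ) + Complex.I‖) := by
        refine div_le_div₀ (by positivity) (by linarith) (by positivity) ?_
        rw [mul_comm]
        exact mul_le_mul a2 a1 b1.le (by positivity) |>.trans' (by rw [mul_comm])

/-- The edges far from the start were not read. -/
theorem unr {x0 : ℝ} (hRd : 0 < Rd) (hcd : 0 < cd) (hT : 0 ≤ T) (hR : 0 ≤ R) (hY0 : 0 < Y)
    (hY : 8 * R ≤ Y) (hY2 : 64 * T ≤ Y ^ 2) (hx0 : 0 < x0) (hRx : 64 * R ≤ x0)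
    (hTx : 1024 * T ≤ x0 ^ 2) : ∃ δ₀ > 0, ∀ {n : ℕ} {p : ZMod n → ℤ × ℤ}
      {S : Finset (ℤ × ℤ)} {δ : ℝ} {k : ℕ} {A : Finset (Sym2 (ℤ × ℤ))} {j : ℕ} {ψ : ℂ → ℂ}
      {W : ℝ → ℝ} {t : ℝ}, CDat δ p k S A j ψ W t T R Rd cd Y →
      IsU ψ (Om δ S) (aM p δ) (bM p k δ) → W 0 = 0 → δ ≤ δ₀ → ∀ jf : ℕ, jf < k →
      x0 ≤ xf ψ p δ jf → ∀ i : ℕ, jf ≤ i → i < k → Unr p k A j i := by
  set κ : ℝ := 7 / 4 * x0 / ((1 + x0) * (1 + x0 / 8)) with hκ
  have hκ0 : 0 < κ := by rw [hκ]; positivity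
  obtain ⟨η, hη, hsm⟩ := Vale.Agent.P167.H756.small_dom (T := T) (R := R) (Rd := Rd) (cd := cd)
    (Y := Y) hRd hcd hY0 hY hY2 (half_pos hκ0)
  refine ⟨η, hη, ?_⟩
  intro n p S δ k A j ψ W t H hU hW0 hδ jf hjf hxf i hi hik i' hi' hread
  have hxs := xf_spec H.hδ H.hp H.hS H.hk H.hkn hU
  obtain ⟨-, hx2⟩ := hxs.1 i (by omega) (by exact_mod_cast hik)
  set x : ℝ := xf ψ p δ i with hx
  have hx0x : x0 ≤ x := by
    rcases hi.eq_or_lt with h | h
    · rw [hx, ← h]; exact hxf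
    · exact hxf.trans (hxs.2 jf i (by omega) (by exact_mod_cast h) (by exact_mod_cast hik)).le
  rw [← ahead_pc H.hp] at hread
  obtain ⟨u, v, hu, hv, hpath⟩ := read_pt (δ := δ) hi' H.hj hread
  rw [Int.cast_natCast] at hx2
  set b : ℝ → ℂ := fun s => (δ : ℂ) * qp (pc p i) ((1 - s) * u) ((1 - s) * v + s * (3 / 8)) with hb
  have hbc : Continuous b := by
    simp only [hb, qp_lin]
    fun_prop
  obtain ⟨u0, u1⟩ := abs_le.1 hu
  obtain ⟨v0, v1⟩ := abs_le.1 hv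
  have hbOm : ∀ s ∈ Ico (0 : ℝ) 1, b s ∈ Om δ S := by
    intro s hs
    have hs0 : 0 < 1 - s := by linarith [hs.2]
    refine qp_mem_Om H.hδ H.hp H.hS i ?_ ?_ ?_
    · rw [abs_mul, abs_of_pos hs0]
      nlinarith [hs.1, abs_nonneg u]
    · nlinarith [hs.1]
    · nlinarith [hs.1]
  have hb0 : b 0 = (δ : ℂ) * qp (pc p i) u v := by
    simp only [hb]
    congr 2 <;> ring
  have hb1 : b 1 = ψ x := by
    rw [hx2]
    simp only [hb]
    congr 2 <;> ring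
  set C : Set ℂ := b '' Ico 0 1 with hC
  have hCs : C ⊆ ψ '' HH := by
    rw [H.dom0]
    rintro _ ⟨s, hs, rfl⟩
    exact hbOm s hs
  have hCc : IsPreconnected C := isPreconnected_Ico.image _ hbc.continuousOn
  have hCd : ∀ z ∈ C, ∀ z' ∈ C, dist z z' ≤ η := by
    rintro _ ⟨s, hs, rfl⟩ _ ⟨s', hs', rfl⟩
    refine le_trans ?_ hδ
    have e : b s - b s' = ((δ : ℝ) : ℂ) * (((s' - s) * u : ℝ) *
        (⟨(dir ((pc p i).2 + 1)).1, (dir ((pc p i).2 + 1)).2⟩ : ℂ) +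
        ((s' - s) * (v - 3 / 8) : ℝ) * (⟨(dir (pc p i).2).1, (dir (pc p i).2).2⟩ : ℂ)) := by
      simp only [hb, qp_lin]
      push_cast
      ring
    rw [dist_eq_norm, e, norm_mul, Complex.norm_real, Real.norm_eq_abs, abs_of_pos H.hδ]
    have h3 := norm_add_le (((s' - s) * u : ℝ) *
        (⟨(dir ((pc p i).2 + 1)).1, (dir ((pc p i).2 + 1)).2⟩ : ℂ))
        (((s' - s) * (v - 3 / 8) : ℝ) * (⟨(dir (pc p i).2).1, (dir (pc p i).2).2⟩ : ℂ))
    rw [norm_mul, norm_mul, norm_dir, norm_dir, mul_one, mul_one, Complex.norm_real,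
      Complex.norm_real, Real.norm_eq_abs, Real.norm_eq_abs, abs_mul, abs_mul] at h3
    have h4 : |s' - s| ≤ 1 := abs_le.2 ⟨by linarith [hs.1, hs.2, hs'.1, hs'.2],
      by linarith [hs.1, hs.2, hs'.1, hs'.2]⟩
    have h5 : |v - 3 / 8| ≤ 5 / 8 := abs_le.2 ⟨by linarith, by linarith⟩
    have h6 := mul_le_mul h4 hu (abs_nonneg _) zero_le_one
    have h7 := mul_le_mul h4 h5 (abs_nonneg _) zero_le_one
    have h8 := H.hδ
    nlinarith
  have hG := good_Om6 H.hδ H.hp H.hS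
  have hUn := uni_of hU hG.nocut
  have hbim : ∀ s ∈ Ico (0 : ℝ) 1, 0 < (ph ψ (b s)).im ∧ ψ (ph ψ (b s)) = b s := by
    intro s hs
    obtain ⟨w', hw', hwb⟩ := hCs ⟨s, hs, rfl⟩
    have h2 : ph ψ (b s) = w' := by rw [← hwb, ph_eq hUn (pos_HC hw')]
    rw [h2]
    exact ⟨hw', hwb⟩
  have hlt : Tendsto (fun s => ph ψ (b s)) (𝓝[<] (1 : ℝ)) (𝓝 (x : ℂ)) := by
    have h1 := ph_cont hUn (ψ x) ⟨x, real_HC x, rfl⟩
    rw [ContinuousWithinAt, ph_eq hUn (real_HC x)] at h1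
    refine h1.comp (tendsto_nhdsWithin_iff.2 ⟨?_, ?_⟩)
    · rw [← hb1]
      exact (hbc.tendsto _).mono_left nhdsWithin_le_nhds
    · filter_upwards [Ico_mem_nhdsLT (show (0 : ℝ) < 1 by norm_num)] with s hs
      obtain ⟨h2, h3⟩ := hbim s hs
      exact ⟨_, pos_HC h2, h3⟩
  -- the point of the path
  obtain ⟨hw, hwb⟩ := hbim 0 ⟨le_rfl, one_pos⟩
  set w : ℂ := ph ψ (b 0) with hw'
  have hwnd : w ∉ loewnerDomain W t := by
    intro h
    have h1 : ψ w ∈ ψ '' loewnerDomain W t := ⟨w, h, rfl⟩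
    rw [H.dom, hwb, hb0] at h1
    exact h1.2 hpath
  have hwn : ‖w‖ ≤ x0 / 8 := by
    by_contra hcon
    push Not at hcon
    refine hwnd (H.drv.dom hw ?_ ?_)
    · linarith
    · nlinarith
  have hfar := mb_far hx0 hx0x hw hwn
  have hDrv0 : Drv T R W 0 := ⟨H.drv.cont, le_rfl, hT, fun s hs => by
    have : s = 0 := le_antisymm hs.2 hs.1
    rw [this, hW0, abs_zero]
    exact hR⟩
  have hlim : Tendsto (fun s => dist (mb 1 Complex.I w)
      (mb 1 Complex.I (ph ψ (b s)))) (𝓝[<] (1 : ℝ))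
      (𝓝 (dist (mb 1 Complex.I w) (mb 1 Complex.I (x : ℂ)))) :=
    tendsto_const_nhds.dist ((mb_contAt x).tendsto.comp hlt)
  have hle : dist (mb 1 Complex.I w) (mb 1 Complex.I (x : ℂ)) ≤ κ / 2 := by
    refine le_of_tendsto hlim ?_
    filter_upwards [Ico_mem_nhdsLT (show (0 : ℝ) < 1 by norm_num)] with s hs
    obtain ⟨h2, h3⟩ := hbim s hs
    have h4 := hsm ψ H.conf W 0 hDrv0 C (by rwa [Vale.Agent.P167.H756.dom_zero' W]) hCc hCd w
      (by rw [Vale.Agent.P167.H756.dom_zero' W]; exact hw) (ph ψ (b s))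
      (by rw [Vale.Agent.P167.H756.dom_zero' W]; exact h2)
      (by rw [hwb]; exact ⟨0, ⟨le_rfl, one_pos⟩, rfl⟩) (by rw [h3]; exact ⟨s, hs, rfl⟩)
    rwa [Vale.Agent.P164.Zf_zero hw, Vale.Agent.P164.Zf_zero h2, hW0, Complex.ofReal_zero, sub_zero,
      sub_zero] at h4
  linarith

end Vale.Agent.P167.H327
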