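import Vale.Agent.P167.H327.Rado6
import Vale.Agent.P167.H446.GeoT

/-!
# P167, block E2-GEO: the domain pushed outward by `3/8` of the mesh is a Jordan domain, and the
uniformizers converge
-/

open Set Topology Metric Filter Bornology

namespace Vale.Agent.P167.H327

open Vale.Agent.P167.E6 Vale.Agent.P167.E2
open Vale.Agent.P153.R2.R1
open Vale.Agent.P153.R2.Final (dom circ toC IsUniformizer)

/-- **`Om δ S` is a bounded Jordan domain.** -/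
theorem good_Om6 {n : ℕ} {p : ZMod n → ℤ × ℤ} {S : Finset (ℤ × ℤ)} {δ : ℝ} (hδ : 0 < δ)
    (hp : IsPolygon p) (hS : Encloses p S) : Good (Om δ S) :=
  good_Om hδ hp hS (H446.rdom_Om hδ hp hS)

/-- **Convergence of the uniformizers of the pushed domains.** -/
theorem rado_Om {Φ : (ℝ × ℝ) ≃ₜ (ℝ × ℝ)} {δn : ℕ → ℝ} {N k : ℕ → ℕ}
    {P : ∀ n, ZMod (N n) → ℤ × ℤ} {T : ℕ → Finset (ℤ × ℤ)} (h : Approx Φ δn N k P T)
    {ψ : ℂ → ℂ} (hψ : IsUniformizer Φ ψ) :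
    ∃ (b' : ℕ → ℂ) (ψn : ℕ → ℂ → ℂ),
      (∀ n, k n + 1 < N n → b' n = bM (P n) (k n) (δn n)) ∧
      Tendsto b' atTop (𝓝 (FC Φ Real.pi)) ∧
      (∀ n, b' n ∈ frontier (Om (δn n) (T n)) ∧ aM (P n) (δn n) ≠ b' n ∧
        IsU (ψn n) (Om (δn n) (T n)) (aM (P n) (δn n)) (b' n) ∧
        InjOn (ψn n) {z | 0 ≤ z.im}) ∧
      TendstoUniformlyOn ψn ψ atTop {z | 0 ≤ z.im} :=
  rado6 (fun n => by
    obtain ⟨h1, -, -, h2, h3⟩ := h.1 n
    exact H446.rdom_Om h1 h2 h3) h hψ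

end Vale.Agent.P167.H327
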