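import Vale.Agent.P167.H327.Near
import Vale.Agent.P167.H327.Rado6

/-!
# P167, block POLY: the shifted Jordan domains

`sh Φ r` is the domain `Φ (disc + (0, r))` with its marks.  For `0 < r` the closed free arc of `sh Φ r` is
outside of the closed domain of `Φ` and the closed wired arc of `Φ` is outside of the closed domain of `sh Φ r`;
for `r < 0` the arcs are exchanged.  All margins are positive and stable.
-/

set_option autoImplicit false

open Set Filter Topology Metric Bornology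

namespace Vale.Agent.P167.H327

open Vale.Agent.P153.R2.R1 Vale.Agent.P167.H174
open Vale.Agent.P153.R2.Final (dom circ toC IsUniformizer)
open Vale.Agent.P167.E6 Vale.Agent.P167.E2
open P153.TOP

variable {Φ Φ' : (ℝ × ℝ) ≃ₜ (ℝ × ℝ)} {r : ℝ}

/-- the shifted domain -/
def sh (Φ : (ℝ × ℝ) ≃ₜ (ℝ × ℝ)) (r : ℝ) : (ℝ × ℝ) ≃ₜ (ℝ × ℝ) := (Homeomorph.addRight ((0 : ℝ), r)).trans Φ

theorem sh_apply (z : ℝ × ℝ) : sh Φ r z = Φ (z + (0, r)) := rfl

theorem toC_add (z w : ℝ × ℝ) : toC (z + w) = toC z + toC w := by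
  apply Complex.ext <;> simp [toC]

theorem homC_toC (z : ℝ × ℝ) : homC Φ (toC z) = toC (Φ z) := by
  show toCH (Φ (toCH.symm (toCH z))) = toC (Φ z)
  rw [toCH.symm_apply_apply]
  rfl

theorem homC_sh (w : ℂ) : homC (sh Φ r) w = homC Φ (w + r * Complex.I) := by
  have hw : w = toC (w.re, w.im) := by apply Complex.ext <;> rfl
  have h2 : (r : ℂ) * Complex.I = toC (0, r) := by apply Complex.ext <;> simp [toC]
  rw [h2, hw, homC_toC, ← toC_add, homC_toC]
  rfl

theorem FC_sh (t : ℝ) : FC (sh Φ r) t = homC Φ (Complex.exp (t * Complex.I) + r * Complex.I) := by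
  rw [FC_eq, homC_sh]

theorem normSq_exp_add (t a : ℝ) :
    Complex.normSq (Complex.exp (t * Complex.I) + a * Complex.I) = 1 + 2 * (a * Real.sin t) + a ^ 2 := by
  rw [Complex.normSq_apply]
  simp only [Complex.add_re, Complex.add_im, Complex.exp_ofReal_mul_I_re, Complex.exp_ofReal_mul_I_im,
    Complex.re_ofReal_mul, Complex.im_ofReal_mul, Complex.I_re, Complex.I_im]
  nlinarith [Real.sin_sq_add_cos_sq t]

theorem norm_exp_add {t a : ℝ} (ha : a ≠ 0) (h : 0 ≤ a * Real.sin t) :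
    1 < ‖Complex.exp (t * Complex.I) + a * Complex.I‖ := by
  rw [← one_lt_sq_iff₀ (norm_nonneg _), Complex.sq_norm, normSq_exp_add]
  have : 0 < a ^ 2 := by positivity
  linarith

/-- the free arc (`0 < r`), resp. the wired arc (`r < 0`), of the shifted domain is outside -/
theorem FC_sh_not_mem (hr : r ≠ 0) {t : ℝ} (h : 0 ≤ r * Real.sin t) : FC (sh Φ r) t ∉ closure (DC Φ) := by
  rw [FC_sh, closure_DC]
  rintro ⟨w, hw, he⟩
  rw [(homC Φ).injective he, mem_closedBall_zero_iff] at hw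
  exact absurd hw (not_le.2 (norm_exp_add hr h))

/-- the wired arc (`0 < r`), resp. the free arc (`r < 0`), of the domain is outside of the shifted domain -/
theorem FC_not_mem_sh (hr : r ≠ 0) {t : ℝ} (h : r * Real.sin t ≤ 0) : FC Φ t ∉ closure (DC (sh Φ r)) := by
  rw [FC_eq, closure_DC]
  rintro ⟨w, hw, he⟩
  rw [homC_sh] at he
  have h1 := (homC Φ).injective he
  have h2 : w = Complex.exp (t * Complex.I) + ((-r : ℝ) : ℂ) * Complex.I := by
    push_cast
    linear_combination h1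
  rw [mem_closedBall_zero_iff, h2] at hw
  exact absurd hw (not_le.2 (norm_exp_add (neg_ne_zero.2 hr) (by linarith)))

/-- the shifted boundary curve is close -/
theorem exists_sh_near (Φ : (ℝ × ℝ) ≃ₜ (ℝ × ℝ)) {ε : ℝ} (hε : 0 < ε) :
    ∃ r₀ > 0, ∀ r, |r| ≤ r₀ → ∀ t, dist (FC (sh Φ r) t) (FC Φ t) < ε := by
  have hu : UniformContinuousOn (homC Φ) (closedBall 0 2) :=
    (isCompact_closedBall (0 : ℂ) 2).uniformContinuousOn_of_continuous (homC Φ).continuous.continuousOn
  obtain ⟨η, hη, h⟩ := Metric.uniformContinuousOn_iff.1 hu ε hε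
  refine ⟨min 1 (η / 2), lt_min one_pos (half_pos hη), fun r hr t => ?_⟩
  rw [FC_sh, FC_eq]
  have h1 : ‖Complex.exp (t * Complex.I)‖ = 1 := Complex.norm_exp_ofReal_mul_I t
  have h2 : ‖(r : ℂ) * Complex.I‖ = |r| := by rw [norm_mul, Complex.norm_I, mul_one, Complex.norm_real]; rfl
  refine h _ ?_ _ ?_ ?_
  · rw [mem_closedBall_zero_iff]
    have := norm_add_le (Complex.exp (t * Complex.I)) (r * Complex.I)
    linarith [hr.trans (min_le_left _ _)]
  · rw [mem_closedBall_zero_iff, h1]; norm_num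
  · rw [dist_eq_norm, add_sub_cancel_left, h2]
    linarith [hr.trans (min_le_right _ _)]

theorem exists_margin {A : Set ℝ} (hA : IsCompact A) {F : ℝ → ℂ} (hF : Continuous F) {C : Set ℂ}
    (hC : IsClosed C) (h : ∀ t ∈ A, F t ∉ C) : ∃ c > 0, ∀ t ∈ A, ∀ z ∈ C, c ≤ dist (F t) z := by
  have hdisj : Disjoint (F '' A) C := by
    rw [Set.disjoint_left]
    rintro _ ⟨t, ht, rfl⟩
    exact h t ht
  obtain ⟨c, hc, h1⟩ := hdisj.exists_thickenings (hA.image hF) hC
  refine ⟨c, hc, fun t ht z hz => ?_⟩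
  by_contra hlt
  push Not at hlt
  rw [dist_comm] at hlt
  exact (Set.disjoint_left.1 h1) (self_subset_thickening hc _ (mem_image_of_mem F ht))
    (mem_thickening_iff.2 ⟨z, hz, by rwa [dist_comm]⟩)

/-- every point of the boundary curve is `FC Φ t`, `t ∈ [0, 2π]`, with the same sine -/
theorem exists_Icc (Φ : (ℝ × ℝ) ≃ₜ (ℝ × ℝ)) (t : ℝ) :
    ∃ u ∈ Icc 0 (2 * Real.pi), FC Φ u = FC Φ t ∧ Real.sin u = Real.sin t := by
  have hp : (0 : ℝ) < 2 * Real.pi := by positivity
  obtain ⟨m, hm⟩ : ∃ m : ℤ, t = (t - m * (2 * Real.pi)) + m * (2 * Real.pi) := ⟨⌊t / (2 * Real.pi)⌋, by ring⟩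
  refine ⟨t - ⌊t / (2 * Real.pi)⌋ * (2 * Real.pi), ⟨?_, ?_⟩, ?_, ?_⟩
  · have := Int.floor_le (t / (2 * Real.pi))
    rw [le_div_iff₀ hp] at this
    linarith
  · have := Int.lt_floor_add_one (t / (2 * Real.pi))
    rw [div_lt_iff₀ hp] at this
    linarith
  · have := per_int (jcurve_FC Φ).per (-⌊t / (2 * Real.pi)⌋) t
    rw [← this]
    congr 1
    push_cast
    ring
  · rw [Real.sin_sub_int_mul_two_pi]

/-- **The margins of the shifted domain.** -/
theorem exists_sh_margin (Φ : (ℝ × ℝ) ≃ₜ (ℝ × ℝ)) (hr : r ≠ 0) :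
    ∃ c > 0, (∀ t, 0 ≤ r * Real.sin t → ∀ z ∈ closure (DC Φ), c ≤ dist (FC (sh Φ r) t) z) ∧
      ∀ t, r * Real.sin t ≤ 0 → ∀ z ∈ closure (DC (sh Φ r)), c ≤ dist (FC Φ t) z := by
  have hs : Continuous fun t : ℝ => r * Real.sin t := by fun_prop
  have hA : IsCompact (Icc 0 (2 * Real.pi) ∩ {t | 0 ≤ r * Real.sin t}) :=
    isCompact_Icc.inter_right (isClosed_le continuous_const hs)
  have hB : IsCompact (Icc 0 (2 * Real.pi) ∩ {t | r * Real.sin t ≤ 0}) :=
    isCompact_Icc.inter_right (isClosed_le hs continuous_const)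
  obtain ⟨c₁, hc₁, h1⟩ := exists_margin hA (jcurve_FC (sh Φ r)).cont (isClosed_closure (s := DC Φ))
    (fun t ht => FC_sh_not_mem hr ht.2)
  obtain ⟨c₂, hc₂, h2⟩ := exists_margin hB (jcurve_FC Φ).cont (isClosed_closure (s := DC (sh Φ r)))
    (fun t ht => FC_not_mem_sh hr ht.2)
  refine ⟨min c₁ c₂, lt_min hc₁ hc₂, fun t ht z hz => ?_, fun t ht z hz => ?_⟩
  · obtain ⟨u, hu, he, hsin⟩ := exists_Icc (sh Φ r) t
    rw [← he]
    exact (min_le_left _ _).trans (h1 u ⟨hu, by rw [mem_ofPred_eq, hsin]; exact ht⟩ z hz)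
  · obtain ⟨u, hu, he, hsin⟩ := exists_Icc Φ t
    rw [← he]
    exact (min_le_right _ _).trans (h2 u ⟨hu, by rw [mem_ofPred_eq, hsin]; exact ht⟩ z hz)

/-- **[POLY], margins**: every domain `Φ'` which is close to the shifted domain `sh Φ r` is close to `Φ`, its
boundary points `FC Φ' t` with `0 ≤ r * sin t` are far from the closed domain of `Φ`, and the boundary points
`FC Φ t` with `r * sin t ≤ 0` are far from the closed domain of `Φ'`. -/
theorem exists_push (Φ : (ℝ × ℝ) ≃ₜ (ℝ × ℝ)) {ε : ℝ} (hε : 0 < ε) :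
    ∃ r₀ > 0, ∀ r, r ≠ 0 → |r| ≤ r₀ → ∃ η > 0, ∃ c > 0, ∀ Φ' : (ℝ × ℝ) ≃ₜ (ℝ × ℝ),
      (∀ t, dist (FC (sh Φ r) t) (FC Φ' t) ≤ η) →
      (∀ t, dist (FC Φ' t) (FC Φ t) < ε) ∧
      (∀ t, 0 ≤ r * Real.sin t → ∀ z ∈ closure (DC Φ), c ≤ dist (FC Φ' t) z) ∧
      ∀ t, r * Real.sin t ≤ 0 → ∀ z ∈ closure (DC Φ'), c ≤ dist (FC Φ t) z := by
  obtain ⟨r₀, hr₀, hn⟩ := exists_sh_near Φ (half_pos hε)
  refine ⟨r₀, hr₀, fun r hr hrr => ?_⟩
  obtain ⟨c, hc, h1, h2⟩ := exists_sh_margin Φ hr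
  refine ⟨min (ε / 2) (c / 2), by positivity, c / 2, by positivity, fun Φ' h => ⟨fun t => ?_, fun t ht z hz => ?_,
    fun t ht z hz => ?_⟩⟩
  · have h3 := dist_triangle (FC Φ' t) (FC (sh Φ r) t) (FC Φ t)
    have h4 := hn r hrr t
    have h5 := (h t).trans (min_le_left _ _)
    rw [dist_comm] at h5
    linarith
  · have h3 := dist_triangle (FC (sh Φ r) t) (FC Φ' t) z
    have h4 := (h t).trans (min_le_right _ _)
    have h5 := h1 t ht z hz
    linarith
  · have h3 := margin_closure (fun t => (h t).trans (min_le_right _ _)) (h2 t ht) z hz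
    linarith

/-! ### The lattice domains which approximate `Φ` -/

section approx

variable {δ : ℕ → ℝ} {N k : ℕ → ℕ} {p : ∀ n, ZMod (N n) → ℤ × ℤ} {S : ℕ → Finset (ℤ × ℤ)}

/-- a compact set outside of the closed domain is eventually outside of the lattice domains -/
theorem outer_disjoint (h : Approx Φ δ N k p S) {K : Set ℂ} (hK : IsCompact K)
    (hd : Disjoint K (closure (DC Φ))) : ∀ᶠ n in atTop, Disjoint K (region (δ n) (S n)) := by
  rcases K.eq_empty_or_nonempty with rfl | hKne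
  · exact Eventually.of_forall fun n => empty_disjoint _
  -- the compact set in the coordinates of the disc
  have hK1 : IsCompact ((homC Φ).symm '' K) := hK.image (homC Φ).symm.continuous
  obtain ⟨w₀, hw₀, hmin⟩ := hK1.exists_isMinOn (hKne.image _) continuous_norm.continuousOn
  have hs : 1 < ‖w₀‖ := by
    obtain ⟨z, hz, rfl⟩ := hw₀
    by_contra hle
    push Not at hle
    refine (Set.disjoint_left.1 hd) hz ?_
    rw [closure_DC]
    exact ⟨_, mem_closedBall_zero_iff.2 hle, (homC Φ).apply_symm_apply z⟩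
  set s : ℝ := (1 + ‖w₀‖) / 2 with hsd
  have hs1 : 1 < s := by rw [hsd]; linarith
  set E : Set ℂ := homC Φ '' (closedBall 0 s)ᶜ with hE
  have hEc : IsPreconnected E := (preconnected_compl_closedBall 0 s).image _ (homC Φ).continuous.continuousOn
  have hKE : K ⊆ E := by
    intro z hz
    refine ⟨(homC Φ).symm z, fun hm => ?_, (homC Φ).apply_symm_apply z⟩
    have h1 : ‖w₀‖ ≤ ‖(homC Φ).symm z‖ := hmin (mem_image_of_mem _ hz)
    rw [mem_closedBall_zero_iff] at hm
    rw [hsd] at hm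
    linarith
  -- the boundary curve has a neighbourhood outside of `E`
  have hV : IsOpen (homC Φ '' ball 0 s) := (homC Φ).isOpenMap _ isOpen_ball
  have hFV : range (FC Φ) ⊆ homC Φ '' ball 0 s := by
    rintro _ ⟨t, rfl⟩
    rw [FC_eq]
    refine ⟨_, ?_, rfl⟩
    rw [mem_ball_zero_iff, Complex.norm_exp_ofReal_mul_I]
    exact hs1
  have hfrc : IsCompact (range (FC Φ)) := by
    rw [← frontier_DC]
    exact (isBounded_DC Φ).isCompact_closure.of_isClosed_subset isClosed_frontier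
      frontier_subset_closure
  obtain ⟨ε, hε, hεV⟩ := hfrc.exists_thickening_subset_open hV hFV
  -- a far point
  obtain ⟨R, hR0, hR⟩ := (kconv6 h).bdd
  obtain ⟨R₂, hR₂⟩ := (((isCompact_closedBall (0 : ℂ) s).image (homC Φ).continuous).isBounded).subset_closedBall 0
  set q : ℂ := ((|R| + |R₂| + 1 : ℝ) : ℂ) with hq
  have hqn : ‖q‖ = |R| + |R₂| + 1 := by
    rw [hq, Complex.norm_real, Real.norm_of_nonneg (by positivity)]
  have hqE : q ∈ E := by
    refine ⟨(homC Φ).symm q, fun hm => ?_, (homC Φ).apply_symm_apply q⟩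
    have h1 := hR₂ (mem_image_of_mem _ hm)
    rw [(homC Φ).apply_symm_apply, mem_closedBall_zero_iff, hqn] at h1
    linarith [le_abs_self R₂, abs_nonneg R]
  filter_upwards [hR, approx_close6 h (half_pos hε)] with n hn hcl
  obtain ⟨σ, -, -, -, -, -, hdist⟩ := hcl
  obtain ⟨hδ0, -, -, hp, hS⟩ := h.1 n
  have hdisj : Disjoint E (frontier (Om (δ n) (S n))) := by
    rw [frontier_Om hδ0 hp hS, Set.disjoint_left]
    rintro _ ⟨w, hw, rfl⟩ ⟨x, hx⟩
    have h1 : homC Φ w ∈ homC Φ '' ball 0 s := by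
      refine hεV (mem_thickening_iff.2 ⟨FC Φ (σ x), ⟨_, rfl⟩, ?_⟩)
      rw [← hx]
      exact (hdist x).trans_lt (half_lt_self hε)
    obtain ⟨w', hw', he⟩ := h1
    rw [(homC Φ).injective he] at hw'
    exact hw (ball_subset_closedBall hw')
  rw [Set.disjoint_left]
  intro z hz hz'
  have hsub := subset_of_frontier (isOpen_Om hδ0 (S n)) hEc ⟨z, hKE hz, region_subset_Om hδ0 (S n) hz'⟩ hdisj
  have h1 := hn (hsub hqE)
  rw [mem_closedBall_zero_iff, hqn] at h1
  linarith [le_abs_self R, abs_nonneg R₂]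

/-- the lattice domains are eventually close to the closed domain -/
theorem region_near (h : Approx Φ δ N k p S) {c : ℝ} (hc : 0 < c) :
    ∀ᶠ n in atTop, ∀ z ∈ region (δ n) (S n), ∃ w ∈ closure (DC Φ), dist z w < c := by
  obtain ⟨R, hR0, hR⟩ := (kconv6 h).bdd
  set K : Set ℂ := closedBall 0 R ∩ (thickening c (closure (DC Φ)))ᶜ with hK
  have hKc : IsCompact K := (isCompact_closedBall 0 R).inter_right isOpen_thickening.isClosed_compl
  have hKd : Disjoint K (closure (DC Φ)) := by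
    rw [Set.disjoint_left]
    rintro z ⟨-, hz⟩ hz'
    exact hz (self_subset_thickening hc _ hz')
  filter_upwards [hR, outer_disjoint h hKc hKd] with n hn hd z hz
  by_contra hcon
  refine (Set.disjoint_left.1 hd) ⟨hn (region_subset_Om (h.1 n).1 (S n) hz), fun hm => hcon ?_⟩ hz
  exact mem_thickening_iff.1 hm

/-- **[POLY], lattice margins**: `Φ'` near the shifted domain; the margins with respect to the lattice domains
which approximate `Φ`. -/
theorem lattice_margins (h : Approx Φ δ N k p S) {c : ℝ} (hc : 0 < c)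
    (h1 : ∀ t, 0 ≤ r * Real.sin t → ∀ z ∈ closure (DC Φ), c ≤ dist (FC Φ' t) z)
    (h2 : ∀ t, r * Real.sin t ≤ 0 → ∀ z ∈ closure (DC Φ'), c ≤ dist (FC Φ t) z) :
    ∀ᶠ n in atTop, (∀ t, 0 ≤ r * Real.sin t → ∀ z ∈ region (δ n) (S n), c / 2 ≤ dist (FC Φ' t) z) ∧
      (0 < r → ∀ i : ℕ, k n ≤ i → i < N n → ∀ z ∈ closure (DC Φ'), c / 2 ≤ dist ((δ n : ℂ) * pt (p n i)) z) ∧
      (r < 0 → ∀ i : ℕ, i < k n → ∀ z ∈ closure (DC Φ'), c / 2 ≤ dist ((δ n : ℂ) * pt (p n i)) z) := by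
  filter_upwards [region_near h (half_pos hc), h.2.2 (c / 2) (half_pos hc)] with n hn hcl
  obtain ⟨s, hs, s0, sk, sN, hd⟩ := hcl
  obtain ⟨hδ0, hk0, hkN, hp, hS⟩ := h.1 n
  have key : ∀ i < N n, r * Real.sin (s i) ≤ 0 → ∀ z ∈ closure (DC Φ'),
      c / 2 ≤ dist ((δ n : ℂ) * pt (p n i)) z := by
    intro i hi hsin z hz
    have h3 := hd i hi (s i) ⟨le_rfl, hs (Nat.le_succ i)⟩
    have h4 := h2 (s i) hsin z hz
    have h5 := dist_triangle (FC Φ (s i)) ((δ n : ℂ) * pt (p n i)) z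
    have h6 : dist (FC Φ (s i)) ((δ n : ℂ) * pt (p n i)) < c / 2 := by rw [dist_comm]; exact h3
    linarith
  refine ⟨fun t ht z hz => ?_, fun hr i hi hiN => key i hiN ?_, fun hr i hi => key i (hi.trans hkN) ?_⟩
  · obtain ⟨w, hw, hzw⟩ := hn z hz
    have h3 := h1 t ht w hw
    have h4 := dist_triangle (FC Φ' t) z w
    linarith
  · refine mul_nonpos_of_nonneg_of_nonpos hr.le ?_
    have h3 : Real.pi ≤ s i := by rw [← sk]; exact hs hi
    have h4 : s i ≤ 2 * Real.pi := by rw [← sN]; exact hs hiN.le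
    have h5 : Real.sin (s i) = -Real.sin (s i - Real.pi) := by rw [Real.sin_sub_pi]; ring
    rw [h5, neg_nonpos]
    exact Real.sin_nonneg_of_nonneg_of_le_pi (by linarith) (by linarith)
  · refine mul_nonpos_of_nonpos_of_nonneg hr.le ?_
    have h3 : 0 ≤ s i := by rw [← s0]; exact hs (Nat.zero_le _)
    have h4 : s i ≤ Real.pi := by rw [← sk]; exact hs hi.le
    exact Real.sin_nonneg_of_nonneg_of_le_pi h3 h4

end approx

end Vale.Agent.P167.H327
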