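import Vale.Agent.P167.H174.Exh
import Vale.Agent.P153.R2.R1.HalfP
import Vale.Agent.P153.R2.R1.Appr

/-!
# P167, block POLY: Jordan domains with close boundary curves

`DC Φ` is the domain, `FC Φ` its boundary curve.
* `mem_DC_iff` : a point which is farther from `FC Φ₁ t` than `FC Φ₂ t` is, for all `t`, is in both domains
  or in none; `closure_sub`, `dist_closure`: the closed domains are close;
* `rado_near` : the uniformizers of `Φn i` converge to that of `Φ` if the boundary curves converge uniformly.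
-/

set_option autoImplicit false

open Set Filter Topology Metric Bornology

namespace Vale.Agent.P167.H327

open Vale.Agent.P153.R2.R1 Vale.Agent.P167.H174
open Vale.Agent.P153.R2.Final (dom circ toC IsUniformizer)
open P153.TOP

variable {Φ₁ Φ₂ Φ : (ℝ × ℝ) ≃ₜ (ℝ × ℝ)} {z : ℂ}

theorem sphere_arg {w : ℂ} (hw : w ∈ sphere (0 : ℂ) 1) : Complex.exp (w.arg * Complex.I) = w := by
  have := Complex.norm_mul_exp_arg_mul_I w
  rwa [mem_sphere_zero_iff_norm.1 hw, Complex.ofReal_one, one_mul] at this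

/-- outside of the closed domain there is a logarithm -/
theorem logOn_of_not_mem (hz : z ∉ closure (DC Φ)) : LogOn (sphere (0 : ℂ) 1) (fun w => homC Φ w - z) := by
  refine (hasLogOn_of_convex (convex_closedBall (0 : ℂ) 1) (fun w => homC Φ w - z)
    ((homC Φ).continuous.continuousOn.sub continuousOn_const) fun w hw h0 => ?_).mono
    sphere_subset_closedBall
  apply hz
  rw [closure_DC]
  exact ⟨w, hw, sub_eq_zero.1 h0⟩

/-- inside there is none -/
theorem not_logOn_of_mem (hz : z ∈ DC Φ) : ¬ LogOn (sphere (0 : ℂ) 1) (fun w => homC Φ w - z) := by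
  intro h
  refine not_logOn_frontier Φ hz ?_
  refine (h.comp (L := range (FC Φ)) (φ := (homC Φ).symm)
    (homC Φ).symm.continuous.continuousOn ?_).congr ?_
  · rintro _ ⟨t, rfl⟩
    rw [FC_eq, Homeomorph.symm_apply_apply, mem_sphere_zero_iff_norm,
      Complex.norm_exp_ofReal_mul_I]
  · intro w _
    simp

theorem logOn_ratio (h : ∀ t, dist (FC Φ₁ t) (FC Φ₂ t) < dist (FC Φ₁ t) z) :
    LogOn (sphere (0 : ℂ) 1) (fun w => (homC Φ₂ w - z) / (homC Φ₁ w - z)) := by
  have hne : ∀ w ∈ sphere (0 : ℂ) 1, homC Φ₁ w - z ≠ 0 := by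
    intro w hw h0
    have h1 := h w.arg
    rw [FC_eq, FC_eq, sphere_arg hw, sub_eq_zero.1 h0, dist_self] at h1
    exact absurd h1 (not_lt.2 dist_nonneg)
  refine logOn_of_norm_sub_one_lt ?_ fun w hw => ?_
  · exact ((homC Φ₂).continuous.continuousOn.sub continuousOn_const).div
      ((homC Φ₁).continuous.continuousOn.sub continuousOn_const) hne
  · have h1 := h w.arg
    rw [FC_eq, FC_eq, sphere_arg hw] at h1
    have e : (homC Φ₂ w - z) / (homC Φ₁ w - z) - 1 = (homC Φ₂ w - homC Φ₁ w) / (homC Φ₁ w - z) := by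
      have := hne w hw
      field_simp
      ring
    rw [e, norm_div, ← dist_eq_norm, ← dist_eq_norm, div_lt_one (dist_nonneg.trans_lt h1), dist_comm]
    exact h1

theorem FC_ne_of_near (h : ∀ t, dist (FC Φ₁ t) (FC Φ₂ t) < dist (FC Φ₁ t) z) :
    z ∉ range (FC Φ₁) ∧ z ∉ range (FC Φ₂) := by
  constructor
  · rintro ⟨t, rfl⟩
    have := h t
    rw [dist_self] at this
    exact absurd this (not_lt.2 dist_nonneg)
  · rintro ⟨t, rfl⟩
    exact lt_irrefl _ (h t)

/-- **A point which is farther from the first boundary curve than the second curve is, is in both domains or in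
none of them.** -/
theorem mem_DC_iff (h : ∀ t, dist (FC Φ₁ t) (FC Φ₂ t) < dist (FC Φ₁ t) z) : z ∈ DC Φ₁ ↔ z ∈ DC Φ₂ := by
  obtain ⟨f1, f2⟩ := FC_ne_of_near h
  have hr := logOn_ratio h
  have key : ∀ {Φ : (ℝ × ℝ) ≃ₜ (ℝ × ℝ)}, z ∉ range (FC Φ) → z ∉ DC Φ →
      LogOn (sphere (0 : ℂ) 1) (fun w => homC Φ w - z) := by
    intro Φ hf hn
    refine logOn_of_not_mem fun hc => hf ?_
    rw [← frontier_DC, (isOpen_DC Φ).frontier_eq]
    exact ⟨hc, hn⟩
  have hne : ∀ w ∈ sphere (0 : ℂ) 1, homC Φ₁ w - z ≠ 0 ∧ homC Φ₂ w - z ≠ 0 := by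
    intro w hw
    refine ⟨fun h0 => f1 ⟨w.arg, ?_⟩, fun h0 => f2 ⟨w.arg, ?_⟩⟩
    · rw [FC_eq, sphere_arg hw]; exact sub_eq_zero.1 h0
    · rw [FC_eq, sphere_arg hw]; exact sub_eq_zero.1 h0
  constructor
  · intro h1
    by_contra h2
    refine not_logOn_of_mem h1 (((key f2 h2).div hr).congr fun w hw => ?_)
    obtain ⟨n1, n2⟩ := hne w hw
    field_simp
  · intro h2
    by_contra h1
    refine not_logOn_of_mem h2 (((key f1 h1).mul hr).congr fun w hw => ?_)
    obtain ⟨n1, n2⟩ := hne w hw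
    field_simp

theorem closure_DC_eq : closure (DC Φ) = DC Φ ∪ range (FC Φ) := by
  rw [← frontier_DC, closure_eq_self_union_frontier]

/-- the same for the closed domains -/
theorem mem_closure_iff_of_near (h : ∀ t, dist (FC Φ₁ t) (FC Φ₂ t) < dist (FC Φ₁ t) z) :
    z ∈ closure (DC Φ₁) ↔ z ∈ closure (DC Φ₂) := by
  obtain ⟨f1, f2⟩ := FC_ne_of_near h
  rw [closure_DC_eq, closure_DC_eq, mem_union, mem_union, or_iff_left f1, or_iff_left f2]
  exact mem_DC_iff h

/-- **The closed domains are close.** -/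
theorem exists_near_closure {η : ℝ} (h : ∀ t, dist (FC Φ₁ t) (FC Φ₂ t) ≤ η) (hz : z ∈ closure (DC Φ₂)) :
    ∃ w ∈ closure (DC Φ₁), dist z w ≤ η := by
  by_contra hc
  push Not at hc
  have hη : 0 ≤ η := dist_nonneg.trans (h 0)
  have h1 : z ∉ closure (DC Φ₁) := fun hm => by
    have := hc z hm
    rw [dist_self] at this
    exact absurd this (not_lt.2 hη)
  refine h1 ((mem_closure_iff_of_near fun t => ?_).2 hz)
  have := hc (FC Φ₁ t) (frontier_subset_closure (FC_mem_frontier Φ₁ t))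
  rw [dist_comm] at this
  exact (h t).trans_lt this

/-- margins are preserved -/
theorem margin_closure {η c : ℝ} {w : ℂ} (h : ∀ t, dist (FC Φ₁ t) (FC Φ₂ t) ≤ η)
    (hw : ∀ z ∈ closure (DC Φ₁), c ≤ dist w z) : ∀ z ∈ closure (DC Φ₂), c - η ≤ dist w z := by
  intro z hz
  obtain ⟨z', hz', hd⟩ := exists_near_closure h hz
  have h1 := hw z' hz'
  have h2 := dist_triangle w z z'
  linarith

/-- the points of the domain at a distance larger than `η` from its boundary curve are in the other domain -/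
theorem mem_of_deep {η : ℝ} (h : ∀ t, dist (FC Φ₁ t) (FC Φ₂ t) ≤ η) (hz : z ∈ DC Φ₁)
    (hd : ∀ t, η < dist (FC Φ₁ t) z) : z ∈ DC Φ₂ :=
  (mem_DC_iff fun t => (h t).trans_lt (hd t)).1 hz

/-! ### Convergence of the uniformizers -/

theorem kconv_near {ι : Type*} {l : Filter ι} {Φn : ι → (ℝ × ℝ) ≃ₜ (ℝ × ℝ)}
    (h : ∀ ε > 0, ∀ᶠ i in l, ∀ t, dist (FC (Φn i) t) (FC Φ t) ≤ ε) :
    KConv l (fun i => DC (Φn i)) (DC Φ) where
  bdd := by
    obtain ⟨R, hR⟩ := (isBounded_DC Φ).closure.subset_closedBall 0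
    refine ⟨|R| + 1, by positivity, ?_⟩
    filter_upwards [h 1 one_pos] with i hd
    refine subset_closedBall_of_frontier (isOpen_DC _) (isBounded_DC _) ?_
    rw [frontier_DC]
    rintro _ ⟨x, rfl⟩
    have h1 : FC Φ x ∈ closedBall (0 : ℂ) R := hR (frontier_subset_closure (FC_mem_frontier Φ x))
    rw [mem_closedBall] at h1 ⊢
    have h2 := dist_triangle (FC (Φn i) x) (FC Φ x) 0
    linarith [hd x, le_abs_self R]
  ctrl := by
    intro ε hε
    obtain ⟨η, hη, ε₁, hε₁, hctrl⟩ := (jcurve_FC Φ).ctrl hε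
    refine ⟨η, hη, ?_⟩
    filter_upwards [h ε₁ hε₁] with i hd
    exact hctrl _ id _ _ (jcurve_FC (Φn i)).pos (jcurve_FC (Φn i)).cont (jcurve_FC (Φn i)).per
      continuous_id monotone_id (fun _ => rfl) hd (frontier_DC _)
  inner := by
    intro K hK hKc
    rcases K.eq_empty_or_nonempty with rfl | hKne
    · exact Eventually.of_forall fun n => empty_subset _
    have hfrc : IsCompact (range (FC Φ)) := by
      rw [← frontier_DC]
      exact (isBounded_DC Φ).isCompact_closure.of_isClosed_subset isClosed_frontier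
        frontier_subset_closure
    have hdisj : Disjoint K (range (FC Φ)) := by
      rw [Set.disjoint_left]
      intro z hz hz'
      rw [← frontier_DC, (isOpen_DC Φ).frontier_eq] at hz'
      exact hz'.2 (hK hz)
    obtain ⟨r, hr, h1⟩ := hdisj.exists_thickenings hKc hfrc.isClosed
    filter_upwards [h (r / 2) (by positivity)] with i hd z hz
    refine (mem_DC_iff fun t => ?_).1 (hK hz)
    rw [dist_comm (FC Φ t)]
    refine (hd t).trans_lt ?_
    have : r ≤ dist (FC Φ t) z := by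
      by_contra hlt
      push Not at hlt
      exact (Set.disjoint_left.1 h1) (mem_thickening_iff.2 ⟨z, hz, hlt⟩)
        (self_subset_thickening hr _ ⟨t, rfl⟩)
    linarith
  outer := by
    intro q hq r hr
    rw [frontier_DC] at hq
    obtain ⟨t, rfl⟩ := hq
    filter_upwards [h (r / 2) (by positivity)] with i hd hsub
    have h1 : FC (Φn i) t ∈ ball (FC Φ t) r := by
      rw [mem_ball]; linarith [hd t]
    have h2 := FC_mem_frontier (Φn i) t
    rw [(isOpen_DC (Φn i)).frontier_eq] at h2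
    exact h2.2 (hsub h1)

/-- **The uniformizers converge uniformly.** -/
theorem rado_near {ι : Type*} {l : Filter ι} {Φn : ι → (ℝ × ℝ) ≃ₜ (ℝ × ℝ)}
    (h : ∀ ε > 0, ∀ᶠ i in l, ∀ t, dist (FC (Φn i) t) (FC Φ t) ≤ ε) {ψ : ℂ → ℂ} (hψ : IsUniformizer Φ ψ) :
    ∃ ψn : ι → ℂ → ℂ, (∀ i, IsUniformizer (Φn i) (ψn i)) ∧ TendstoUniformlyOn ψn ψ l {z | 0 ≤ z.im} := by
  have ht : ∀ t, Tendsto (fun i => FC (Φn i) t) l (𝓝 (FC Φ t)) := by
    intro t
    rw [Metric.tendsto_nhds]
    intro ε hε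
    filter_upwards [h (ε / 2) (by positivity)] with i hi
    linarith [hi t]
  obtain ⟨ψn, h1, h2⟩ := half_rado (kconv_near h) (fun i => good_DC (Φn i))
    (fun i => (good_DC (Φn i)).rdom.nonempty) (good_DC Φ).nocut ((isUniformizer_iff Φ ψ).1 hψ)
    (fun i => FC_mem_frontier (Φn i) 0) (fun i => FC_mem_frontier (Φn i) Real.pi)
    (fun i => FC_zero_ne_pi (Φn i)) (ht 0) (ht Real.pi)
  exact ⟨ψn, fun i => (isUniformizer_iff _ _).2 (h1 i).1, h2⟩

end Vale.Agent.P167.H327
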