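import Vale.Agent.P167.H327.Fr

/-!
# P167, block E2-GEO, part 3: the boundary curve
-/

set_option linter.all false

open Set Topology Metric Filter Bornology

namespace Vale.Agent.P167.H327

open Vale.Agent.P167.E6 Vale.Agent.P167.E2
open Vale.Agent.P153.R2.R1 (JCurve pl pl_eq pl_int continuous_pl pl_add per_int)

variable {n : ℕ} {p : ZMod n → ℤ × ℤ} {S : Finset (ℤ × ℤ)}

/-- The corner at the vertex of index `i`. -/
noncomputable def qC (p : ZMod n → ℤ × ℤ) (i : ℤ) : ℂ :=
  nr (p i) (cX (ri p i) (ro p i)) (cY (ri p i) (ro p i))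

/-- The exit from the dual square of the vertex of index `i`. -/
noncomputable def qO (p : ZMod n → ℤ × ℤ) (i : ℤ) : ℂ :=
  nr (p i) (oX (ro p i)) (oY (ro p i))

/-- Corners and exits. -/
noncomputable def qV (p : ZMod n → ℤ × ℤ) (m : ℤ) : ℂ :=
  if m % 2 = 0 then qC p (m / 2) else qO p (m / 2)

theorem qV_even (i : ℤ) : qV p (2 * i) = qC p i := by
  rw [qV, if_pos (by omega)]
  congr 1
  omega

theorem qV_odd (i : ℤ) : qV p (2 * i + 1) = qO p i := by
  rw [qV, if_neg (by omega)]
  congr 1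
  omega

/-- The boundary curve of the domain of mesh `1`. -/
noncomputable def qF (p : ZMod n → ℤ × ℤ) (x : ℝ) : ℂ := pl (qV p) (2 * x)

theorem nr_comb (v : ℤ × ℤ) (x y x' y' a b : ℝ) (h : a + b = 1) :
    a • nr v x y + b • nr v x' y' = nr v (a * x + b * x') (a * y + b * y') := by
  apply Complex.ext
  · simp only [nr, Complex.add_re, Complex.smul_re, smul_eq_mul]
    linear_combination (v.1 : ℝ) * h
  · simp only [nr, Complex.add_im, Complex.smul_im, smul_eq_mul]
    linear_combination (v.2 : ℝ) * h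

theorem enter_aux (v : ℤ × ℤ) (b : Fin 4) :
    nr v (oX b) (oY b) = nr (v + dir b) (iX (b + 2)) (iY (b + 2)) := by
  unfold nr oX oY iX iY
  revert b
  refine forall4 ?_ ?_ ?_ ?_ <;>
  simp only [f4_02, f4_12, f4_22, f4_32, f4_01, f4_11, f4_21, f4_31, f4_0m, f4_1m, f4_2m, f4_3m,
    ex0, ex1, ex2, ex3, ey0, ey1, ey2, ey3, dir0, dir1, dir2, dir3, Prod.fst_add, Prod.snd_add,
    Complex.mk.injEq] <;> push_cast <;> constructor <;> ring

theorem qO_pred (hp : IsPolygon p) (i : ℤ) :
    qO p (i - 1) = nr (p i) (iX (ri p i)) (iY (ri p i)) := by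
  have h := ro_spec hp ((i : ZMod n) - 1)
  rw [sub_add_cancel] at h
  rw [qO, enter_aux]
  have e : ((i - 1 : ℤ) : ZMod n) = (i : ZMod n) - 1 := by push_cast; rfl
  rw [e, ← h]
  rfl

/-- The curve near the vertex of index `i`. -/
theorem qF_near (hp : IsPolygon p) (i : ℤ) {t : ℝ} (h1 : -(1 / 2) ≤ t) (h2 : t ≤ 1 / 2) :
    qF p (i + t) = nr (p i) (lX (ri p i) (ro p i) t) (lY (ri p i) (ro p i) t) := by
  unfold qF
  by_cases h0 : t ≤ 0
  · have e : (2 * i - 1 : ℤ) + 1 = 2 * i := by ring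
    have e' : (2 * i - 1 : ℤ) = 2 * (i - 1) + 1 := by ring
    rw [pl_eq (qV p) (2 * i - 1) (by push_cast; linarith) (by push_cast; linarith), e, qV_even, e',
      qV_odd, qO_pred hp, qC, nr_comb _ _ _ _ _ _ _ (by ring), lX, lY, if_pos h0, if_pos h0]
    push_cast
    congr 1 <;> ring
  · rw [pl_eq (qV p) (2 * i) (by push_cast; linarith) (by push_cast; linarith), qV_even, qV_odd,
      qO, qC, nr_comb _ _ _ _ _ _ _ (by ring), lX, lY, if_neg h0, if_neg h0]
    push_cast
    congr 1 <;> ring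

theorem continuous_qF : Continuous (qF p) := (continuous_pl _).comp (by fun_prop)

theorem qV_per (m : ℤ) : qV p (m + (2 * n : ℤ)) = qV p m + 0 := by
  have h1 : (m + 2 * n : ℤ) % 2 = m % 2 := by omega
  have h2 : (m + 2 * n : ℤ) / 2 = m / 2 + n := by omega
  have h3 : ((m / 2 + n : ℤ) : ZMod n) = ((m / 2 : ℤ) : ZMod n) := by
    push_cast
    rw [ZMod.natCast_self, add_zero]
  rw [add_zero, qV, qV, h1, h2]
  simp only [qC, qO, h3]

theorem qF_per (x : ℝ) : qF p (x + n) = qF p x := by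
  have := pl_add (qV p) (qV p) (2 * n) 0 qV_per (2 * x)
  rw [add_zero] at this
  unfold qF
  rw [← this]
  congr 1
  push_cast
  ring

theorem exists_index (x : ℝ) : ∃ (i : ℤ) (t : ℝ), -(1 / 2) ≤ t ∧ t < 1 / 2 ∧ x = i + t :=
  ⟨⌊x + 1 / 2⌋, x - ⌊x + 1 / 2⌋, by linarith [Int.floor_le (x + 1 / 2)],
    by linarith [Int.lt_floor_add_one (x + 1 / 2)], by ring⟩

theorem int_eq_of_lt {a b : ℤ} {x y : ℝ} (h : (a : ℝ) + x = b + y) (hx : |x| < 1 / 2)
    (hy : |y| ≤ 1 / 2) : a = b := by
  rw [abs_lt] at hx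
  rw [abs_le] at hy
  have h1 : (a : ℝ) < b + 1 := by linarith
  have h2 : (b : ℝ) < a + 1 := by linarith
  have h1' : a < b + 1 := by exact_mod_cast h1
  have h2' : b < a + 1 := by exact_mod_cast h2
  omega

theorem enter_aux2 {v w : ℤ × ℤ} (a b : Fin 4) (hx : (v.1 : ℝ) + iX a = w.1 + iX b)
    (hy : (v.2 : ℝ) + iY a = w.2 + iY b) : v = w := by
  unfold iX at hx
  unfold iY at hy
  have hi : ∀ {m k : ℤ} {c : ℤ}, (8 : ℝ) * m = 8 * k + c → 8 * m = 8 * k + c := by
    intro m k c h
    exact_mod_cast h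
  revert a b
  refine forall4 ?_ ?_ ?_ ?_ <;> refine forall4 ?_ ?_ ?_ ?_ <;>
  simp only [f4_01, f4_11, f4_21, f4_31, ex0, ex1, ex2, ex3, ey0, ey1, ey2, ey3] <;>
  intro hx hy
  · exact Prod.ext (by exact_mod_cast (show (v.1 : ℝ) = w.1 by linarith))
      (by exact_mod_cast (show (v.2 : ℝ) = w.2 by linarith))
  · have := hi (m := v.1) (k := w.1) (c := -7) (by push_cast; linarith)
    omega
  · have := hi (m := v.2) (k := w.2) (c := -6) (by push_cast; linarith)
    omega
  · have := hi (m := v.1) (k := w.1) (c := -1) (by push_cast; linarith)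
    omega
  · have := hi (m := v.1) (k := w.1) (c := 7) (by push_cast; linarith)
    omega
  · exact Prod.ext (by exact_mod_cast (show (v.1 : ℝ) = w.1 by linarith))
      (by exact_mod_cast (show (v.2 : ℝ) = w.2 by linarith))
  · have := hi (m := v.1) (k := w.1) (c := -1) (by push_cast; linarith)
    omega
  · have := hi (m := v.1) (k := w.1) (c := 6) (by push_cast; linarith)
    omega
  · have := hi (m := v.2) (k := w.2) (c := 6) (by push_cast; linarith)
    omega
  · have := hi (m := v.1) (k := w.1) (c := 1) (by push_cast; linarith)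
    omega
  · exact Prod.ext (by exact_mod_cast (show (v.1 : ℝ) = w.1 by linarith))
      (by exact_mod_cast (show (v.2 : ℝ) = w.2 by linarith))
  · have := hi (m := v.1) (k := w.1) (c := 7) (by push_cast; linarith)
    omega
  · have := hi (m := v.1) (k := w.1) (c := 1) (by push_cast; linarith)
    omega
  · have := hi (m := v.1) (k := w.1) (c := -6) (by push_cast; linarith)
    omega
  · have := hi (m := v.1) (k := w.1) (c := -7) (by push_cast; linarith)
    omega
  · exact Prod.ext (by exact_mod_cast (show (v.1 : ℝ) = w.1 by linarith))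
      (by exact_mod_cast (show (v.2 : ℝ) = w.2 by linarith))

theorem enter_inj {v w : ℤ × ℤ} {a b : Fin 4} (h : nr v (iX a) (iY a) = nr w (iX b) (iY b)) :
    v = w := enter_aux2 a b (congrArg Complex.re h) (congrArg Complex.im h)

theorem lX_enter (a b : Fin 4) : lX a b (-(1 / 2)) = iX a ∧ lY a b (-(1 / 2)) = iY a := by
  rw [lX, lY, if_pos (by norm_num), if_pos (by norm_num)]
  constructor <;> ring

variable (hp : IsPolygon p) (hS : Encloses p S)
include hp hS

/-- The vertex is determined by the point of the curve. -/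
theorem vertex_eq {i j : ℤ} {t s : ℝ} (h1 : -(1 / 2) ≤ t) (h2 : t < 1 / 2) (h3 : -(1 / 2) ≤ s)
    (h4 : s < 1 / 2) (h : nr (p i) (lX (ri p i) (ro p i) t) (lY (ri p i) (ro p i) t) =
      nr (p j) (lX (ri p j) (ro p j) s) (lY (ri p j) (ro p j) s)) : p i = p j := by
  have hi := ri_ne_ro hp hS (i := i)
  have hj := ri_ne_ro hp hS (i := j)
  have hx : ((p i).1 : ℝ) + lX (ri p i) (ro p i) t = (p j).1 + lX (ri p j) (ro p j) s :=
    congrArg Complex.re h
  have hy : ((p i).2 : ℝ) + lY (ri p i) (ro p i) t = (p j).2 + lY (ri p j) (ro p j) s :=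
    congrArg Complex.im h
  rcases h1.lt_or_eq with h1' | h1'
  · have a := loc_lt hi h1' h2
    have b := loc_le hj h3 h4.le
    exact Prod.ext (int_eq_of_lt hx a.1 b.1) (int_eq_of_lt hy a.2 b.2)
  rcases h3.lt_or_eq with h3' | h3'
  · have a := loc_lt hj h3' h4
    have b := loc_le hi h1 h2.le
    exact (Prod.ext (int_eq_of_lt hx.symm a.1 b.1) (int_eq_of_lt hy.symm a.2 b.2)).symm
  rw [← h1', ← h3', (lX_enter _ _).1, (lX_enter _ _).2, (lX_enter _ _).1, (lX_enter _ _).2] at h
  exact enter_inj h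

theorem jcurve_qF : JCurve (qF p) n where
  pos := by
    have := hp.1
    exact_mod_cast (by omega : 0 < n)
  cont := continuous_qF
  per := qF_per
  inj := by
    intro x y h
    obtain ⟨i, t, h1, h2, rfl⟩ := exists_index x
    obtain ⟨j, s, h3, h4, rfl⟩ := exists_index y
    rw [qF_near hp i h1 h2.le, qF_near hp j h3 h4.le] at h
    have hv := vertex_eq hp hS h1 h2 h3 h4 h
    have hij : (i : ZMod n) = j := hp.2.1 hv
    rw [hij] at h
    have hx : ((p j).1 : ℝ) + lX (ri p j) (ro p j) t = (p j).1 + lX (ri p j) (ro p j) s :=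
      congrArg Complex.re h
    have hy : ((p j).2 : ℝ) + lY (ri p j) (ro p j) t = (p j).2 + lY (ri p j) (ro p j) s :=
      congrArg Complex.im h
    have hts := loc_inj (ri_ne_ro hp hS (i := j)) (add_left_cancel hx) (add_left_cancel hy)
    rw [ZMod.intCast_eq_intCast_iff_dvd_sub] at hij
    obtain ⟨k, hk⟩ := hij
    refine ⟨-k, ?_⟩
    have hk' : (j : ℝ) - i = n * k := by exact_mod_cast hk
    rw [hts]
    push_cast
    linarith

/-- The frontier of the domain of mesh `1` is the curve. -/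
theorem frontier_O1_eq : frontier (O1 (S : Set (ℤ × ℤ))) = range (qF p) := by
  have hE : ∀ (i : ZMod n) (r : Fin 4), face (p i) r ∈ S ↔ ¬ Ext (ri p i) (ro p i) r := by
    intro i r
    unfold Ext
    rw [← ext_iff hp hS]
    exact not_not.symm
  apply Subset.antisymm
  · intro z hz
    obtain ⟨v, x, y, hx, hy, rfl⟩ := exists_near z
    rw [mem_frontier_near hx hy] at hz
    obtain ⟨⟨r, hr, hc⟩, hop⟩ := hz
    obtain ⟨s, hs⟩ : ∃ s, face v s ∉ S := by
      by_contra hcon
      push Not at hcon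
      obtain ⟨s, hs⟩ := exists_op (x := x) (y := y)
      exact hop s (hcon s) hs
    obtain ⟨i, rfl⟩ := exists_of_mixed hS hr hs
    obtain ⟨t, h1, h2, h3, h4⟩ := loc_ex (ri_ne_ro hp hS (i := i)) hx hy
      ⟨r, (hE i r).1 hr, hc⟩ (fun r hr => hop r ((hE i r).2 hr))
    have : NeZero n := ⟨by have := hp.1; omega⟩
    refine ⟨(i.val : ℤ) + t, ?_⟩
    rw [qF_near hp _ h1 h2]
    have e : (((i.val : ℤ)) : ZMod n) = i := by
      push_cast
      exact ZMod.natCast_zmod_val i
    rw [e, h3, h4]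
  · rintro _ ⟨x, rfl⟩
    obtain ⟨i, t, h1, h2, rfl⟩ := exists_index x
    have hne := ri_ne_ro hp hS (i := i)
    obtain ⟨hx, hy⟩ := loc_le hne h1 h2.le
    rw [qF_near hp i h1 h2.le, mem_frontier_near hx hy]
    obtain ⟨r, hr, hc⟩ := loc_cl hne h1 h2.le
    exact ⟨⟨r, (hE i r).2 hr, hc⟩, fun r hr => loc_op hne h1 h2.le r ((hE i r).1 hr)⟩

end Vale.Agent.P167.H327
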