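import Mathlib

/-!
# P167, [NOFLUX]: a smooth function of total mass zero in a rectangle is a divergence
-/

open Set Filter Topology MeasureTheory
open scoped ContDiff Convolution

namespace Vale.Agent.P167.H327

/-- `h` vanishes outside the closed rectangle. -/
def Van (a b c d : ℝ) (h : ℂ → ℝ) : Prop :=
  ∀ z : ℂ, ¬ (a ≤ z.re ∧ z.re ≤ b ∧ c ≤ z.im ∧ z.im ≤ d) → h z = 0

/-- The primitive in the horizontal direction. -/
noncomputable def prim (a : ℝ) (h : ℂ → ℝ) (z : ℂ) : ℝ := ∫ s in a..z.re, h ⟨s, z.im⟩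

variable {a b c d : ℝ} {h : ℂ → ℝ}

theorem mk_contDiff : ContDiff ℝ ∞ (fun q : ℝ × ℝ => (⟨q.2, q.1⟩ : ℂ)) := by
  have e : (fun q : ℝ × ℝ => (⟨q.2, q.1⟩ : ℂ)) =
      fun q : ℝ × ℝ => (q.2 : ℂ) + (q.1 : ℂ) * Complex.I := by
    funext q
    apply Complex.ext <;> simp
  rw [e]
  exact (Complex.ofRealCLM.contDiff.comp contDiff_snd).add
    ((Complex.ofRealCLM.contDiff.comp contDiff_fst).mul contDiff_const)

theorem zero_left {g : ℝ → ℝ} (hg : Continuous g) {a : ℝ} (h : ∀ t < a, g t = 0) :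
    ∀ t ≤ a, g t = 0 := by
  intro t ht
  rcases ht.lt_or_eq with h1 | h1
  · exact h t h1
  · subst h1
    have h5 : Tendsto g (𝓝[<] t) (𝓝 (g t)) :=
      hg.continuousAt.tendsto.mono_left nhdsWithin_le_nhds
    refine tendsto_nhds_unique h5 (tendsto_const_nhds.congr' ?_)
    filter_upwards [self_mem_nhdsWithin] with s hs
    exact (h s hs).symm

theorem cont_vert {h : ℂ → ℝ} (hh : Continuous h) (x : ℝ) : Continuous fun t : ℝ => h ⟨x, t⟩ := by
  have e : (fun t : ℝ => h ⟨x, t⟩) = h ∘ fun t : ℝ => (x : ℂ) + (t : ℂ) * Complex.I := by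
    funext t
    simp only [Function.comp]
    congr 1
    apply Complex.ext <;> simp
  rw [e]
  fun_prop

theorem cont_slice (hh : Continuous h) (y : ℝ) : Continuous fun s : ℝ => h ⟨s, y⟩ :=
  hh.comp (by
    have e : (fun s : ℝ => (⟨s, y⟩ : ℂ)) = fun s : ℝ => (s : ℂ) + (y : ℂ) * Complex.I := by
      funext s
      apply Complex.ext <;> simp
    rw [e]
    fun_prop)

theorem slice_compact (hv : Van a b c d h) (y : ℝ) : HasCompactSupport fun s : ℝ => h ⟨s, y⟩ :=
  HasCompactSupport.intro (isCompact_Icc (a := a) (b := b)) fun s hs =>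
    hv _ fun hc => hs ⟨hc.1, hc.2.1⟩

theorem conv_eq (hh : Continuous h) (hv : Van a b c d h) (x y : ℝ) :
    ((indicator (Ici (0 : ℝ)) fun _ => (1 : ℝ)) ⋆[ContinuousLinearMap.mul ℝ ℝ, volume]
      (fun s : ℝ => h ⟨s, y⟩)) x = ∫ s in a..x, h ⟨s, y⟩ := by
  have hc := cont_slice hh y
  have hcs := slice_compact hv y
  have hint : Integrable fun s : ℝ => h ⟨s, y⟩ := hc.integrable_of_hasCompactSupport hcs
  rw [convolution_def]
  have e1 : (fun t : ℝ => (ContinuousLinearMap.mul ℝ ℝ)
      ((indicator (Ici (0 : ℝ)) fun _ => (1 : ℝ)) t) ((fun s : ℝ => h ⟨s, y⟩) (x - t))) =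
      fun t : ℝ => (fun s : ℝ => (indicator (Iic x) fun s : ℝ => h ⟨s, y⟩) s) (x - t) := by
    funext t
    simp only [ContinuousLinearMap.mul_apply', indicator, mem_Ici, mem_Iic]
    by_cases ht : 0 ≤ t
    · rw [if_pos ht, if_pos (by linarith), one_mul]
    · rw [if_neg ht, if_neg (by linarith), zero_mul]
  rw [e1, integral_sub_left_eq_self (fun s : ℝ => (indicator (Iic x) fun s : ℝ => h ⟨s, y⟩) s)
    volume x, integral_indicator measurableSet_Iic]
  have e2 := intervalIntegral.integral_Iic_sub_Iic (f := fun s : ℝ => h ⟨s, y⟩) (μ := volume)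
    (a := a) (b := x) hint.integrableOn hint.integrableOn
  have e3 : ∫ s in Iic a, h ⟨s, y⟩ = 0 := by
    rw [integral_Iic_eq_integral_Iio]
    refine setIntegral_eq_zero_of_forall_eq_zero fun s hs => hv _ fun hc => ?_
    exact absurd hc.1 (not_le.2 hs)
  rw [e3, sub_zero] at e2
  exact e2

theorem contDiff_prim (hh : ContDiff ℝ ∞ h) (hv : Van a b c d h) : ContDiff ℝ ∞ (prim a h) := by
  have h1 := contDiffOn_convolution_right_with_param (𝕜 := ℝ) (n := ⊤) (μ := (volume : Measure ℝ))
    (f := indicator (Ici (0 : ℝ)) fun _ => (1 : ℝ)) (ContinuousLinearMap.mul ℝ ℝ)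
    (g := fun (y : ℝ) (x : ℝ) => h ⟨x, y⟩) (s := univ) (k := Icc a b) isOpen_univ isCompact_Icc
    (fun y x _ hx => hv _ fun hc => hx ⟨hc.1, hc.2.1⟩)
    ((locallyIntegrable_const (1 : ℝ)).indicator measurableSet_Ici)
    ((hh.comp mk_contDiff).contDiffOn)
  rw [univ_prod_univ, contDiffOn_univ] at h1
  have h2 : ContDiff ℝ ∞ (fun z : ℂ => (z.im, z.re)) :=
    Complex.imCLM.contDiff.prodMk Complex.reCLM.contDiff
  have h3 := h1.comp h2
  have e : prim a h = (fun q : ℝ × ℝ => ((indicator (Ici (0 : ℝ)) fun _ => (1 : ℝ))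
      ⋆[ContinuousLinearMap.mul ℝ ℝ, volume] (fun x : ℝ => h ⟨x, q.1⟩)) q.2) ∘
      fun z : ℂ => (z.im, z.re) := by
    funext z
    simp only [Function.comp, prim]
    exact (conv_eq hh.continuous hv z.re z.im).symm
  rw [e]
  exact h3

theorem fderiv_one_eq {φ : ℂ → ℝ} (hφ : ContDiff ℝ ∞ φ) {z : ℂ} {v : ℝ}
    (hd : HasDerivAt (fun t : ℝ => φ ⟨z.re + t, z.im⟩) v 0) : fderiv ℝ φ z 1 = v := by
  have h1 : HasFDerivAt φ (fderiv ℝ φ z) z :=
    (hφ.differentiable (by simp)).differentiableAt.hasFDerivAt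
  have h2 : HasDerivAt (fun t : ℝ => z + (t : ℂ)) 1 0 := by
    have := (Complex.ofRealCLM.hasDerivAt (x := (0 : ℝ))).const_add z
    simpa using this
  have h3 : HasFDerivAt φ (fderiv ℝ φ z) (z + ((0 : ℝ) : ℂ)) := by simpa using h1
  have h4 := h3.comp_hasDerivAt (0 : ℝ) h2
  have e : (fun t : ℝ => φ ⟨z.re + t, z.im⟩) = φ ∘ fun t : ℝ => z + (t : ℂ) := by
    funext t
    simp only [Function.comp]
    congr 1
    apply Complex.ext <;> simp
  rw [e] at hd
  exact h4.unique hd

theorem fderiv_I_eq {φ : ℂ → ℝ} (hφ : ContDiff ℝ ∞ φ) {z : ℂ} {v : ℝ}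
    (hd : HasDerivAt (fun t : ℝ => φ ⟨z.re, z.im + t⟩) v 0) :
    fderiv ℝ φ z Complex.I = v := by
  have h1 : HasFDerivAt φ (fderiv ℝ φ z) z :=
    (hφ.differentiable (by simp)).differentiableAt.hasFDerivAt
  have h2 : HasDerivAt (fun t : ℝ => z + (t : ℂ) * Complex.I) Complex.I 0 := by
    have := ((Complex.ofRealCLM.hasDerivAt (x := (0 : ℝ))).mul_const Complex.I).const_add z
    simpa using this
  have h3 : HasFDerivAt φ (fderiv ℝ φ z) (z + ((0 : ℝ) : ℂ) * Complex.I) := by simpa using h1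
  have h4 := h3.comp_hasDerivAt (0 : ℝ) h2
  have e : (fun t : ℝ => φ ⟨z.re, z.im + t⟩) = φ ∘ fun t : ℝ => z + (t : ℂ) * Complex.I := by
    funext t
    simp only [Function.comp]
    congr 1
    apply Complex.ext <;> simp
  rw [e] at hd
  exact h4.unique hd

theorem fderiv_prim (hh : ContDiff ℝ ∞ h) (hv : Van a b c d h) (z : ℂ) :
    fderiv ℝ (prim a h) z 1 = h z := by
  refine fderiv_one_eq (contDiff_prim hh hv) ?_
  have hc := cont_slice hh.continuous z.im
  have h1 : HasDerivAt (fun u : ℝ => ∫ s in a..u, h ⟨s, z.im⟩) (h ⟨z.re, z.im⟩) z.re :=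
    intervalIntegral.integral_hasDerivAt_right (hc.intervalIntegrable _ _)
      hc.aestronglyMeasurable.stronglyMeasurableAtFilter hc.continuousAt
  have h2 : HasDerivAt (fun t : ℝ => z.re + t) 1 0 := (hasDerivAt_id (0 : ℝ)).const_add _
  have h3 := HasDerivAt.comp (0 : ℝ) (h₂ := fun u : ℝ => ∫ s in a..u, h ⟨s, z.im⟩)
    (h := fun t : ℝ => z.re + t) (by rw [add_zero]; exact h1) h2
  rw [mul_one] at h3
  exact h3

/-- Fubini for the functions in the rectangle. -/
theorem integral_rect (hab : a ≤ b) (hcd : c ≤ d) (hh : Continuous h) (hv : Van a b c d h) :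
    ∫ z, h z = ∫ y in c..d, prim a h ⟨b, y⟩ := by
  have hcs : HasCompactSupport h := by
    refine HasCompactSupport.intro ((isCompact_Icc (a := a) (b := b)).reProdIm
      (isCompact_Icc (a := c) (b := d))) fun z hz => hv z fun hc => hz ?_
    exact ⟨⟨hc.1, hc.2.1⟩, hc.2.2⟩
  have hint : Integrable h := hh.integrable_of_hasCompactSupport hcs
  have hmp := Complex.volume_preserving_equiv_real_prod.symm
  have e1 : ∫ z, h z = ∫ q : ℝ × ℝ, h (Complex.measurableEquivRealProd.symm q) :=
    (hmp.integral_comp' (g := h)).symm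
  have hint2 : Integrable (fun q : ℝ × ℝ => h (Complex.measurableEquivRealProd.symm q))
      ((volume : Measure ℝ).prod volume) := by
    have := (hmp.integrable_comp_emb
      (Complex.measurableEquivRealProd.symm.measurableEmbedding) (g := h)).2 hint
    exact this
  rw [e1]
  have e2 : (volume : Measure (ℝ × ℝ)) = (volume : Measure ℝ).prod volume := rfl
  rw [e2, integral_prod_symm _ hint2]
  have e3 : (fun y : ℝ => ∫ x : ℝ, h (Complex.measurableEquivRealProd.symm (x, y))) =
      fun y : ℝ => prim a h ⟨b, y⟩ := by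
    funext y
    have e4 : (fun x : ℝ => h (Complex.measurableEquivRealProd.symm (x, y))) =
        fun x : ℝ => h ⟨x, y⟩ := rfl
    rw [e4]
    show _ = ∫ s in a..b, h ⟨s, y⟩
    rw [intervalIntegral.integral_eq_integral_of_support_subset]
    intro s hs
    rw [Function.mem_support] at hs
    by_contra hcon
    apply hs
    have hsI : ¬ (a < s ∧ s ≤ b) := hcon
    rcases le_or_gt s a with hsa | hsa
    · exact zero_left (cont_slice hh y) (a := a)
        (fun t ht => hv _ fun hc => absurd (show a ≤ t from hc.1) (not_le.2 ht)) s hsa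
    · exact hv _ fun hc => hsI ⟨hsa, hc.2.1⟩
  rw [e3]
  symm
  refine intervalIntegral.integral_eq_integral_of_support_subset ?_
  intro y hy
  rw [Function.mem_support] at hy
  by_contra hcon
  apply hy
  have hyI : ¬ (c < y ∧ y ≤ d) := hcon
  show ∫ s in a..b, h ⟨s, y⟩ = 0
  have hz : ∀ s, h ⟨s, y⟩ = 0 := by
    intro s
    rcases le_or_gt y c with hyc | hyc
    · exact zero_left (cont_vert hh s) (a := c)
        (fun t ht => hv _ fun hc => absurd (show c ≤ t from hc.2.2.1) (not_le.2 ht)) y hyc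
    · exact hv _ fun hc => hyI ⟨hyc, hc.2.2.2⟩
  simp only [hz, intervalIntegral.integral_zero]

/-- **Rectangles**: a smooth function of total mass zero is a divergence. -/
theorem rect_div (hab : a < b) (hcd : c < d) (hh : ContDiff ℝ ∞ h) (hv : Van a b c d h)
    (h0 : ∫ z, h z = 0) : ∃ φ₁ φ₂ : ℂ → ℝ, ContDiff ℝ ∞ φ₁ ∧ ContDiff ℝ ∞ φ₂ ∧
      Van a b c d φ₁ ∧ Van a b c d φ₂ ∧
      ∀ z, h z = fderiv ℝ φ₁ z 1 + fderiv ℝ φ₂ z Complex.I := by
  -- the bump function
  let B : ContDiffBump ((a + b) / 2 : ℝ) := ⟨(b - a) / 4, (b - a) / 2, by linarith, by linarith⟩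
  set θ : ℝ → ℝ := B.normed volume with hθ
  have hθs : ContDiff ℝ ∞ θ := B.contDiff_normed
  have hθ1 : ∫ s, θ s = 1 := B.integral_normed
  have hθv : ∀ s, ¬ (a ≤ s ∧ s ≤ b) → θ s = 0 := by
    intro s hs
    by_contra hne
    have h1 : s ∈ Function.support θ := hne
    rw [hθ, B.support_normed_eq, Metric.mem_ball, Real.dist_eq, abs_lt] at h1
    have h2 : B.rOut = (b - a) / 2 := rfl
    rw [h2] at h1
    exact hs ⟨by linarith [h1.1], by linarith [h1.2]⟩
  have hθ2 : ∫ s in a..b, θ s = 1 := by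
    rw [← hθ1]
    refine intervalIntegral.integral_eq_integral_of_support_subset ?_
    rw [hθ, B.support_normed_eq]
    intro s hs
    rw [Metric.mem_ball, Real.dist_eq, abs_lt] at hs
    have h2 : B.rOut = (b - a) / 2 := rfl
    rw [h2] at hs
    exact ⟨by linarith [hs.1], by linarith [hs.2]⟩
  set F : ℝ → ℝ := fun y => prim a h ⟨b, y⟩ with hF
  have hFs : ContDiff ℝ ∞ F := by
    have e : F = prim a h ∘ fun y : ℝ => (b : ℂ) + (y : ℂ) * Complex.I := by
      funext y
      simp only [Function.comp, hF]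
      congr 1
      apply Complex.ext <;> simp
    rw [e]
    exact (contDiff_prim hh hv).comp
      (contDiff_const.add (Complex.ofRealCLM.contDiff.mul contDiff_const))
  have hFv : ∀ y, ¬ (c ≤ y ∧ y ≤ d) → F y = 0 := by
    intro y hy
    show ∫ s in a..b, h ⟨s, y⟩ = 0
    have hz : ∀ s, h ⟨s, y⟩ = 0 := fun s => hv _ fun hc => hy ⟨hc.2.2.1, hc.2.2.2⟩
    simp only [hz, intervalIntegral.integral_zero]
  -- the first component
  set k : ℂ → ℝ := fun z => h z - θ z.re * F z.im with hk
  have hks : ContDiff ℝ ∞ k :=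
    hh.sub ((hθs.comp Complex.reCLM.contDiff).mul (hFs.comp Complex.imCLM.contDiff))
  have hkv : Van a b c d k := by
    intro z hz
    simp only [hk, hv z hz, zero_sub, neg_eq_zero]
    by_cases h1 : a ≤ z.re ∧ z.re ≤ b
    · rw [hFv z.im fun hc => hz ⟨h1.1, h1.2, hc.1, hc.2⟩, mul_zero]
    · rw [hθv z.re h1, zero_mul]
  have hkc : ∀ y, Continuous fun s : ℝ => k ⟨s, y⟩ := cont_slice hks.continuous
  have hkb : ∀ y, ∫ s in a..b, k ⟨s, y⟩ = 0 := by
    intro y
    have e2 := intervalIntegral.integral_sub (μ := volume) (a := a) (b := b)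
      (f := fun s : ℝ => h ⟨s, y⟩) (g := fun s : ℝ => θ s * F y)
      ((cont_slice hh.continuous y).intervalIntegrable _ _)
      ((hθs.continuous.mul continuous_const).intervalIntegrable _ _)
    rw [intervalIntegral.integral_mul_const, hθ2, one_mul] at e2
    have e3 : (∫ s in a..b, h ⟨s, y⟩) = F y := rfl
    rw [e3, sub_self] at e2
    exact e2
  have h1v : Van a b c d (prim a k) := by
    intro z hz
    show ∫ s in a..z.re, k ⟨s, z.im⟩ = 0
    by_cases hy : c ≤ z.im ∧ z.im ≤ d
    · rcases lt_or_ge z.re a with hx | hx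
      · rw [intervalIntegral.integral_symm, neg_eq_zero]
        refine intervalIntegral.integral_zero_ae (Eventually.of_forall fun s hs => ?_)
        rw [uIoc_of_le hx.le] at hs
        exact zero_left (hkc z.im) (a := a)
          (fun t ht => hkv _ fun hc => absurd (show a ≤ t from hc.1) (not_le.2 ht)) s hs.2
      · have hx2 : b < z.re := by
          by_contra hcon
          exact hz ⟨hx, not_lt.1 hcon, hy.1, hy.2⟩
        rw [← intervalIntegral.integral_add_adjacent_intervals (b := b)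
          ((hkc z.im).intervalIntegrable _ _) ((hkc z.im).intervalIntegrable _ _), hkb, zero_add]
        refine intervalIntegral.integral_zero_ae (Eventually.of_forall fun s hs => ?_)
        rw [uIoc_of_le hx2.le] at hs
        exact hkv _ fun hc => absurd hc.2.1 (not_le.2 hs.1)
    · have hz' : ∀ s, k ⟨s, z.im⟩ = 0 := fun s => hkv _ fun hc => hy ⟨hc.2.2.1, hc.2.2.2⟩
      simp only [hz', intervalIntegral.integral_zero]
  -- the second component
  set G : ℝ → ℝ := fun y => ∫ t in c..y, F t with hG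
  have hGd : ∀ y, HasDerivAt G (F y) y := fun y =>
    intervalIntegral.integral_hasDerivAt_right (hFs.continuous.intervalIntegrable _ _)
      hFs.continuous.aestronglyMeasurable.stronglyMeasurableAtFilter hFs.continuous.continuousAt
  have hGs : ContDiff ℝ ∞ G := by
    rw [contDiff_infty_iff_deriv]
    refine ⟨fun y => (hGd y).differentiableAt, ?_⟩
    have : deriv G = F := funext fun y => (hGd y).deriv
    rw [this]
    exact hFs
  have hGt : ∫ t in c..d, F t = 0 := by
    rw [← integral_rect hab.le hcd.le hh.continuous hv]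
    exact h0
  have hF0 : ∀ y, y ≤ c → F y = 0 := by
    intro y hy
    rcases hy.lt_or_eq with h | h
    · exact hFv y fun hc => absurd hc.1 (not_le.2 h)
    · subst h
      have h5 : Tendsto F (𝓝[<] y) (𝓝 (F y)) :=
        hFs.continuous.continuousAt.tendsto.mono_left nhdsWithin_le_nhds
      refine tendsto_nhds_unique h5 (tendsto_const_nhds.congr' ?_)
      filter_upwards [self_mem_nhdsWithin] with t ht
      exact (hFv _ fun hc => absurd hc.1 (not_le.2 ht)).symm
  have hGv : ∀ y, ¬ (c ≤ y ∧ y ≤ d) → G y = 0 := by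
    intro y hy
    show ∫ t in c..y, F t = 0
    rcases lt_or_ge y c with h | h
    · rw [intervalIntegral.integral_symm, neg_eq_zero]
      refine intervalIntegral.integral_zero_ae (Eventually.of_forall fun s hs => ?_)
      rw [uIoc_of_le h.le] at hs
      exact hF0 s hs.2
    · have h2 : d < y := by
        by_contra hcon
        exact hy ⟨h, not_lt.1 hcon⟩
      rw [← intervalIntegral.integral_add_adjacent_intervals (b := d)
          (hFs.continuous.intervalIntegrable _ _) (hFs.continuous.intervalIntegrable _ _), hGt,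
          zero_add]
      refine intervalIntegral.integral_zero_ae (Eventually.of_forall fun s hs => ?_)
      rw [uIoc_of_le h2.le] at hs
      exact hFv s fun hc => absurd hc.2 (not_le.2 hs.1)
  set φ : ℂ → ℝ := fun z => θ z.re * G z.im with hφ
  have hφs : ContDiff ℝ ∞ φ :=
    (hθs.comp Complex.reCLM.contDiff).mul (hGs.comp Complex.imCLM.contDiff)
  refine ⟨prim a k, φ, contDiff_prim hks hkv, hφs, h1v, ?_, ?_⟩
  · intro z hz
    simp only [hφ]
    by_cases h1 : a ≤ z.re ∧ z.re ≤ b
    · rw [hGv z.im fun hc => hz ⟨h1.1, h1.2, hc.1, hc.2⟩, mul_zero]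
    · rw [hθv z.re h1, zero_mul]
  · intro z
    have e2 : fderiv ℝ φ z Complex.I = θ z.re * F z.im := by
      refine fderiv_I_eq hφs ?_
      have h2 : HasDerivAt (fun t : ℝ => z.im + t) 1 0 := (hasDerivAt_id (0 : ℝ)).const_add _
      have h3 := HasDerivAt.comp (0 : ℝ) (h₂ := G) (h := fun t : ℝ => z.im + t)
        (by rw [add_zero]; exact hGd z.im) h2
      rw [mul_one] at h3
      have h4 := h3.const_mul (θ z.re)
      exact h4
    rw [fderiv_prim hks hkv, e2]
    simp only [hk]
    ring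

end Vale.Agent.P167.H327
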