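import Vale.Agent.P167.H327.Loc
import Vale.Agent.P167.E2.Grid
import Vale.Agent.P153.R2.R1.Appr

/-!
# P167, block E2-GEO, part 2: the boundary of the pushed domain is a Jordan curve
-/

set_option linter.all false

open Set Topology Metric Filter Bornology

namespace Vale.Agent.P167.H327

open Vale.Agent.P167.E6 Vale.Agent.P167.E2

/-! ### The frontier near a lattice point -/

/-- The closed enlarged faces. -/
def C1 (S : Set (ℤ × ℤ)) : Set ℂ :=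
  {z | ∃ f ∈ S, (f.1 : ℝ) - 3 / 8 ≤ z.re ∧ z.re ≤ f.1 + 11 / 8 ∧
    (f.2 : ℝ) - 3 / 8 ≤ z.im ∧ z.im ≤ f.2 + 11 / 8}

theorem O1_eq (S : Set (ℤ × ℤ)) : O1 S = ⋃ f ∈ S,
    (Ioo ((f.1 : ℝ) - 3 / 8) (f.1 + 11 / 8)) ×ℂ (Ioo ((f.2 : ℝ) - 3 / 8) (f.2 + 11 / 8)) := by
  ext z
  simp only [O1, mem_iUnion, Complex.mem_reProdIm, mem_Ioo, exists_prop]
  constructor
  · rintro ⟨f, hf, h1, h2, h3, h4⟩
    exact ⟨f, hf, ⟨h1, h2⟩, h3, h4⟩
  · rintro ⟨f, hf, ⟨h1, h2⟩, h3, h4⟩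
    exact ⟨f, hf, h1, h2, h3, h4⟩

theorem isOpen_O1 (S : Set (ℤ × ℤ)) : IsOpen (O1 S) := by
  rw [O1_eq]
  exact isOpen_biUnion fun f _ => isOpen_Ioo.reProdIm isOpen_Ioo

theorem closure_O1 (S : Finset (ℤ × ℤ)) : closure (O1 (S : Set (ℤ × ℤ))) = C1 S := by
  rw [O1_eq, S.finite_toSet.closure_biUnion]
  ext z
  simp only [C1, mem_iUnion, exists_prop]
  constructor
  · rintro ⟨f, hf, h⟩
    rw [Complex.closure_reProdIm, closure_Ioo (by linarith), closure_Ioo (by linarith)] at h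
    exact ⟨f, hf, h.1.1, h.1.2, h.2.1, h.2.2⟩
  · rintro ⟨f, hf, h1, h2, h3, h4⟩
    refine ⟨f, hf, ?_⟩
    rw [Complex.closure_reProdIm, closure_Ioo (by linarith), closure_Ioo (by linarith)]
    exact ⟨⟨h1, h2⟩, h3, h4⟩

theorem frontier_O1 (S : Finset (ℤ × ℤ)) :
    frontier (O1 (S : Set (ℤ × ℤ))) = C1 S \ O1 (S : Set (ℤ × ℤ)) := by
  rw [(isOpen_O1 _).frontier_eq, closure_O1]

/-- The point with the coordinates `x`, `y` relative to the vertex `v`. -/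
def nr (v : ℤ × ℤ) (x y : ℝ) : ℂ := ⟨v.1 + x, v.2 + y⟩

theorem face_near {f v : ℤ × ℤ} (h1 : f.1 ≤ v.1) (h2 : v.1 ≤ f.1 + 1) (h3 : f.2 ≤ v.2)
    (h4 : v.2 ≤ f.2 + 1) : ∃ r, f = face v r := by
  rcases (show f.1 = v.1 ∨ f.1 = v.1 - 1 by omega) with a | a <;>
  rcases (show f.2 = v.2 ∨ f.2 = v.2 - 1 by omega) with b | b
  · exact ⟨0, by rw [face0]; exact Prod.ext a b⟩
  · exact ⟨3, by rw [face3]; exact Prod.ext a b⟩
  · exact ⟨1, by rw [face1]; exact Prod.ext a b⟩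
  · exact ⟨2, by rw [face2]; exact Prod.ext a b⟩

theorem box_op (v : ℤ × ℤ) {x y : ℝ} (hx : |x| ≤ 1 / 2) (hy : |y| ≤ 1 / 2) (r : Fin 4) :
    (((face v r).1 : ℝ) - 3 / 8 < v.1 + x ∧ v.1 + x < (face v r).1 + 11 / 8 ∧
      ((face v r).2 : ℝ) - 3 / 8 < v.2 + y ∧ v.2 + y < (face v r).2 + 11 / 8) ↔ op r x y := by
  rw [abs_le] at hx hy
  obtain ⟨hx1, hx2⟩ := hx
  obtain ⟨hy1, hy2⟩ := hy
  unfold op
  revert r
  refine forall4 ?_ ?_ ?_ ?_ <;>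
  simp only [face0, face1, face2, face3, sx0, sx1, sx2, sx3, sy0, sy1, sy2, sy3] <;> push_cast <;>
  constructor <;> intro h
  all_goals first
    | (obtain ⟨h1, h2, h3, h4⟩ := h; constructor <;> linarith)
    | (obtain ⟨h1, h2⟩ := h; refine ⟨?_, ?_, ?_, ?_⟩ <;> linarith)

theorem box_cl (v : ℤ × ℤ) {x y : ℝ} (hx : |x| ≤ 1 / 2) (hy : |y| ≤ 1 / 2) (r : Fin 4) :
    (((face v r).1 : ℝ) - 3 / 8 ≤ v.1 + x ∧ v.1 + x ≤ (face v r).1 + 11 / 8 ∧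
      ((face v r).2 : ℝ) - 3 / 8 ≤ v.2 + y ∧ v.2 + y ≤ (face v r).2 + 11 / 8) ↔ cl r x y := by
  rw [abs_le] at hx hy
  obtain ⟨hx1, hx2⟩ := hx
  obtain ⟨hy1, hy2⟩ := hy
  unfold cl
  revert r
  refine forall4 ?_ ?_ ?_ ?_ <;>
  simp only [face0, face1, face2, face3, sx0, sx1, sx2, sx3, sy0, sy1, sy2, sy3] <;> push_cast <;>
  constructor <;> intro h
  all_goals first
    | (obtain ⟨h1, h2, h3, h4⟩ := h; constructor <;> linarith)
    | (obtain ⟨h1, h2⟩ := h; refine ⟨?_, ?_, ?_, ?_⟩ <;> linarith)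

theorem mem_C1_near {S : Set (ℤ × ℤ)} {v : ℤ × ℤ} {x y : ℝ} (hx : |x| ≤ 1 / 2)
    (hy : |y| ≤ 1 / 2) : nr v x y ∈ C1 S ↔ ∃ r, face v r ∈ S ∧ cl r x y := by
  constructor
  · rintro ⟨f, hf, h1, h2, h3, h4⟩
    have h1' : (f.1 : ℝ) - 3 / 8 ≤ v.1 + x := h1
    have h2' : (v.1 : ℝ) + x ≤ f.1 + 11 / 8 := h2
    have h3' : (f.2 : ℝ) - 3 / 8 ≤ v.2 + y := h3
    have h4' : (v.2 : ℝ) + y ≤ f.2 + 11 / 8 := h4
    have hx' := abs_le.1 hx
    have hy' := abs_le.1 hy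
    have a1 : f.1 < v.1 + 1 := by
      have : (f.1 : ℝ) < v.1 + 1 := by linarith [hx'.2]
      exact_mod_cast this
    have a2 : v.1 < f.1 + 2 := by
      have : (v.1 : ℝ) < f.1 + 2 := by linarith [hx'.1]
      exact_mod_cast this
    have a3 : f.2 < v.2 + 1 := by
      have : (f.2 : ℝ) < v.2 + 1 := by linarith [hy'.2]
      exact_mod_cast this
    have a4 : v.2 < f.2 + 2 := by
      have : (v.2 : ℝ) < f.2 + 2 := by linarith [hy'.1]
      exact_mod_cast this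
    obtain ⟨r, rfl⟩ := face_near (f := f) (v := v) (by omega) (by omega) (by omega) (by omega)
    exact ⟨r, hf, (box_cl v hx hy r).1 ⟨h1', h2', h3', h4'⟩⟩
  · rintro ⟨r, hr, hc⟩
    exact ⟨_, hr, (box_cl v hx hy r).2 hc⟩

theorem mem_O1_near {S : Set (ℤ × ℤ)} {v : ℤ × ℤ} {x y : ℝ} (hx : |x| ≤ 1 / 2)
    (hy : |y| ≤ 1 / 2) : nr v x y ∈ O1 S ↔ ∃ r, face v r ∈ S ∧ op r x y := by
  constructor
  · rintro ⟨f, hf, h1, h2, h3, h4⟩
    have h1' : (f.1 : ℝ) - 3 / 8 < v.1 + x := h1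
    have h2' : (v.1 : ℝ) + x < f.1 + 11 / 8 := h2
    have h3' : (f.2 : ℝ) - 3 / 8 < v.2 + y := h3
    have h4' : (v.2 : ℝ) + y < f.2 + 11 / 8 := h4
    have hx' := abs_le.1 hx
    have hy' := abs_le.1 hy
    have a1 : f.1 < v.1 + 1 := by
      have : (f.1 : ℝ) < v.1 + 1 := by linarith [hx'.2]
      exact_mod_cast this
    have a2 : v.1 < f.1 + 2 := by
      have : (v.1 : ℝ) < f.1 + 2 := by linarith [hx'.1]
      exact_mod_cast this
    have a3 : f.2 < v.2 + 1 := by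
      have : (f.2 : ℝ) < v.2 + 1 := by linarith [hy'.2]
      exact_mod_cast this
    have a4 : v.2 < f.2 + 2 := by
      have : (v.2 : ℝ) < f.2 + 2 := by linarith [hy'.1]
      exact_mod_cast this
    obtain ⟨r, rfl⟩ := face_near (f := f) (v := v) (by omega) (by omega) (by omega) (by omega)
    exact ⟨r, hf, (box_op v hx hy r).1 ⟨h1', h2', h3', h4'⟩⟩
  · rintro ⟨r, hr, hc⟩
    exact ⟨_, hr, (box_op v hx hy r).2 hc⟩

/-- The frontier near a lattice point. -/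
theorem mem_frontier_near {S : Finset (ℤ × ℤ)} {v : ℤ × ℤ} {x y : ℝ} (hx : |x| ≤ 1 / 2)
    (hy : |y| ≤ 1 / 2) : nr v x y ∈ frontier (O1 (S : Set (ℤ × ℤ))) ↔
      (∃ r, face v r ∈ S ∧ cl r x y) ∧ ∀ r, face v r ∈ S → ¬ op r x y := by
  rw [frontier_O1, mem_diff, mem_C1_near hx hy, mem_O1_near hx hy]
  push Not
  rfl

/-- Every point is near a lattice point. -/
theorem exists_near (z : ℂ) : ∃ (v : ℤ × ℤ) (x y : ℝ), |x| ≤ 1 / 2 ∧ |y| ≤ 1 / 2 ∧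
    z = nr v x y := by
  refine ⟨(round z.re, round z.im), z.re - round z.re, z.im - round z.im,
    abs_sub_round _, abs_sub_round _, ?_⟩
  apply Complex.ext <;> simp [nr]

/-- Some open quadrant contains the point. -/
theorem exists_op {x y : ℝ} : ∃ r, op r x y := by
  unfold op
  rcases le_total 0 x with hx | hx <;> rcases le_total 0 y with hy | hy
  · exact ⟨0, by rw [sx0, sy0]; constructor <;> linarith⟩
  · exact ⟨3, by rw [sx3, sy3]; constructor <;> linarith⟩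
  · exact ⟨1, by rw [sx1, sy1]; constructor <;> linarith⟩
  · exact ⟨2, by rw [sx2, sy2]; constructor <;> linarith⟩

end Vale.Agent.P167.H327
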