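import Vale.Agent.P167.H327.Surv2
import Vale.Agent.P153.R2.R1.Mob

/-!
# P167, block POS (L3), part 3: a real point with a half-neighbourhood in the domain survives
-/

set_option autoImplicit false

open Set Filter Topology Metric MeasureTheory
open scoped ComplexConjugate

namespace Vale.Agent.P167.H327

open Vale.Agent.P164 Vale.Agent.P153.BESS Vale.Agent.P153.R2.R1
open Vale.Agent.P167.H947 (surv flow_eq flow_loewner differentiableOn_flow surv_inter)

/-- Harnack's inequality in a disc. -/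
theorem harnack_disc {g : ℂ → ℂ} {u u' : ℂ} {ρ : ℝ} (hρ : 0 < ρ)
    (hg : DifferentiableOn ℂ g (ball u ρ)) (hpos : ∀ z ∈ ball u ρ, 0 < (g z).im)
    (hu : u' ∈ ball u ρ) : (g u).im * (ρ - dist u' u) ≤ (g u').im * (ρ + dist u' u) := by
  have hub : u ∈ ball u ρ := mem_ball_self hρ
  set a : ℂ := g u with ha
  have ha0 : 0 < a.im := hpos u hub
  have hb0 : 0 < (g u').im := hpos u' hu
  have hne : ∀ z ∈ ball u ρ, g z - conj a ≠ 0 := by
    intro z hz h0
    have h1 := congrArg Complex.im h0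
    rw [Complex.sub_im, Complex.conj_im, Complex.zero_im] at h1
    have := hpos z hz
    linarith
  have hd : DifferentiableOn ℂ (fun z => (g z - a) / (g z - conj a)) (ball u ρ) :=
    (hg.sub_const a).div (hg.sub_const (conj a)) hne
  have h0 : (g u - a) / (g u - conj a) = 0 := by rw [ha, sub_self, zero_div]
  have hmaps : MapsTo (fun z => (g z - a) / (g z - conj a)) (ball u ρ)
      (ball ((g u - a) / (g u - conj a)) 1) := by
    intro z hz
    rw [h0, mem_ball_zero_iff]
    have h1 := norm_mb_lt (β := 1) norm_one ha0 (hpos z hz)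
    rwa [mb, one_mul] at h1
  have h1 := Complex.dist_le_div_mul_dist_of_mapsTo_ball hd
    (hmaps.mono_right ball_subset_closedBall) hu
  rw [h0, dist_zero_right] at h1
  set q : ℝ := dist u' u with hq
  have hq0 : 0 ≤ q := dist_nonneg
  have hqρ : q < ρ := hu
  rw [norm_div, div_le_iff₀ (norm_pos_iff.2 (hne u' hu))] at h1
  -- squares
  have h2 : (ρ * ‖g u' - a‖) ^ 2 ≤ (q * ‖g u' - conj a‖) ^ 2 := by
    have h3 : ρ * ‖g u' - a‖ ≤ q * ‖g u' - conj a‖ := by
      have h4 := mul_le_mul_of_nonneg_left h1 hρ.le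
      have e : ρ * (1 / ρ * q * ‖g u' - conj a‖) = q * ‖g u' - conj a‖ := by
        field_simp
      rwa [e] at h4
    gcongr
  have e1 : ‖g u' - a‖ ^ 2 = ((g u').re - a.re) ^ 2 + ((g u').im - a.im) ^ 2 := by
    rw [Complex.sq_norm, Complex.normSq_apply, Complex.sub_re, Complex.sub_im]
    ring
  have e2 : ‖g u' - conj a‖ ^ 2 = ((g u').re - a.re) ^ 2 + ((g u').im + a.im) ^ 2 := by
    rw [Complex.sq_norm, Complex.normSq_apply, Complex.sub_re, Complex.sub_im, Complex.conj_re,
      Complex.conj_im]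
    ring
  rw [mul_pow, mul_pow, e1, e2] at h2
  have h3 : (ρ * ((g u').im - a.im)) ^ 2 ≤ (q * ((g u').im + a.im)) ^ 2 := by
    have h4 : 0 ≤ (ρ ^ 2 - q ^ 2) * ((g u').re - a.re) ^ 2 := by
      refine mul_nonneg ?_ (sq_nonneg _)
      nlinarith
    nlinarith
  have h4 := abs_le_of_sq_le_sq h3 (by positivity)
  have h5 := (abs_le.1 h4).1
  nlinarith

/-- **A real point with a half-neighbourhood in the domain survives.** -/
theorem half_surv {W : ℝ → ℝ} {t x r : ℝ} (ht : 0 ≤ t) (hW : ContinuousOn W (Icc 0 t))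
    (hx : W 0 < x) (hr : 0 < r)
    (h : ∀ z : ℂ, 0 < z.im → dist z x < r → z ∈ loewnerDomain W t) : ∃ y, RSol W x t y := by
  set ρ : ℝ := min (r / 4) ((x - W 0) / 2) with hρ
  have hρ0 : 0 < ρ := lt_min (by positivity) (by linarith)
  have hρ1 : ρ ≤ r / 4 := min_le_left _ _
  have hρ2 : ρ ≤ (x - W 0) / 2 := min_le_right _ _
  have hdx : ∀ y ∈ Icc (x - ρ) (x + ρ), ∀ v : ℝ, 0 ≤ v → dist (⟨y, v⟩ : ℂ) x ≤ ρ + v := by
    intro y hy v hv
    rw [dist_eq_norm]
    refine (Complex.norm_le_abs_re_add_abs_im _).trans ?_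
    rw [Complex.sub_re, Complex.sub_im, Complex.ofReal_re, Complex.ofReal_im, sub_zero]
    simp only
    have h1 : |y - x| ≤ ρ := abs_le.2 ⟨by linarith [hy.1], by linarith [hy.2]⟩
    rw [abs_of_nonneg hv]
    linarith
  have hK : IsCompact ((fun y : ℝ => (⟨y, ρ⟩ : ℂ)) '' Icc (x - ρ) (x + ρ)) := by
    refine isCompact_Icc.image ?_
    have e : (fun y : ℝ => (⟨y, ρ⟩ : ℂ)) = fun y : ℝ => (y : ℂ) + ρ * Complex.I := by
      funext y
      apply Complex.ext <;> simp
    rw [e]
    fun_prop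
  obtain ⟨c, hc, hlow⟩ := exists_im_lower ht hW hK (by
    rintro _ ⟨y, hy, rfl⟩
    exact h _ hρ0 ((hdx y hy ρ hρ0.le).trans_lt (by linarith)))
  have hd : DifferentiableOn ℂ (Vale.Agent.P167.H947.flow W t) (surv W t) :=
    differentiableOn_flow ht hW
  have key : ∀ y ∈ Icc (x - ρ) (x + ρ), ∀ η ∈ Ioc 0 ρ, ∃ g, CSol W (⟨y, η⟩ : ℂ) t g ∧
      η ≤ Real.exp (Real.log (2 * ρ / c)) * (g t).im := by
    intro y hy η hη
    have hη0 : 0 < η := hη.1
    set u : ℂ := ⟨y, ρ⟩ with hu
    set u' : ℂ := ⟨y, η⟩ with hu'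
    have hball : ball u ρ ⊆ loewnerDomain W t := by
      intro z hz
      rw [mem_ball] at hz
      have h1 : |z.im - ρ| < ρ := by
        have := (Complex.abs_im_le_norm (z - u)).trans_lt (by rwa [← dist_eq_norm])
        rwa [Complex.sub_im] at this
      have h2 := (abs_lt.1 h1).1
      refine h z (by linarith) ?_
      have h3 := dist_triangle z u x
      have h4 := hdx y hy ρ hρ0.le
      rw [← hu] at h4
      linarith
    have hfl : ∀ z ∈ loewnerDomain W t, z ∈ surv W t ∧
        0 < (Vale.Agent.P167.H947.flow W t z).im := by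
      rintro z ⟨g, hg⟩
      refine ⟨⟨g, hg.csol'⟩, ?_⟩
      rw [flow_loewner ht hW hg]
      exact (hg.2 t ⟨ht, le_rfl⟩).1
    have hdist : dist u' u = ρ - η := by
      rw [dist_eq_norm]
      have e : u' - u = ((η - ρ : ℝ) : ℂ) * Complex.I := by
        rw [hu, hu']
        apply Complex.ext <;> simp
      rw [e, norm_mul, Complex.norm_I, mul_one, Complex.norm_real, Real.norm_eq_abs,
        abs_of_nonpos (by linarith [hη.2])]
      ring
    have hub : u' ∈ ball u ρ := by
      rw [mem_ball, hdist]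
      linarith
    have hH := harnack_disc hρ0 (hd.mono fun z hz => (hfl z (hball hz)).1)
      (fun z hz => (hfl z (hball hz)).2) hub
    rw [hdist] at hH
    obtain ⟨g, hg⟩ := hball hub
    obtain ⟨g₀, hg₀⟩ := hball (mem_ball_self hρ0 : u ∈ ball u ρ)
    have h1 := hlow u ⟨y, hy, rfl⟩ g₀ hg₀
    rw [flow_loewner ht hW hg, flow_loewner ht hW hg₀] at hH
    refine ⟨g, hg.csol', ?_⟩
    have hgi := (hg.2 t ⟨ht, le_rfl⟩).1
    rw [Real.exp_log (by positivity), div_mul_eq_mul_div, le_div_iff₀ hc]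
    have h2 : (g₀ t).im * η ≤ (g t).im * (2 * ρ) := by
      have e : ρ - (ρ - η) = η := by ring
      rw [e] at hH
      refine hH.trans ?_
      refine mul_le_mul_of_nonneg_left (by linarith) hgi.le
    have h3 : c * η ≤ (g₀ t).im * η := mul_le_mul_of_nonneg_right h1 hη0.le
    linarith
  choose! G hG hG' using key
  have F : Fam W t (x - ρ) (x + ρ) (Real.log (2 * ρ / c)) ρ G := ⟨ht, hW, hG, hG'⟩
  exact F.surv (by linarith) hρ0 ⟨by linarith, by linarith⟩

end Vale.Agent.P167.H327
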