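import Vale.Agent.P167.H327.Geo6
import Vale.Agent.P167.H411.Inputs6

/-!
# P167, END: the input `I_rado6`
-/

open Set Topology Metric Filter Bornology

namespace Vale.Agent.P167.H327

open Vale.Agent.P153.R2
open Vale.Agent.P167.E6 Vale.Agent.P167.E2

/-- **The input `I_rado6`.** -/
theorem i_rado6 : H411.I_rado6 := by
  intro Φ ψ hψ δ N k p S h
  obtain ⟨b', ψn, hb, -, hU, hconv⟩ := rado_Om h hψ
  refine ⟨ψn, hψ, h, fun n hn => ?_, fun n hn => ?_, fun ε hε => ?_⟩
  · have := (hU n).2.2.1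
    rwa [hb n hn] at this
  · obtain ⟨h1, -, -, h2, h3⟩ := h.1 n
    have h4 := (hU n).2.2.1
    rw [hb n hn] at h4
    exact ⟨h4.cont, (hU n).2.2.2, h4.infty, (h4.injOn (good_Om6 h1 h2 h3).nocut).2⟩
  · filter_upwards [Metric.tendstoUniformlyOn_iff.1 hconv ε hε] with n hn z hz
    rw [dist_comm]
    exact hn z hz

end Vale.Agent.P167.H327
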