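import Vale.Agent.P167.E2.OmDef

/-!
# P167, block E2-GEO, part 1: the boundary of the pushed domain near a vertex of the polygon

`a` is the direction of the edge to the vertex before, `b` the direction of the edge to the vertex
after.
-/

set_option linter.all false

namespace Vale.Agent.P167.H327

open Vale.Agent.P167.E6 Vale.Agent.P167.E2 Set

/-- coordinates of the directions -/
def ex : Fin 4 → ℝ := ![1, 0, -1, 0]
def ey : Fin 4 → ℝ := ![0, 1, 0, -1]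
/-- signs of the coordinates in the quadrants -/
def sx : Fin 4 → ℝ := ![1, -1, -1, 1]
def sy : Fin 4 → ℝ := ![1, 1, -1, -1]

theorem ex0 : ex 0 = 1 := rfl
theorem ex1 : ex 1 = 0 := rfl
theorem ex2 : ex 2 = -1 := rfl
theorem ex3 : ex 3 = 0 := rfl
theorem ey0 : ey 0 = 0 := rfl
theorem ey1 : ey 1 = 1 := rfl
theorem ey2 : ey 2 = 0 := rfl
theorem ey3 : ey 3 = -1 := rfl
theorem sx0 : sx 0 = 1 := rfl
theorem sx1 : sx 1 = -1 := rfl
theorem sx2 : sx 2 = -1 := rfl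
theorem sx3 : sx 3 = 1 := rfl
theorem sy0 : sy 0 = 1 := rfl
theorem sy1 : sy 1 = 1 := rfl
theorem sy2 : sy 2 = -1 := rfl
theorem sy3 : sy 3 = -1 := rfl

/-- the position of the corner along the direction -/
noncomputable def kp : Fin 4 → ℝ := ![0, 3 / 8, 0, -(3 / 8)]

theorem kp1 : kp 1 = 3 / 8 := rfl
theorem kp2 : kp 2 = 0 := rfl
theorem kp3 : kp 3 = -(3 / 8) := rfl

/-- the corner -/
noncomputable def cX (a b : Fin 4) : ℝ := kp (b - a) * ex a + 3 / 8 * ex (a + 1)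
noncomputable def cY (a b : Fin 4) : ℝ := kp (b - a) * ey a + 3 / 8 * ey (a + 1)
/-- the entrance -/
noncomputable def iX (a : Fin 4) : ℝ := 1 / 2 * ex a + 3 / 8 * ex (a + 1)
noncomputable def iY (a : Fin 4) : ℝ := 1 / 2 * ey a + 3 / 8 * ey (a + 1)
/-- the exit -/
noncomputable def oX (b : Fin 4) : ℝ := 1 / 2 * ex b + 3 / 8 * ex (b - 1)
noncomputable def oY (b : Fin 4) : ℝ := 1 / 2 * ey b + 3 / 8 * ey (b - 1)

/-- the curve near the vertex -/
noncomputable def lX (a b : Fin 4) (t : ℝ) : ℝ :=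
  if t ≤ 0 then -2 * t * iX a + (1 + 2 * t) * cX a b else (1 - 2 * t) * cX a b + 2 * t * oX b
noncomputable def lY (a b : Fin 4) (t : ℝ) : ℝ :=
  if t ≤ 0 then -2 * t * iY a + (1 + 2 * t) * cY a b else (1 - 2 * t) * cY a b + 2 * t * oY b

/-- open and closed enlarged quadrants -/
def op (r : Fin 4) (x y : ℝ) : Prop := -(3 / 8) < sx r * x ∧ -(3 / 8) < sy r * y
def cl (r : Fin 4) (x y : ℝ) : Prop := -(3 / 8) ≤ sx r * x ∧ -(3 / 8) ≤ sy r * y

/-- the exterior quadrants -/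
def Ext (a b r : Fin 4) : Prop := (r - a).val < (b - a).val

instance (a b r : Fin 4) : Decidable (Ext a b r) := by unfold Ext; infer_instance

theorem m01 : (0 : Fin 4) - 1 = 3 := rfl
theorem m02 : (0 : Fin 4) - 2 = 2 := rfl
theorem m03 : (0 : Fin 4) - 3 = 1 := rfl
theorem m12 : (1 : Fin 4) - 2 = 3 := rfl
theorem m13 : (1 : Fin 4) - 3 = 2 := rfl
theorem m10 : (1 : Fin 4) - 0 = 1 := rfl
theorem m20 : (2 : Fin 4) - 0 = 2 := rfl
theorem m30 : (3 : Fin 4) - 0 = 3 := rfl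
theorem m21 : (2 : Fin 4) - 1 = 1 := rfl
theorem m23 : (2 : Fin 4) - 3 = 3 := rfl
theorem m31 : (3 : Fin 4) - 1 = 2 := rfl
theorem m32 : (3 : Fin 4) - 2 = 1 := rfl

theorem pairs {P : Fin 4 → Fin 4 → Prop} (h01 : P 0 1) (h02 : P 0 2) (h03 : P 0 3) (h10 : P 1 0)
    (h12 : P 1 2) (h13 : P 1 3) (h20 : P 2 0) (h21 : P 2 1) (h23 : P 2 3) (h30 : P 3 0)
    (h31 : P 3 1) (h32 : P 3 2) {a b : Fin 4} (h : a ≠ b) : P a b := by
  fin_cases a <;> fin_cases b <;> first | exact absurd rfl h | assumption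

/-- the curve near the vertex is in the dual square -/
theorem loc_le {a b : Fin 4} (h : a ≠ b) {t : ℝ} (h1 : -(1 / 2) ≤ t) (h2 : t ≤ 1 / 2) :
    |lX a b t| ≤ 1 / 2 ∧ |lY a b t| ≤ 1 / 2 := by
  unfold lX lY
  revert a b
  intro a b h
  refine pairs (P := fun a b => |if t ≤ 0 then -2 * t * iX a + (1 + 2 * t) * cX a b else
      (1 - 2 * t) * cX a b + 2 * t * oX b| ≤ 1 / 2 ∧
    |if t ≤ 0 then -2 * t * iY a + (1 + 2 * t) * cY a b else
      (1 - 2 * t) * cY a b + 2 * t * oY b| ≤ 1 / 2) ?_ ?_ ?_ ?_ ?_ ?_ ?_ ?_ ?_ ?_ ?_ ?_ h <;>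
  · split_ifs with h0 <;>
    simp only [iX, iY, oX, oY, cX, cY, f4_01, f4_11, f4_21, f4_31, m01, m02, m03, m12, m13, m10,
      m20, m30, m21, m23, m31, m32, f4_1m, ex0, ex1, ex2, ex3, ey0, ey1, ey2, ey3, kp1, kp2, kp3,
      abs_le] <;>
    refine ⟨⟨?_, ?_⟩, ?_, ?_⟩ <;> linarith

theorem loc_lt {a b : Fin 4} (h : a ≠ b) {t : ℝ} (h1 : -(1 / 2) < t) (h2 : t < 1 / 2) :
    |lX a b t| < 1 / 2 ∧ |lY a b t| < 1 / 2 := by
  unfold lX lY
  refine pairs (P := fun a b => |if t ≤ 0 then -2 * t * iX a + (1 + 2 * t) * cX a b else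
      (1 - 2 * t) * cX a b + 2 * t * oX b| < 1 / 2 ∧
    |if t ≤ 0 then -2 * t * iY a + (1 + 2 * t) * cY a b else
      (1 - 2 * t) * cY a b + 2 * t * oY b| < 1 / 2) ?_ ?_ ?_ ?_ ?_ ?_ ?_ ?_ ?_ ?_ ?_ ?_ h <;>
  · split_ifs with h0 <;>
    simp only [iX, iY, oX, oY, cX, cY, f4_01, f4_11, f4_21, f4_31, m01, m02, m03, m12, m13, m10,
      m20, m30, m21, m23, m31, m32, f4_1m, ex0, ex1, ex2, ex3, ey0, ey1, ey2, ey3, kp1, kp2, kp3,
      abs_lt] <;>
    refine ⟨⟨?_, ?_⟩, ?_, ?_⟩ <;> linarith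

/-- no double points -/
theorem loc_inj {a b : Fin 4} (h : a ≠ b) {t s : ℝ} (hx : lX a b t = lX a b s) (hy : lY a b t = lY a b s) :
    t = s := by
  unfold lX at hx
  unfold lY at hy
  revert hx hy
  refine pairs (P := fun a b => (if t ≤ 0 then -2 * t * iX a + (1 + 2 * t) * cX a b else
      (1 - 2 * t) * cX a b + 2 * t * oX b) = (if s ≤ 0 then -2 * s * iX a + (1 + 2 * s) * cX a b
      else (1 - 2 * s) * cX a b + 2 * s * oX b) →
    (if t ≤ 0 then -2 * t * iY a + (1 + 2 * t) * cY a b else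
      (1 - 2 * t) * cY a b + 2 * t * oY b) = (if s ≤ 0 then -2 * s * iY a + (1 + 2 * s) * cY a b
      else (1 - 2 * s) * cY a b + 2 * s * oY b) → t = s)
      ?_ ?_ ?_ ?_ ?_ ?_ ?_ ?_ ?_ ?_ ?_ ?_ h <;>
  · intro hx hy
    split_ifs at hx hy with h0 h0' h0' <;>
    simp only [iX, iY, oX, oY, cX, cY, f4_01, f4_11, f4_21, f4_31, m01, m02, m03, m12, m13, m10,
      m20, m30, m21, m23, m31, m32, f4_1m, ex0, ex1, ex2, ex3, ey0, ey1, ey2, ey3, kp1, kp2, kp3]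
      at hx hy <;> linarith

/-- the curve near the vertex is on the boundary: it is in a closed interior quadrant -/
theorem loc_cl {a b : Fin 4} (h : a ≠ b) {t : ℝ} (h1 : -(1 / 2) ≤ t) (h2 : t ≤ 1 / 2) :
    ∃ r, ¬ Ext a b r ∧ cl r (lX a b t) (lY a b t) := by
  unfold lX lY cl
  by_cases h0 : t ≤ 0
  · simp only [if_pos h0]
    refine ⟨a - 1, ?_, ?_⟩
    · revert a b; decide
    · refine pairs (P := fun a b => -(3 / 8) ≤ sx (a - 1) * (-2 * t * iX a + (1 + 2 * t) * cX a b) ∧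
        -(3 / 8) ≤ sy (a - 1) * (-2 * t * iY a + (1 + 2 * t) * cY a b))
        ?_ ?_ ?_ ?_ ?_ ?_ ?_ ?_ ?_ ?_ ?_ ?_ h <;>
      simp only [iX, iY, oX, oY, cX, cY, f4_01, f4_11, f4_21, f4_31, m01, m02, m03, m12, m13, m10,
        m20, m30, m21, m23, m31, m32, f4_1m, ex0, ex1, ex2, ex3, ey0, ey1, ey2, ey3, kp1, kp2, kp3,
        sx0, sx1, sx2, sx3, sy0, sy1, sy2, sy3] <;> constructor <;> linarith
  · simp only [if_neg h0]
    refine ⟨b, ?_, ?_⟩
    · revert a b; decide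
    · refine pairs (P := fun a b => -(3 / 8) ≤ sx b * ((1 - 2 * t) * cX a b + 2 * t * oX b) ∧
        -(3 / 8) ≤ sy b * ((1 - 2 * t) * cY a b + 2 * t * oY b))
        ?_ ?_ ?_ ?_ ?_ ?_ ?_ ?_ ?_ ?_ ?_ ?_ h <;>
      simp only [iX, iY, oX, oY, cX, cY, f4_01, f4_11, f4_21, f4_31, m01, m02, m03, m12, m13, m10,
        m20, m30, m21, m23, m31, m32, f4_1m, ex0, ex1, ex2, ex3, ey0, ey1, ey2, ey3, kp1, kp2, kp3,
        sx0, sx1, sx2, sx3, sy0, sy1, sy2, sy3] <;> constructor <;> linarith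

/-- the curve near the vertex is in no open interior quadrant -/
theorem loc_op {a b : Fin 4} (h : a ≠ b) {t : ℝ} (h1 : -(1 / 2) ≤ t) (h2 : t ≤ 1 / 2) :
    ∀ r, ¬ Ext a b r → ¬ op r (lX a b t) (lY a b t) := by
  unfold lX lY op
  by_cases h0 : t ≤ 0
  · simp only [if_pos h0]
    refine pairs (P := fun a b => ∀ r, ¬ Ext a b r → ¬ (
        -(3 / 8) < sx r * (-2 * t * iX a + (1 + 2 * t) * cX a b) ∧
        -(3 / 8) < sy r * (-2 * t * iY a + (1 + 2 * t) * cY a b)))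
        ?_ ?_ ?_ ?_ ?_ ?_ ?_ ?_ ?_ ?_ ?_ ?_ h <;>
    · refine forall4 ?_ ?_ ?_ ?_ <;> first
        | (intro he; exact absurd (by decide) he)
        | (intro _ hc
           simp only [iX, iY, oX, oY, cX, cY, f4_01, f4_11, f4_21, f4_31, m01, m02, m03, m12, m13,
            m10, m20, m30, m21, m23, m31, m32, f4_1m, ex0, ex1, ex2, ex3, ey0, ey1, ey2, ey3, kp1,
            kp2, kp3, sx0, sx1, sx2, sx3, sy0, sy1, sy2, sy3] at hc
           linarith [hc.1, hc.2])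
  · simp only [if_neg h0]
    refine pairs (P := fun a b => ∀ r, ¬ Ext a b r → ¬ (
        -(3 / 8) < sx r * ((1 - 2 * t) * cX a b + 2 * t * oX b) ∧
        -(3 / 8) < sy r * ((1 - 2 * t) * cY a b + 2 * t * oY b)))
        ?_ ?_ ?_ ?_ ?_ ?_ ?_ ?_ ?_ ?_ ?_ ?_ h <;>
    · refine forall4 ?_ ?_ ?_ ?_ <;> first
        | (intro he; exact absurd (by decide) he)
        | (intro _ hc
           simp only [iX, iY, oX, oY, cX, cY, f4_01, f4_11, f4_21, f4_31, m01, m02, m03, m12, m13,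
            m10, m20, m30, m21, m23, m31, m32, f4_1m, ex0, ex1, ex2, ex3, ey0, ey1, ey2, ey3, kp1,
            kp2, kp3, sx0, sx1, sx2, sx3, sy0, sy1, sy2, sy3] at hc
           linarith [hc.1, hc.2])

/-! ### Rotation -/

/-- the coordinate in the direction `r` -/
def co (r : Fin 4) (x y : ℝ) : ℝ := x * ex r + y * ey r

theorem co_add (a j : Fin 4) (x y : ℝ) :
    co (a + j) x y = co j (co a x y) (co (a + 1) x y) := by
  unfold co
  revert a j
  refine forall4 ?_ ?_ ?_ ?_ <;> refine forall4 ?_ ?_ ?_ ?_ <;>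
  simp only [zero_add, add_zero, f4_01, f4_11, f4_21, f4_31, f4_02, f4_12, f4_22, f4_32, f4_03,
    f4_13, f4_23, f4_33, ex0, ex1, ex2, ex3, ey0, ey1, ey2, ey3] <;> ring

theorem op_add (a j : Fin 4) (x y : ℝ) :
    op (a + j) x y ↔ op j (co a x y) (co (a + 1) x y) := by
  unfold co op
  revert a j
  refine forall4 ?_ ?_ ?_ ?_ <;> refine forall4 ?_ ?_ ?_ ?_ <;>
  simp only [zero_add, add_zero, f4_01, f4_11, f4_21, f4_31, f4_02, f4_12, f4_22, f4_32, f4_03,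
    f4_13, f4_23, f4_33, ex0, ex1, ex2, ex3, ey0, ey1, ey2, ey3, sx0, sx1, sx2, sx3, sy0, sy1,
    sy2, sy3] <;> constructor <;> rintro ⟨h1, h2⟩ <;> constructor <;> linarith

theorem cl_add (a j : Fin 4) (x y : ℝ) :
    cl (a + j) x y ↔ cl j (co a x y) (co (a + 1) x y) := by
  unfold co cl
  revert a j
  refine forall4 ?_ ?_ ?_ ?_ <;> refine forall4 ?_ ?_ ?_ ?_ <;>
  simp only [zero_add, add_zero, f4_01, f4_11, f4_21, f4_31, f4_02, f4_12, f4_22, f4_32, f4_03,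
    f4_13, f4_23, f4_33, ex0, ex1, ex2, ex3, ey0, ey1, ey2, ey3, sx0, sx1, sx2, sx3, sy0, sy1,
    sy2, sy3] <;> constructor <;> rintro ⟨h1, h2⟩ <;> constructor <;> linarith

theorem co_le {x y : ℝ} (hx : |x| ≤ 1 / 2) (hy : |y| ≤ 1 / 2) (r : Fin 4) :
    -(1 / 2) ≤ co r x y ∧ co r x y ≤ 1 / 2 := by
  rw [abs_le] at hx hy
  unfold co
  revert r
  refine forall4 ?_ ?_ ?_ ?_ <;>
  simp only [ex0, ex1, ex2, ex3, ey0, ey1, ey2, ey3] <;> constructor <;>
  linarith [hx.1, hx.2, hy.1, hy.2]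

/-- the statement of the dichotomy -/
def Dich (b : Fin 4) (u w : ℝ) : Prop :=
  (w = 3 / 8 ∧ kp b ≤ u ∧ u ≤ 1 / 2) ∨
    (co (b - 1) u w = 3 / 8 ∧ kp b ≤ co b u w ∧ co b u w ≤ 1 / 2)

theorem dich1 {u w : ℝ} (hu : -(1 / 2) ≤ u) (hu' : u ≤ 1 / 2) (hw : -(1 / 2) ≤ w)
    (hw' : w ≤ 1 / 2) (h1 : cl 1 u w ∨ cl 2 u w ∨ cl 3 u w) (h2 : ¬ op 1 u w) (h3 : ¬ op 2 u w)
    (h4 : ¬ op 3 u w) : Dich 1 u w := by
  simp only [Dich, cl, op, co, f4_1m, ex0, ex1, ey0, ey1, kp1, sx1, sx2, sx3, sy1, sy2, sy3,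
    not_and_or, not_lt] at *
  rcases h1 with ⟨a1, a2⟩ | ⟨a1, a2⟩ | ⟨a1, a2⟩ <;> rcases h2 with h2 | h2 <;>
  rcases h3 with h3 | h3 <;> rcases h4 with h4 | h4 <;>
  first
  | (exfalso; linarith)
  | (left; refine ⟨?_, ?_, ?_⟩ <;> linarith)
  | (right; refine ⟨?_, ?_, ?_⟩ <;> linarith)

theorem dich2 {u w : ℝ} (hu : -(1 / 2) ≤ u) (hu' : u ≤ 1 / 2) (hw : -(1 / 2) ≤ w)
    (hw' : w ≤ 1 / 2) (h1 : cl 2 u w ∨ cl 3 u w) (h3 : ¬ op 2 u w)
    (h4 : ¬ op 3 u w) : Dich 2 u w := by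
  simp only [Dich, cl, op, co, m21, ex2, ex1, ey2, ey1, kp2, sx1, sx2, sx3, sy1, sy2, sy3,
    not_and_or, not_lt] at *
  rcases le_total 0 u with g1 | g1 <;>
  rcases h1 with ⟨a1, a2⟩ | ⟨a1, a2⟩ <;> 
  rcases h3 with h3 | h3 <;> rcases h4 with h4 | h4 <;>
  first
  | (exfalso; linarith)
  | (left; refine ⟨?_, ?_, ?_⟩ <;> linarith)
  | (right; refine ⟨?_, ?_, ?_⟩ <;> linarith)

theorem dich3 {u w : ℝ} (hu : -(1 / 2) ≤ u) (hu' : u ≤ 1 / 2) (hw : -(1 / 2) ≤ w)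
    (hw' : w ≤ 1 / 2) (h1 : cl 3 u w) (h4 : ¬ op 3 u w) : Dich 3 u w := by
  simp only [Dich, cl, op, co, f4_3m, ex2, ex3, ey2, ey3, kp3, sx1, sx2, sx3, sy1, sy2, sy3,
    not_and_or, not_lt] at *
  obtain ⟨a1, a2⟩ := h1
  rcases h4 with h4 | h4 <;>
  first
  | (exfalso; linarith)
  | (left; refine ⟨?_, ?_, ?_⟩ <;> linarith)
  | (right; refine ⟨?_, ?_, ?_⟩ <;> linarith)

theorem ext_add (a j r : Fin 4) : Ext a (a + j) (a + r) ↔ r.val < j.val := by
  revert a j r; decide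

/-- the boundary points in the dual square are on one of the two segments -/
theorem loc_dich {a b : Fin 4} (h : a ≠ b) {x y : ℝ} (hx : |x| ≤ 1 / 2) (hy : |y| ≤ 1 / 2)
    (h1 : ∃ r, ¬ Ext a b r ∧ cl r x y) (h2 : ∀ r, ¬ Ext a b r → ¬ op r x y) :
    (co (a + 1) x y = 3 / 8 ∧ kp (b - a) ≤ co a x y ∧ co a x y ≤ 1 / 2) ∨
    (co (b - 1) x y = 3 / 8 ∧ kp (b - a) ≤ co b x y ∧ co b x y ≤ 1 / 2) := by
  obtain ⟨j, rfl⟩ : ∃ j, b = a + j := ⟨b - a, by rw [add_sub_cancel]⟩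
  have hj : j ≠ 0 := by rintro rfl; exact h (by rw [add_zero])
  obtain ⟨hu, hu'⟩ := co_le hx hy a
  obtain ⟨hw, hw'⟩ := co_le hx hy (a + 1)
  have h1' : ∃ r : Fin 4, ¬ (r.val < j.val) ∧ cl r (co a x y) (co (a + 1) x y) := by
    obtain ⟨r, hr, hc⟩ := h1
    refine ⟨r - a, ?_, ?_⟩
    · rw [← ext_add a j, add_sub_cancel]; exact hr
    · rw [← cl_add, add_sub_cancel]; exact hc
  have h2' : ∀ r : Fin 4, ¬ (r.val < j.val) → ¬ op r (co a x y) (co (a + 1) x y) := by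
    intro r hr
    rw [← op_add]
    exact h2 _ (by rw [ext_add]; exact hr)
  have key : Dich j (co a x y) (co (a + 1) x y) := by
    clear h1 h2 h hx hy
    obtain ⟨r, hr, hc⟩ := h1'
    generalize co a x y = u at *
    generalize co (a + 1) x y = w at *
    fin_cases j
    · exact absurd rfl hj
    · refine dich1 hu hu' hw hw' ?_ (h2' 1 (by decide)) (h2' 2 (by decide)) (h2' 3 (by decide))
      fin_cases r
      · exact absurd (by decide) hr
      · exact Or.inl hc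
      · exact Or.inr (Or.inl hc)
      · exact Or.inr (Or.inr hc)
    · refine dich2 hu hu' hw hw' ?_ (h2' 2 (by decide)) (h2' 3 (by decide))
      fin_cases r
      · exact absurd (by decide) hr
      · exact absurd (by decide) hr
      · exact Or.inl hc
      · exact Or.inr hc
    · refine dich3 hu hu' hw hw' ?_ (h2' 3 (by decide))
      fin_cases r
      · exact absurd (by decide) hr
      · exact absurd (by decide) hr
      · exact absurd (by decide) hr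
      · exact hc
  have e1 : a + j - a = j := by rw [add_sub_cancel_left]
  have e2 : a + j - 1 = a + (j - 1) := by rw [add_sub_assoc]
  rw [e1, e2, co_add a (j - 1), co_add a j]
  exact key

theorem decomp (a : Fin 4) (x y : ℝ) : co a x y * ex a + co (a + 1) x y * ex (a + 1) = x ∧
    co a x y * ey a + co (a + 1) x y * ey (a + 1) = y := by
  unfold co
  revert a
  refine forall4 ?_ ?_ ?_ ?_ <;>
  simp only [zero_add, add_zero, f4_01, f4_11, f4_21, f4_31, ex0, ex1, ex2, ex3, ey0, ey1, ey2,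
    ey3] <;> constructor <;> ring

theorem decomp' (b : Fin 4) (x y : ℝ) : co b x y * ex b + co (b - 1) x y * ex (b - 1) = x ∧
    co b x y * ey b + co (b - 1) x y * ey (b - 1) = y := by
  unfold co
  revert b
  refine forall4 ?_ ?_ ?_ ?_ <;>
  simp only [f4_0m, f4_1m, f4_2m, f4_3m, ex0, ex1, ex2, ex3, ey0, ey1, ey2,
    ey3] <;> constructor <;> ring

/-- the corner seen from the exit -/
theorem corner_eq {a b : Fin 4} (h : a ≠ b) : cX a b = kp (b - a) * ex b + 3 / 8 * ex (b - 1) ∧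
    cY a b = kp (b - a) * ey b + 3 / 8 * ey (b - 1) := by
  unfold cX cY
  refine pairs (P := fun a b => kp (b - a) * ex a + 3 / 8 * ex (a + 1) =
      kp (b - a) * ex b + 3 / 8 * ex (b - 1) ∧ kp (b - a) * ey a + 3 / 8 * ey (a + 1) =
      kp (b - a) * ey b + 3 / 8 * ey (b - 1)) ?_ ?_ ?_ ?_ ?_ ?_ ?_ ?_ ?_ ?_ ?_ ?_ h <;>
  simp only [f4_01, f4_11, f4_21, f4_31, m01, m02, m03, m12, m13, m10, m20, m30, m21, m23, m31,
    m32, f4_1m, ex0, ex1, ex2, ex3, ey0, ey1, ey2, ey3, kp1, kp2, kp3] <;> constructor <;> norm_num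

theorem kp_lt (j : Fin 4) : kp j < 1 / 2 := by
  revert j
  refine forall4 ?_ ?_ ?_ ?_
  · show (0 : ℝ) < 1 / 2; norm_num
  · rw [kp1]; norm_num
  · rw [kp2]; norm_num
  · rw [kp3]; norm_num

/-- the boundary points in the dual square are on the curve -/
theorem loc_ex {a b : Fin 4} (h : a ≠ b) {x y : ℝ} (hx : |x| ≤ 1 / 2) (hy : |y| ≤ 1 / 2)
    (h1 : ∃ r, ¬ Ext a b r ∧ cl r x y) (h2 : ∀ r, ¬ Ext a b r → ¬ op r x y) :
    ∃ t, -(1 / 2) ≤ t ∧ t ≤ 1 / 2 ∧ lX a b t = x ∧ lY a b t = y := by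
  have hk : 0 < 1 - 2 * kp (b - a) := by linarith [kp_lt (b - a)]
  rcases loc_dich h hx hy h1 h2 with ⟨e1, e2, e3⟩ | ⟨e1, e2, e3⟩
  · have ht : -((co a x y - kp (b - a)) / (1 - 2 * kp (b - a))) ≤ 0 := by
      rw [neg_nonpos]
      exact div_nonneg (by linarith) hk.le
    obtain ⟨d1, d2⟩ := decomp a x y
    refine ⟨-((co a x y - kp (b - a)) / (1 - 2 * kp (b - a))), ?_, by linarith, ?_, ?_⟩
    · rw [neg_le_neg_iff, div_le_iff₀ hk]
      linarith
    · rw [lX, if_pos ht]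
      conv_rhs => rw [← d1]
      rw [e1, iX, cX]
      field_simp
      ring
    · rw [lY, if_pos ht]
      conv_rhs => rw [← d2]
      rw [e1, iY, cY]
      field_simp
      ring
  · obtain ⟨d1, d2⟩ := decomp' b x y
    obtain ⟨c1, c2⟩ := corner_eq h
    rcases e2.lt_or_eq with e2 | e2
    · have ht : ¬ (co b x y - kp (b - a)) / (1 - 2 * kp (b - a)) ≤ 0 := by
        rw [not_le]
        exact div_pos (by linarith) hk
      refine ⟨(co b x y - kp (b - a)) / (1 - 2 * kp (b - a)), ?_, ?_, ?_, ?_⟩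
      · linarith [not_le.1 ht]
      · rw [div_le_iff₀ hk]
        linarith
      · rw [lX, if_neg ht, c1, oX]
        conv_rhs => rw [← d1]
        rw [e1]
        field_simp
        ring
      · rw [lY, if_neg ht, c2, oY]
        conv_rhs => rw [← d2]
        rw [e1]
        field_simp
        ring
    · refine ⟨0, by norm_num, by norm_num, ?_, ?_⟩
      · rw [lX, if_pos le_rfl, c1, e2]
        conv_rhs => rw [← d1]
        rw [e1]
        ring
      · rw [lY, if_pos le_rfl, c2, e2]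
        conv_rhs => rw [← d2]
        rw [e1]
        ring

end Vale.Agent.P167.H327
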