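import Vale.Agent.P167.H327.OriG
import Vale.Agent.P167.H327.Geo6

/-!
# P167, [CG5] ORI: the uniformizer of `Om δ S` maps the positive half-line to the free part of the
boundary and the negative half-line to the wired part
-/

set_option linter.all false

open Set Topology Metric Filter Bornology

namespace Vale.Agent.P167.H327

open Vale.Agent.P153.R2
open Vale.Agent.P153.R2.R1
open Vale.Agent.P167.E6 Vale.Agent.P167.E2

/-- the parameter between the corner and the mark -/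
noncomputable def tq : Fin 4 → ℝ := ![0, 0, 3 / 8, 3 / 7]

theorem tq1 : tq 1 = 0 := rfl
theorem tq2 : tq 2 = 3 / 8 := rfl
theorem tq3 : tq 3 = 3 / 7 := rfl

theorem tq_bd (r : Fin 4) : 0 ≤ tq r ∧ tq r ≤ 3 / 7 := by
  have h0 : tq 0 = 0 := rfl
  revert r
  refine forall4 ?_ ?_ ?_ ?_ <;> simp only [h0, tq1, tq2, tq3] <;> norm_num

theorem loc_a {a b : Fin 4} (h : a ≠ b) : lX a b (tq (b - a)) = 3 / 8 * sx (b - 1) ∧
    lY a b (tq (b - a)) = 3 / 8 * sy (b - 1) := by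
  unfold lX lY
  refine pairs (P := fun a b => (if tq (b - a) ≤ 0 then -2 * tq (b - a) * iX a +
      (1 + 2 * tq (b - a)) * cX a b else
      (1 - 2 * tq (b - a)) * cX a b + 2 * tq (b - a) * oX b) = 3 / 8 * sx (b - 1) ∧
    (if tq (b - a) ≤ 0 then -2 * tq (b - a) * iY a + (1 + 2 * tq (b - a)) * cY a b else
      (1 - 2 * tq (b - a)) * cY a b + 2 * tq (b - a) * oY b) = 3 / 8 * sy (b - 1))
      ?_ ?_ ?_ ?_ ?_ ?_ ?_ ?_ ?_ ?_ ?_ ?_ h <;>
  simp only [iX, iY, oX, oY, cX, cY, f4_01, f4_11, f4_21, f4_31, m01, m02, m03, m12, m13, m10,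
      m20, m30, m21, m23, m31, m32, f4_0m, f4_1m, f4_2m, f4_3m, ex0, ex1, ex2, ex3, ey0, ey1, ey2,
      ey3, kp1, kp2, kp3, tq1, tq2, tq3, sx0, sx1, sx2, sx3, sy0, sy1, sy2, sy3] <;>
  norm_num

theorem loc_b {a b : Fin 4} (h : a ≠ b) : lX a b (-tq (b - a)) = 3 / 8 * sx a ∧
    lY a b (-tq (b - a)) = 3 / 8 * sy a := by
  unfold lX lY
  refine pairs (P := fun a b => (if -tq (b - a) ≤ 0 then -2 * -tq (b - a) * iX a +
      (1 + 2 * -tq (b - a)) * cX a b else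
      (1 - 2 * -tq (b - a)) * cX a b + 2 * -tq (b - a) * oX b) = 3 / 8 * sx a ∧
    (if -tq (b - a) ≤ 0 then -2 * -tq (b - a) * iY a + (1 + 2 * -tq (b - a)) * cY a b else
      (1 - 2 * -tq (b - a)) * cY a b + 2 * -tq (b - a) * oY b) = 3 / 8 * sy a)
      ?_ ?_ ?_ ?_ ?_ ?_ ?_ ?_ ?_ ?_ ?_ ?_ h <;>
  simp only [iX, iY, oX, oY, cX, cY, f4_01, f4_11, f4_21, f4_31, m01, m02, m03, m12, m13, m10,
      m20, m30, m21, m23, m31, m32, f4_0m, f4_1m, f4_2m, f4_3m, ex0, ex1, ex2, ex3, ey0, ey1, ey2,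
      ey3, kp1, kp2, kp3, tq1, tq2, tq3, sx0, sx1, sx2, sx3, sy0, sy1, sy2, sy3] <;>
  norm_num

theorem loc_out {a b : Fin 4} (h : a ≠ b) {t : ℝ} (h0 : 0 < t) :
    lX a b t = (kp (b - a) + t * (1 - 2 * kp (b - a))) * ex b + 3 / 8 * ey b ∧
    lY a b t = (kp (b - a) + t * (1 - 2 * kp (b - a))) * ey b - 3 / 8 * ex b := by
  unfold lX lY
  rw [if_neg (not_le.2 h0), if_neg (not_le.2 h0)]
  refine pairs (P := fun a b => ((1 - 2 * t) * cX a b + 2 * t * oX b) =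
    (kp (b - a) + t * (1 - 2 * kp (b - a))) * ex b + 3 / 8 * ey b ∧
    ((1 - 2 * t) * cY a b + 2 * t * oY b) =
    (kp (b - a) + t * (1 - 2 * kp (b - a))) * ey b - 3 / 8 * ex b)
      ?_ ?_ ?_ ?_ ?_ ?_ ?_ ?_ ?_ ?_ ?_ ?_ h <;>
  simp only [iX, iY, oX, oY, cX, cY, f4_01, f4_11, f4_21, f4_31, m01, m02, m03, m12, m13, m10,
      m20, m30, m21, m23, m31, m32, f4_0m, f4_1m, f4_2m, f4_3m, ex0, ex1, ex2, ex3, ey0, ey1, ey2,
      ey3, kp1, kp2, kp3] <;>
  constructor <;> ring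

/-- Points on the left of the exit are in the domain. -/
theorem loc_op_out {a b : Fin 4} (h : a ≠ b) {t y : ℝ} (h1 : 7 / 16 ≤ t) (h2 : t ≤ 1 / 2)
    (hy : 0 < y) (hy' : y ≤ 1 / 16) :
    |(kp (b - a) + t * (1 - 2 * kp (b - a))) * ex b + (3 / 8 - y) * ey b| ≤ 1 / 2 ∧
    |(kp (b - a) + t * (1 - 2 * kp (b - a))) * ey b - (3 / 8 - y) * ex b| ≤ 1 / 2 ∧
    op b ((kp (b - a) + t * (1 - 2 * kp (b - a))) * ex b + (3 / 8 - y) * ey b)
      ((kp (b - a) + t * (1 - 2 * kp (b - a))) * ey b - (3 / 8 - y) * ex b) := by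
  unfold op
  refine pairs (P := fun a b =>
    |(kp (b - a) + t * (1 - 2 * kp (b - a))) * ex b + (3 / 8 - y) * ey b| ≤ 1 / 2 ∧
    |(kp (b - a) + t * (1 - 2 * kp (b - a))) * ey b - (3 / 8 - y) * ex b| ≤ 1 / 2 ∧
    (-(3 / 8) < sx b * ((kp (b - a) + t * (1 - 2 * kp (b - a))) * ex b + (3 / 8 - y) * ey b) ∧
      -(3 / 8) < sy b * ((kp (b - a) + t * (1 - 2 * kp (b - a))) * ey b - (3 / 8 - y) * ex b)))
      ?_ ?_ ?_ ?_ ?_ ?_ ?_ ?_ ?_ ?_ ?_ ?_ h <;>
  simp only [m01, m02, m03, m12, m13, m10,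
      m20, m30, m21, m23, m31, m32, ex0, ex1, ex2, ex3, ey0, ey1, ey2,
      ey3, kp1, kp2, kp3, sx0, sx1, sx2, sx3, sy0, sy1, sy2, sy3, abs_le] <;>
  refine ⟨⟨?_, ?_⟩, ⟨?_, ?_⟩, ?_, ?_⟩ <;> linarith

theorem kp_lam {a b : Fin 4} (h : a ≠ b) : 0 < 1 - 2 * kp (b - a) ∧ 1 - 2 * kp (b - a) ≤ 7 / 4 := by
  refine pairs (P := fun a b => 0 < 1 - 2 * kp (b - a) ∧ 1 - 2 * kp (b - a) ≤ 7 / 4)
      ?_ ?_ ?_ ?_ ?_ ?_ ?_ ?_ ?_ ?_ ?_ ?_ h <;>
  simp only [m01, m02, m03, m12, m13, m10,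
      m20, m30, m21, m23, m31, m32, kp1, kp2, kp3] <;> norm_num

variable {n : ℕ} {p : ZMod n → ℤ × ℤ} {S : Finset (ℤ × ℤ)} {δ : ℝ}

/-- The parameter of the starting point. -/
noncomputable def tA (p : ZMod n → ℤ × ℤ) : ℝ := -1 + tq (ro p (-1) - ri p (-1))

/-- The parameter of the end point. -/
noncomputable def tB (p : ZMod n → ℤ × ℤ) (k : ℕ) : ℝ := k - tq (ro p k - ri p k)

theorem tA_bd : -1 ≤ tA p ∧ tA p ≤ -(4 / 7) := by
  have := tq_bd (ro p (-1) - ri p (-1))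
  unfold tA
  constructor <;> linarith

theorem tB_bd (k : ℕ) : (k : ℝ) - 3 / 7 ≤ tB p k ∧ tB p k ≤ k := by
  have := tq_bd (ro p (k : ZMod n) - ri p (k : ZMod n))
  unfold tB
  constructor <;> linarith

theorem QF_tA (hp : IsPolygon p) (hS : Encloses p S) : QF p δ (tA p) = aM p δ := by
  have h1 := tq_bd (ro p (-1) - ri p (-1))
  have h2 := qF_near hp (-1) (t := tq (ro p (-1) - ri p (-1))) (by linarith) (by linarith)
  have e : ((-1 : ℤ) : ZMod n) = -1 := by push_cast; rfl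
  have e' : (((-1 : ℤ) : ℝ)) = -1 := by push_cast; rfl
  rw [e, e', (loc_a (ri_ne_ro hp hS)).1, (loc_a (ri_ne_ro hp hS)).2, ← quad_eq] at h2
  rw [QF, tA, h2, aM]

theorem QF_tB (hp : IsPolygon p) (hS : Encloses p S) (k : ℕ) : QF p δ (tB p k) = bM p k δ := by
  have h1 := tq_bd (ro p (k : ZMod n) - ri p (k : ZMod n))
  have h2 := qF_near hp k (t := -tq (ro p (k : ZMod n) - ri p (k : ZMod n))) (by linarith)
    (by linarith)
  have e : ((k : ℤ) : ZMod n) = (k : ZMod n) := by push_cast; rfl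
  have e' : (((k : ℤ) : ℝ)) = k := by push_cast; rfl
  rw [e, e', (loc_b (ri_ne_ro hp hS)).1, (loc_b (ri_ne_ro hp hS)).2, ← quad_eq] at h2
  rw [QF, tB, sub_eq_add_neg, h2, bM]

theorem flat_QF (hδ : 0 < δ) (hp : IsPolygon p) (hS : Encloses p S) (i : ℤ) :
    Flat (QF p δ) (Om δ S) (i + 15 / 32) := by
  set a := ri p (i : ZMod n) with ha
  set b := ro p (i : ZMod n) with hb
  have hab : a ≠ b := ri_ne_ro hp hS
  set la := 1 - 2 * kp (b - a) with hla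
  obtain ⟨l1, l2⟩ := kp_lam hab
  rw [← hla] at l1 l2
  have hq : ∀ t : ℝ, 7 / 16 ≤ t → t ≤ 1 / 2 → qF p (i + t) = nr (p i)
      ((kp (b - a) + t * la) * ex b + 3 / 8 * ey b)
      ((kp (b - a) + t * la) * ey b - 3 / 8 * ex b) := by
    intro t h1 h2
    rw [qF_near hp i (by linarith) h2, (loc_out hab (by linarith)).1, (loc_out hab (by linarith)).2]
  refine ⟨1 / 32, 1, (δ : ℂ) * ((la : ℂ) * ⟨ex b, ey b⟩), by norm_num, one_pos, ?_, ?_⟩
  · intro x hx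
    have e : (i : ℝ) + 15 / 32 + 1 * x = i + (15 / 32 + x) := by ring
    rw [QF, QF, e, hq _ (by linarith [hx.1]) (by linarith [hx.2]), hq _ (by norm_num) (by norm_num)]
    have key : nr (p i) ((kp (b - a) + (15 / 32 + x) * la) * ex b + 3 / 8 * ey b)
        ((kp (b - a) + (15 / 32 + x) * la) * ey b - 3 / 8 * ex b) =
        nr (p i) ((kp (b - a) + 15 / 32 * la) * ex b + 3 / 8 * ey b)
        ((kp (b - a) + 15 / 32 * la) * ey b - 3 / 8 * ex b) + (x : ℂ) * ((la : ℂ) * ⟨ex b, ey b⟩) := by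
      apply Complex.ext <;>
      simp only [nr, Complex.add_re, Complex.add_im, Complex.re_ofReal_mul, Complex.im_ofReal_mul] <;>
      ring
    rw [key]
    ring
  · intro x hx y hy
    have hf : face (p i) b ∈ S := (enc_out hp hS).1
    have e : (δ : ℂ) * (nr (p i) ((kp (b - a) + (15 / 32 + x) * la) * ex b +
        (3 / 8 - la * y) * ey b) ((kp (b - a) + (15 / 32 + x) * la) * ey b -
        (3 / 8 - la * y) * ex b)) = QF p δ (i + 15 / 32) +
        (x + y * Complex.I) * ((δ : ℂ) * ((la : ℂ) * ⟨ex b, ey b⟩)) := by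
      rw [QF, hq _ (by norm_num) (by norm_num)]
      have key : nr (p i) ((kp (b - a) + (15 / 32 + x) * la) * ex b + (3 / 8 - la * y) * ey b)
        ((kp (b - a) + (15 / 32 + x) * la) * ey b - (3 / 8 - la * y) * ex b) =
        nr (p i) ((kp (b - a) + 15 / 32 * la) * ex b + 3 / 8 * ey b)
        ((kp (b - a) + 15 / 32 * la) * ey b - 3 / 8 * ex b) +
        (x + y * Complex.I) * ((la : ℂ) * ⟨ex b, ey b⟩) := by
        obtain ⟨e1, e2⟩ := ofReal_add_mul_I x y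
        apply Complex.ext
        · simp only [nr, Complex.add_re, Complex.mul_re ((x : ℂ) + y * Complex.I), e1, e2,
            Complex.re_ofReal_mul, Complex.im_ofReal_mul]
          ring
        · simp only [nr, Complex.add_im, Complex.mul_im ((x : ℂ) + y * Complex.I), e1, e2,
            Complex.re_ofReal_mul, Complex.im_ofReal_mul]
          ring
      rw [key]
      ring
    rw [← e]
    rw [mem_Om hδ]
    have hly : 0 < la * y := mul_pos l1 hy.1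
    have hly' : la * y ≤ 1 / 16 := by nlinarith [hy.2]
    obtain ⟨c1, c2, c3⟩ := loc_op_out hab (t := 15 / 32 + x) (y := la * y) (by linarith [hx.1])
      (by linarith [hx.2]) hly hly'
    rw [mem_O1_near c1 c2]
    exact ⟨b, hf, c3⟩

/-- **[CG5] Orientation of the uniformizer of `Om δ S`.** With `F = QF p δ` (the boundary curve, of
period `n`), `F (tA p) = aM p δ`, `F (tB p k) = bM p k δ`: the function `h = hp ψ F` is continuous and
strictly increasing on `(tB - n, tB)`, onto `ℝ`, vanishes at `tA`, and `ψ (h t) = F t`. -/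
theorem ori (hδ : 0 < δ) (hp : IsPolygon p) (hS : Encloses p S) {k : ℕ} (hk : 0 < k)
    (hkn : k + 1 < n) {ψ : ℂ → ℂ} (hU : IsU ψ (Om δ S) (aM p δ) (bM p k δ)) :
    tB p k - n < tA p ∧ tA p < tB p k ∧
    StrictMonoOn (hpar ψ (QF p δ)) (Ioo (tB p k - n) (tB p k)) ∧
    ContinuousOn (hpar ψ (QF p δ)) (Ioo (tB p k - n) (tB p k)) ∧ hpar ψ (QF p δ) (tA p) = 0 ∧
    (∀ t ∈ Ioo (tB p k - n) (tB p k), ψ (hpar ψ (QF p δ) t) = QF p δ t) ∧
    ∀ x : ℝ, ∃ t ∈ Ioo (tB p k - n) (tB p k), hpar ψ (QF p δ) t = x ∧ QF p δ t = ψ x := by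
  have hG := good_Om6 hδ hp hS
  have hF := jcurve_QF hδ hp hS
  have hfr := frontier_Om hδ hp hS
  have ha := tA_bd (p := p)
  have hb := tB_bd (p := p) k
  have hk1 : (1 : ℝ) ≤ k := by exact_mod_cast hk
  have hkn1 : (k : ℝ) + 1 + 1 ≤ n := by exact_mod_cast hkn
  have e : QF p δ (tB p k - n) = bM p k δ := by
    rw [← QF_tB hp hS k, ← hF.per (tB p k - n), sub_add_cancel]
  rw [← e] at hU
  have hI : tB p k - n + n = tB p k := sub_add_cancel _ _
  have hmono := hpar_mono hU hG.nocut hG.isOpen hF hfr (t₀ := (-1 : ℤ) + 15 / 32)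
    (by rw [hI]; push_cast; constructor <;> linarith) (flat_QF hδ hp hS (-1))
  have hspec := fun t ht => (hpar_spec hU hG.nocut hG.isOpen hF hfr (t := t) ht)
  have hcont := hpar_cont hU hG.nocut hG.isOpen hF hfr
  have hsurj := hpar_surj hU hG.nocut hG.isOpen hF hfr
  rw [hI] at hmono hspec hcont hsurj
  have h1 : tB p k - n < tA p := by linarith
  have h2 : tA p < tB p k := by linarith
  refine ⟨h1, h2, hmono, hcont, ?_, fun t ht => (hspec t ht).1, hsurj⟩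
  have h3 : QF p δ (tA p) = ψ 0 := by rw [QF_tA hp hS, hU.zero]
  have h4 := (uni_of hU hG.nocut)
  rw [hpar, h3]
  have h5 := ph_eq h4 (real_HC 0)
  rw [Complex.ofReal_zero] at h5
  rw [h5, Complex.zero_re]

/-- The positive half-line is mapped to the free part of the boundary, between the parameters `tA`
and `tB`. -/
theorem ori_free (hδ : 0 < δ) (hp : IsPolygon p) (hS : Encloses p S) {k : ℕ} (hk : 0 < k)
    (hkn : k + 1 < n) {ψ : ℂ → ℂ} (hU : IsU ψ (Om δ S) (aM p δ) (bM p k δ)) {x : ℝ} (hx : 0 < x) :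
    ∃ t ∈ Ioo (tA p) (tB p k), QF p δ t = ψ x := by
  obtain ⟨h1, h2, h3, -, h5, -, h7⟩ := ori hδ hp hS hk hkn hU
  obtain ⟨t, ht, ht1, ht2⟩ := h7 x
  refine ⟨t, ⟨?_, ht.2⟩, ht2⟩
  rw [← h3.lt_iff_lt ⟨h1, h2⟩ ht, h5, ht1]
  exact hx

/-- The negative half-line is mapped to the wired part of the boundary, between the parameters `tB`
and `tA + n`. -/
theorem ori_wired (hδ : 0 < δ) (hp : IsPolygon p) (hS : Encloses p S) {k : ℕ} (hk : 0 < k)
    (hkn : k + 1 < n) {ψ : ℂ → ℂ} (hU : IsU ψ (Om δ S) (aM p δ) (bM p k δ)) {x : ℝ} (hx : x < 0) :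
    ∃ t ∈ Ioo (tB p k) (tA p + n), QF p δ t = ψ x := by
  obtain ⟨h1, h2, h3, -, h5, -, h7⟩ := ori hδ hp hS hk hkn hU
  obtain ⟨t, ht, ht1, ht2⟩ := h7 x
  refine ⟨t + n, ⟨by linarith [ht.1], ?_⟩, by rw [(jcurve_QF hδ hp hS).per, ht2]⟩
  have : t < tA p := by
    rw [← h3.lt_iff_lt ht ⟨h1, h2⟩, h5, ht1]
    exact hx
  linarith

/-- The free part of the boundary comes from the positive half-line. -/
theorem ori_free' (hδ : 0 < δ) (hp : IsPolygon p) (hS : Encloses p S) {k : ℕ} (hk : 0 < k)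
    (hkn : k + 1 < n) {ψ : ℂ → ℂ} (hU : IsU ψ (Om δ S) (aM p δ) (bM p k δ)) {t : ℝ}
    (ht : t ∈ Ioo (tA p) (tB p k)) : ∃ x : ℝ, 0 < x ∧ ψ x = QF p δ t := by
  obtain ⟨h1, h2, h3, -, h5, h6, -⟩ := ori hδ hp hS hk hkn hU
  have ht' : t ∈ Ioo (tB p k - n) (tB p k) := ⟨h1.trans ht.1, ht.2⟩
  refine ⟨_, ?_, h6 t ht'⟩
  rw [← h5]
  exact h3 ⟨h1, h2⟩ ht' ht.1

/-- The wired part of the boundary comes from the negative half-line. -/
theorem ori_wired' (hδ : 0 < δ) (hp : IsPolygon p) (hS : Encloses p S) {k : ℕ} (hk : 0 < k)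
    (hkn : k + 1 < n) {ψ : ℂ → ℂ} (hU : IsU ψ (Om δ S) (aM p δ) (bM p k δ)) {t : ℝ}
    (ht : t ∈ Ioo (tB p k) (tA p + n)) : ∃ x : ℝ, x < 0 ∧ ψ x = QF p δ t := by
  obtain ⟨h1, h2, h3, -, h5, h6, -⟩ := ori hδ hp hS hk hkn hU
  have ht' : t - n ∈ Ioo (tB p k - n) (tB p k) := ⟨by linarith [ht.1], by linarith [ht.2]⟩
  refine ⟨_, ?_, (h6 _ ht').trans ?_⟩
  · rw [← h5]
    exact h3 ht' ⟨h1, h2⟩ (by linarith [ht.2])
  · rw [← (jcurve_QF hδ hp hS).per, sub_add_cancel]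

end Vale.Agent.P167.H327
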