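import Vale.Agent.P167.H327.Near
import Vale.Agent.P167.H199.C.CDefs

/-! # P167, route (C): `S_stab` (stability of the uniformizers) -/

set_option autoImplicit false

open Filter Topology Set

namespace Vale.Agent.P167.H327

open Vale.Agent.P153.R2.R1

/-- **[POLY-SEQ]** -/
theorem s_stab : H199.C.S_stab := by
  intro Φ ψ hψ Φn h
  exact rado_near (Φn := Φn) (fun ε hε => (h ε hε).mono fun i hi t => (hi t).le) hψ

end Vale.Agent.P167.H327
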