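import Vale.Agent.P167.H947.Link2

/-!
# P167, block POS (L3), part 1: a real point with a half-neighbourhood in the domain survives

`real_surv`: if the imaginary parts of the points above a real interval on the right of the driver
decrease by a bounded factor only, then the real points of the interval survive, on the right of the
driver.
-/

set_option autoImplicit false

open Set Filter Topology Metric MeasureTheory
open scoped ComplexConjugate

namespace Vale.Agent.P167.H327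

open Vale.Agent.P164 Vale.Agent.P153.BESS
open Vale.Agent.P167.H947 (surv flow_eq flow_conj csol_sub)

variable {W : ℝ → ℝ} {t : ℝ}

/-- `2 / |g - W|²` -/
noncomputable def qd (W : ℝ → ℝ) (g : ℝ → ℂ) (u : ℝ) : ℝ := 2 / ‖g u - (W u : ℂ)‖ ^ 2

theorem qd_nonneg (W : ℝ → ℝ) (g : ℝ → ℂ) (u : ℝ) : 0 ≤ qd W g u := by
  unfold qd
  positivity

theorem qd_cont {z : ℂ} {g : ℝ → ℂ} (hW : ContinuousOn W (Icc 0 t)) (h : CSol W z t g) :
    ContinuousOn (qd W g) (Icc 0 t) := by
  have hWc : ContinuousOn (fun u => (W u : ℂ)) (Icc 0 t) :=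
    Complex.continuous_ofReal.comp_continuousOn hW
  refine continuousOn_const.div ((h.cont.sub hWc).norm.pow 2) fun u hu => ?_
  exact pow_ne_zero 2 (norm_ne_zero_iff.2 (sub_ne_zero.2 (h.2 u hu).1))

theorem qd_int {z : ℂ} {g : ℝ → ℂ} (hW : ContinuousOn W (Icc 0 t)) (h : CSol W z t g) {a b : ℝ}
    (ha : a ∈ Icc 0 t) (hb : b ∈ Icc 0 t) : IntervalIntegrable (qd W g) volume a b := by
  refine ((qd_cont hW h).mono ?_).intervalIntegrable
  exact ordConnected_Icc.uIcc_subset ha hb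

/-- The imaginary part. -/
theorem im_formula {z : ℂ} {g : ℝ → ℂ} (ht : 0 ≤ t) (hW : ContinuousOn W (Icc 0 t))
    (h : CSol W z t g) : ∀ s ∈ Icc 0 t,
      (g s).im = z.im * Real.exp (-∫ u in (0 : ℝ)..s, qd W g u) := by
  intro s hs
  have h1 := csol_sub ht hW h (Vale.Agent.P167.H947.CSol.conj h) s hs
  have e : (∫ u in (0 : ℝ)..s, 2 / ((g u - W u) * (conj (g u) - W u))) =
      ((∫ u in (0 : ℝ)..s, qd W g u : ℝ) : ℂ) := by
    rw [← intervalIntegral.integral_ofReal]
    refine intervalIntegral.integral_congr fun u _ => ?_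
    have e1 : conj (g u) - (W u : ℂ) = conj (g u - W u) := by rw [map_sub, Complex.conj_ofReal]
    simp only [qd]
    rw [e1, Complex.mul_conj, Complex.normSq_eq_norm_sq]
    push_cast
    rfl
  rw [e, ← Complex.ofReal_neg, ← Complex.ofReal_exp] at h1
  have h2 := congrArg Complex.im h1
  rw [Complex.sub_im, Complex.conj_im, Complex.mul_im, Complex.ofReal_im, Complex.ofReal_re,
    Complex.sub_im, Complex.conj_im, mul_zero, zero_add] at h2
  linarith

/-- The sum of the exponents bounds the change of the distance. -/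
theorem dist_bd {z z' : ℂ} {g g' : ℝ → ℂ} {L s : ℝ} (ht : 0 ≤ t) (hW : ContinuousOn W (Icc 0 t))
    (h : CSol W z t g) (h' : CSol W z' t g') (hs : s ∈ Icc 0 t)
    (hL : ∫ u in (0 : ℝ)..s, qd W g u ≤ L) (hL' : ∫ u in (0 : ℝ)..s, qd W g' u ≤ L) :
    Real.exp (-L) * ‖z - z'‖ ≤ ‖g s - g' s‖ ∧ ‖g s - g' s‖ ≤ Real.exp L * ‖z - z'‖ := by
  have h0 : (0 : ℝ) ∈ Icc 0 t := ⟨le_rfl, ht⟩
  have h1 := csol_sub ht hW h h' s hs
  set w : ℂ := ∫ u in (0 : ℝ)..s, 2 / ((g u - W u) * (g' u - W u)) with hw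
  have hwn : ‖w‖ ≤ L := by
    have h2 : ‖w‖ ≤ ∫ u in (0 : ℝ)..s, (qd W g u + qd W g' u) / 2 := by
      refine intervalIntegral.norm_integral_le_of_norm_le hs.1 ?_ ?_
      · refine Eventually.of_forall fun u hu => ?_
        have hu' : u ∈ Icc 0 t := ⟨hu.1.le, hu.2.trans hs.2⟩
        have a1 : 0 < ‖g u - (W u : ℂ)‖ := norm_pos_iff.2 (sub_ne_zero.2 (h.2 u hu').1)
        have a2 : 0 < ‖g' u - (W u : ℂ)‖ := norm_pos_iff.2 (sub_ne_zero.2 (h'.2 u hu').1)
        rw [norm_div, norm_mul, qd, qd]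
        have a3 : ‖(2 : ℂ)‖ = 2 := by simp
        rw [a3]
        have e : (2 / ‖g u - (W u : ℂ)‖ ^ 2 + 2 / ‖g' u - (W u : ℂ)‖ ^ 2) / 2 -
            2 / (‖g u - (W u : ℂ)‖ * ‖g' u - (W u : ℂ)‖) =
            (1 / ‖g u - (W u : ℂ)‖ - 1 / ‖g' u - (W u : ℂ)‖) ^ 2 := by
          field_simp
          ring
        have := sq_nonneg (1 / ‖g u - (W u : ℂ)‖ - 1 / ‖g' u - (W u : ℂ)‖)
        linarith
      · exact ((qd_int hW h h0 hs).add (qd_int hW h' h0 hs)).div_const 2
    rw [intervalIntegral.integral_div, intervalIntegral.integral_add (qd_int hW h h0 hs)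
      (qd_int hW h' h0 hs)] at h2
    linarith
  rw [h1, norm_mul, Complex.norm_exp, Complex.neg_re]
  have h3 := (abs_le.1 ((Complex.abs_re_le_norm w).trans hwn))
  have h4 : Real.exp (-L) ≤ Real.exp (-w.re) := Real.exp_le_exp.2 (by linarith [h3.2])
  have h5 : Real.exp (-w.re) ≤ Real.exp L := Real.exp_le_exp.2 (by linarith [h3.1])
  have h6 := norm_nonneg (z - z')
  constructor
  · rw [mul_comm]; exact mul_le_mul_of_nonneg_left h4 h6
  · rw [mul_comm (Real.exp L)]; exact mul_le_mul_of_nonneg_left h5 h6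

/-- Modulus of continuity in time. -/
theorem time_bd {z : ℂ} {g : ℝ → ℂ} {L lam u s : ℝ} (hW : ContinuousOn W (Icc 0 t))
    (h : CSol W z t g) (hlam : 0 < lam) (hu : u ∈ Icc 0 t) (hs : s ∈ Icc 0 t) (hus : u ≤ s)
    (hL : ∫ v in u..s, qd W g v ≤ L) : ‖g s - g u‖ ≤ lam * (s - u) + L / (2 * lam) := by
  have hsub : Icc u s ⊆ Icc 0 t := Icc_subset_Icc hu.1 hs.2
  have hWc : ContinuousOn (fun v => (W v : ℂ)) (Icc 0 t) :=
    Complex.continuous_ofReal.comp_continuousOn hW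
  have hfc : ContinuousOn (fun v => 2 / (g v - (W v : ℂ))) (Icc u s) :=
    (continuousOn_const.div (h.cont.sub hWc) fun v hv => sub_ne_zero.2 (h.2 v hv).1).mono hsub
  have hint : IntervalIntegrable (fun v => 2 / (g v - (W v : ℂ))) volume u s :=
    (hfc.mono (by rw [uIcc_of_le hus])).intervalIntegrable
  have h1 : ∫ v in u..s, 2 / (g v - (W v : ℂ)) = g s - g u := by
    refine intervalIntegral.integral_eq_sub_of_hasDeriv_right (h.cont.mono (by
      rw [uIcc_of_le hus]; exact hsub)) ?_ hint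
    intro v hv
    rw [min_eq_left hus, max_eq_right hus] at hv
    have h2 := (h.2 v (hsub ⟨hv.1.le, hv.2.le⟩)).2
    exact ((h2.mono hsub).hasDerivAt (Icc_mem_nhds hv.1 hv.2)).hasDerivWithinAt
  rw [← h1]
  have h2 : ‖∫ v in u..s, 2 / (g v - (W v : ℂ))‖ ≤
      ∫ v in u..s, (lam + qd W g v * (1 / (2 * lam))) := by
    refine intervalIntegral.norm_integral_le_of_norm_le hus ?_ ?_
    · refine Eventually.of_forall fun v hv => ?_
      have hv' : v ∈ Icc 0 t := hsub ⟨hv.1.le, hv.2⟩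
      have a1 : 0 < ‖g v - (W v : ℂ)‖ := norm_pos_iff.2 (sub_ne_zero.2 (h.2 v hv').1)
      rw [norm_div, qd]
      have a3 : ‖(2 : ℂ)‖ = 2 := by simp
      rw [a3]
      have e : lam + 2 / ‖g v - (W v : ℂ)‖ ^ 2 * (1 / (2 * lam)) - 2 / ‖g v - (W v : ℂ)‖ =
          (lam - 1 / ‖g v - (W v : ℂ)‖) ^ 2 / lam := by
        field_simp
        ring
      have : 0 ≤ (lam - 1 / ‖g v - (W v : ℂ)‖) ^ 2 / lam := by positivity
      linarith
    · exact intervalIntegrable_const.add ((qd_int hW h hu hs).mul_const _)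
  rw [intervalIntegral.integral_add intervalIntegrable_const
    ((qd_int hW h hu hs).mul_const _), intervalIntegral.integral_const,
    intervalIntegral.integral_mul_const, smul_eq_mul] at h2
  refine h2.trans ?_
  have h3 : (∫ v in u..s, qd W g v) * (1 / (2 * lam)) ≤ L / (2 * lam) := by
    rw [mul_one_div]
    exact div_le_div_of_nonneg_right hL (by positivity)
  linarith

/-- Solutions started close to a solution with a gap. -/
theorem csol_near {z z' : ℂ} {g : ℝ → ℂ} {c : ℝ} (ht : 0 ≤ t) (hW : ContinuousOn W (Icc 0 t))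
    (hc : 0 < c) (h : CSol W z t g) (hgap : ∀ s ∈ Icc 0 t, c ≤ ‖g s - (W s : ℂ)‖)
    (hz : ‖z' - z‖ * Real.exp (6 / (c / 2) ^ 2 * t) ≤ c / 2) : ∃ g', CSol W z' t g' := by
  have hc2 : 0 < c / 2 := by positivity
  have hreg : Reg W (c / 2) t g := h.reg hc2 fun s hs => (by linarith [hgap s hs])
  obtain ⟨α, h0, hα⟩ := exists_reg ht hc2 hW z'
  refine ⟨α, CSol_of_reg hc2 h0 hα fun s hs => ?_⟩
  have h1 : dist (α 0) (g 0) ≤ ‖z' - z‖ := by rw [h0, h.1, dist_eq_norm]
  have h2 := Reg.dist_le hc2 (show Reg W (c / 2) t α from hα) hreg h1 hs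
  rw [dist_eq_norm] at h2
  have h3 : ‖z' - z‖ * Real.exp (6 / (c / 2) ^ 2 * s) ≤ c / 2 := by
    refine le_trans ?_ hz
    refine mul_le_mul_of_nonneg_left ?_ (norm_nonneg _)
    exact Real.exp_le_exp.2 (mul_le_mul_of_nonneg_left hs.2 (by positivity))
  have h4 := hgap s hs
  have h5 : ‖g s - (W s : ℂ)‖ ≤ ‖α s - (W s : ℂ)‖ + ‖α s - g s‖ := by
    have e : g s - (W s : ℂ) = (α s - (W s : ℂ)) - (α s - g s) := by ring
    rw [e]
    exact norm_sub_le _ _
  linarith

/-- A real solution which starts on the right of the driver stays there. -/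
theorem rsol_pos {x : ℝ} {y : ℝ → ℝ} (hW : ContinuousOn W (Icc 0 t)) (h : RSol W x t y)
    (hx : W 0 < x) : ∀ s ∈ Icc 0 t, W s < y s := by
  intro s hs
  by_contra hcon
  rw [not_lt] at hcon
  have hc : ContinuousOn (fun u => y u - W u) (Icc 0 s) :=
    (h.cont.sub hW).mono (Icc_subset_Icc_right hs.2)
  obtain ⟨u, hu, hu0⟩ := intermediate_value_Icc' hs.1 hc
    (show (0 : ℝ) ∈ Icc (y s - W s) (y 0 - W 0) from ⟨by linarith, by rw [h.1]; linarith⟩)
  exact (h.2 u ⟨hu.1, hu.2.trans hs.2⟩).1 (sub_eq_zero.1 hu0)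

/-- Real solutions are ordered. -/
theorem rsol_lt {x x' : ℝ} {y y' : ℝ → ℝ} (ht : 0 ≤ t) (hW : ContinuousOn W (Icc 0 t))
    (h : RSol W x t y) (h' : RSol W x' t y') (hx : x < x') : ∀ s ∈ Icc 0 t, y s < y' s := by
  have hne : ∀ s ∈ Icc 0 t, y' s - y s ≠ 0 := by
    intro s hs h0
    have h1 := csol_sub ht hW h'.csol h.csol s hs
    rw [← Complex.ofReal_sub, h0, Complex.ofReal_zero, eq_comm, mul_eq_zero] at h1
    rcases h1 with h1 | h1
    · rw [← Complex.ofReal_sub, Complex.ofReal_eq_zero] at h1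
      linarith
    · exact Complex.exp_ne_zero _ h1
  intro s hs
  by_contra hcon
  rw [not_lt] at hcon
  have hc : ContinuousOn (fun u => y' u - y u) (Icc 0 s) :=
    (h'.cont.sub h.cont).mono (Icc_subset_Icc_right hs.2)
  obtain ⟨u, hu, hu0⟩ := intermediate_value_Icc' hs.1 hc
    (show (0 : ℝ) ∈ Icc (y' s - y s) (y' 0 - y 0) from
      ⟨by linarith, by rw [h.1, h'.1]; linarith⟩)
  exact hne u ⟨hu.1, hu.2.trans hs.2⟩ hu0

end Vale.Agent.P167.H327
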