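import Vale.Agent.P167.H327.Surv

/-!
# P167, block POS (L3), part 2: the driver does not cross a surviving family
-/

set_option autoImplicit false

open Set Filter Topology Metric MeasureTheory
open scoped ComplexConjugate

namespace Vale.Agent.P167.H327

open Vale.Agent.P164 Vale.Agent.P153.BESS

variable {W : ℝ → ℝ} {t : ℝ}

/-- A family of solutions above the interval `[x₁, x₂]`, with imaginary parts which decrease by a
bounded factor only. -/
structure Fam (W : ℝ → ℝ) (t x₁ x₂ L η₀ : ℝ) (G : ℝ → ℝ → ℝ → ℂ) : Prop where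
  ht : 0 ≤ t
  hW : ContinuousOn W (Icc 0 t)
  sol : ∀ y ∈ Icc x₁ x₂, ∀ η ∈ Ioc 0 η₀, CSol W (⟨y, η⟩ : ℂ) t (G y η)
  low : ∀ y ∈ Icc x₁ x₂, ∀ η ∈ Ioc 0 η₀, η ≤ Real.exp L * (G y η t).im

variable {x₁ x₂ L η₀ : ℝ} {G : ℝ → ℝ → ℝ → ℂ}

theorem Fam.int_le (F : Fam W t x₁ x₂ L η₀ G) {y η a b : ℝ} (hy : y ∈ Icc x₁ x₂)
    (hη : η ∈ Ioc 0 η₀) (ha : 0 ≤ a) (hab : a ≤ b) (hb : b ≤ t) :
    ∫ u in a..b, qd W (G y η) u ≤ L := by
  have hs := F.sol y hy η hη
  have h0 : (0 : ℝ) ∈ Icc 0 t := ⟨le_rfl, F.ht⟩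
  have h1 : (t : ℝ) ∈ Icc 0 t := ⟨F.ht, le_rfl⟩
  have h2 : ∫ u in a..b, qd W (G y η) u ≤ ∫ u in (0 : ℝ)..t, qd W (G y η) u := by
    refine intervalIntegral.integral_mono_interval ha hab hb ?_ (qd_int F.hW hs h0 h1)
    exact Eventually.of_forall fun u => qd_nonneg _ _ _
  refine h2.trans ?_
  have h3 := im_formula F.ht F.hW hs t h1
  have h4 := F.low y hy η hη
  have hη0 : 0 < η := hη.1
  rw [h3] at h4
  simp only at h4
  have h5 : (1 : ℝ) ≤ Real.exp (L + -∫ u in (0 : ℝ)..t, qd W (G y η) u) := by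
    rw [Real.exp_add]
    have e : Real.exp L * (η * Real.exp (-∫ u in (0 : ℝ)..t, qd W (G y η) u)) =
        η * (Real.exp L * Real.exp (-∫ u in (0 : ℝ)..t, qd W (G y η) u)) := by ring
    rw [e] at h4
    exact le_of_mul_le_mul_left (by rw [mul_one]; exact h4) hη0
  have h6 := Real.one_le_exp_iff.1 h5
  linarith

theorem norm_mk_sub (y y' η : ℝ) : ‖(⟨y, η⟩ : ℂ) - ⟨y', η⟩‖ = |y - y'| := by
  have e : (⟨y, η⟩ : ℂ) - ⟨y', η⟩ = ((y - y' : ℝ) : ℂ) := by
    apply Complex.ext <;> simp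
  rw [e, Complex.norm_real, Real.norm_eq_abs]

theorem Fam.dist (F : Fam W t x₁ x₂ L η₀ G) {y y' η s : ℝ} (hy : y ∈ Icc x₁ x₂)
    (hy' : y' ∈ Icc x₁ x₂) (hη : η ∈ Ioc 0 η₀) (hs : s ∈ Icc 0 t) :
    Real.exp (-L) * |y - y'| ≤ ‖G y η s - G y' η s‖ ∧
      ‖G y η s - G y' η s‖ ≤ Real.exp L * |y - y'| := by
  have h := dist_bd F.ht F.hW (F.sol y hy η hη) (F.sol y' hy' η hη) hs
    (F.int_le hy hη le_rfl hs.1 hs.2) (F.int_le hy' hη le_rfl hs.1 hs.2)
  rwa [norm_mk_sub] at h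

theorem Fam.im_bd (F : Fam W t x₁ x₂ L η₀ G) {y η s : ℝ} (hy : y ∈ Icc x₁ x₂)
    (hη : η ∈ Ioc 0 η₀) (hs : s ∈ Icc 0 t) : 0 < (G y η s).im ∧ (G y η s).im ≤ η := by
  have h := im_formula F.ht F.hW (F.sol y hy η hη) s hs
  have hη0 : 0 < η := hη.1
  rw [h]
  simp only
  have h1 := Real.exp_pos (-∫ u in (0 : ℝ)..s, qd W (G y η) u)
  have h2 : Real.exp (-∫ u in (0 : ℝ)..s, qd W (G y η) u) ≤ 1 := by
    rw [Real.exp_le_one_iff]
    have := intervalIntegral.integral_nonneg (f := qd W (G y η)) (μ := volume) hs.1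
      fun u _ => qd_nonneg _ _ _
    linarith
  constructor
  · positivity
  · nlinarith

theorem Fam.re_diff (F : Fam W t x₁ x₂ L η₀ G) {y y' η s : ℝ} (hy : y ∈ Icc x₁ x₂)
    (hy' : y' ∈ Icc x₁ x₂) (hlt : y < y') (hη : η ∈ Ioc 0 η₀)
    (hη' : 2 * η ≤ Real.exp (-L) * (y' - y)) (hs : s ∈ Icc 0 t) :
    Real.exp (-L) * (y' - y) / 2 ≤ (G y' η s).re - (G y η s).re := by
  set m : ℝ := Real.exp (-L) * (y' - y) with hm
  have hm0 : 0 < m := mul_pos (Real.exp_pos _) (by linarith)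
  have habs : ∀ u ∈ Icc 0 t, m / 2 ≤ |(G y' η u).re - (G y η u).re| := by
    intro u hu
    have h1 := (F.dist hy' hy hη hu).1
    rw [abs_of_pos (by linarith : 0 < y' - y), ← hm] at h1
    obtain ⟨a1, a2⟩ := F.im_bd hy hη hu
    obtain ⟨b1, b2⟩ := F.im_bd hy' hη hu
    have h2 : |(G y' η u - G y η u).im| ≤ η := by
      rw [Complex.sub_im, abs_le]
      constructor <;> linarith
    have h3 := Complex.norm_le_abs_re_add_abs_im (G y' η u - G y η u)
    rw [Complex.sub_re] at h3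
    linarith
  have hc : ContinuousOn (fun u => (G y' η u).re - (G y η u).re) (Icc 0 s) :=
    ((Complex.continuous_re.comp_continuousOn (F.sol y' hy' η hη).cont).sub
      (Complex.continuous_re.comp_continuousOn (F.sol y hy η hη).cont)).mono
      (Icc_subset_Icc_right hs.2)
  have h0 : (G y' η 0).re - (G y η 0).re = y' - y := by
    rw [(F.sol y' hy' η hη).1, (F.sol y hy η hη).1]
  by_contra hcon
  rw [not_le] at hcon
  have h1 := habs s hs
  have hneg : (G y' η s).re - (G y η s).re ≤ 0 := by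
    by_contra h2
    rw [not_le] at h2
    rw [abs_of_pos h2] at h1
    linarith
  obtain ⟨u, hu, hu0⟩ := intermediate_value_Icc' hs.1 hc
    (show (0 : ℝ) ∈ Icc ((G y' η s).re - (G y η s).re) ((G y' η 0).re - (G y η 0).re) from
      ⟨hneg, by rw [h0]; linarith⟩)
  have h2 := habs u ⟨hu.1, hu.2.trans hs.2⟩
  simp only at hu0
  rw [hu0, abs_zero] at h2
  linarith

theorem Fam.time (F : Fam W t x₁ x₂ L η₀ G) {e : ℝ} (he : 0 < e) : ∃ h > 0,
    ∀ y ∈ Icc x₁ x₂, ∀ η ∈ Ioc 0 η₀, ∀ u ∈ Icc 0 t, ∀ s ∈ Icc 0 t, |s - u| ≤ h →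
      |(G y η s).re - W s - ((G y η u).re - W u)| ≤ e := by
  have hLpos : ∀ y ∈ Icc x₁ x₂, ∀ η ∈ Ioc 0 η₀, 0 ≤ L := by
    intro y hy η hη
    have h1 := F.int_le hy hη le_rfl F.ht le_rfl
    exact (intervalIntegral.integral_nonneg F.ht fun u _ => qd_nonneg _ _ _).trans h1
  obtain ⟨h₁, hh₁, hW⟩ := Metric.uniformContinuousOn_iff.1
    (isCompact_Icc.uniformContinuousOn_of_continuous F.hW) (e / 2) (by positivity)
  set lam : ℝ := 2 * |L| / e + 1 with hlam
  have hlam0 : 0 < lam := by positivity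
  refine ⟨min (h₁ / 2) (e / (4 * lam)), by positivity, ?_⟩
  intro y hy η hη u hu s hs hd
  have hL := hLpos y hy η hη
  have hd1 : |s - u| ≤ h₁ / 2 := hd.trans (min_le_left _ _)
  have hd2 : |s - u| ≤ e / (4 * lam) := hd.trans (min_le_right _ _)
  have hg : ∀ u ∈ Icc 0 t, ∀ s ∈ Icc 0 t, u ≤ s → s - u ≤ e / (4 * lam) →
      ‖G y η s - G y η u‖ ≤ e / 2 := by
    intro u hu s hs hus hd
    have h1 := time_bd F.hW (F.sol y hy η hη) hlam0 hu hs hus
      (F.int_le hy hη hu.1 hus hs.2)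
    have h2 : lam * (s - u) ≤ e / 4 := by
      rw [le_div_iff₀ (by positivity)] at hd
      linarith
    have h3 : L / (2 * lam) ≤ e / 4 := by
      rw [div_le_iff₀ (by positivity), hlam, abs_of_nonneg hL]
      have : e / 4 * (2 * (2 * L / e + 1)) = L + e / 2 := by
        field_simp
        ring
      rw [this]
      linarith
    linarith
  have h1 : ‖G y η s - G y η u‖ ≤ e / 2 := by
    rcases le_total u s with h | h
    · exact hg u hu s hs h (by rw [abs_of_nonneg (by linarith)] at hd2; exact hd2)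
    · rw [norm_sub_rev]
      exact hg s hs u hu h (by rw [abs_of_nonpos (by linarith)] at hd2; linarith)
  have h2 := hW s hs u hu (by rw [Real.dist_eq]; linarith)
  rw [Real.dist_eq] at h2
  have h3 := (Complex.abs_re_le_norm (G y η s - G y η u)).trans h1
  rw [Complex.sub_re] at h3
  have e1 : (G y η s).re - W s - ((G y η u).re - W u) =
      ((G y η s).re - (G y η u).re) - (W s - W u) := by ring
  rw [e1]
  refine (abs_sub _ _).trans ?_
  linarith

/-- The family is continuous in space. -/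
theorem Fam.cont_space (F : Fam W t x₁ x₂ L η₀ G) {η u : ℝ} (hη : η ∈ Ioc 0 η₀)
    (hu : u ∈ Icc 0 t) : ContinuousOn (fun y => (G y η u).re) (Icc x₁ x₂) := by
  refine LipschitzOnWith.continuousOn (K := (Real.exp L).toNNReal) ?_
  refine LipschitzOnWith.of_dist_le_mul fun y hy y' hy' => ?_
  rw [Real.dist_eq, Real.dist_eq, Real.coe_toNNReal _ (Real.exp_pos _).le]
  refine le_trans ?_ (F.dist hy hy' hη hu).2
  rw [← Complex.sub_re]
  exact Complex.abs_re_le_norm _

/-- **The driver does not cross the family.** -/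
theorem Fam.cross (F : Fam W t x₁ x₂ L η₀ G) (hx₁ : W 0 < x₁) (hη₀ : 0 < η₀) {x a : ℝ}
    (ha : 0 < a) (hxl : x₁ ≤ x - a) (hxr : x + a ≤ x₂) : ∃ η₁ > 0, η₁ ≤ η₀ ∧
      ∀ η ∈ Ioc 0 η₁, ∀ s ∈ Icc 0 t, W s < (G x η s).re := by
  set m : ℝ := Real.exp (-L) * a with hm
  have hm0 : 0 < m := mul_pos (Real.exp_pos _) ha
  obtain ⟨h, hh, htime⟩ := F.time (e := m / 4) (by positivity)
  have hyx : x ∈ Icc x₁ x₂ := ⟨by linarith, by linarith⟩
  have hyl : x - a ∈ Icc x₁ x₂ := ⟨hxl, by linarith⟩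
  have hyr : x + a ∈ Icc x₁ x₂ := ⟨by linarith, hxr⟩
  have hL : 0 ≤ L := by
    have h1 := F.int_le hyx (⟨hη₀, le_rfl⟩ : η₀ ∈ Ioc 0 η₀) le_rfl F.ht le_rfl
    exact (intervalIntegral.integral_nonneg F.ht fun u _ => qd_nonneg _ _ _).trans h1
  set K : ℝ := (Real.exp L + 1) ^ 2 * (2 * a + 1) * L with hK
  have hK0 : 0 ≤ K := by positivity
  refine ⟨min (min η₀ (m / 2)) (min 1 (h / (K + 1))), by positivity,
    (min_le_left _ _).trans (min_le_left _ _), ?_⟩
  intro η hη s hs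
  have hη0 : 0 < η := hη.1
  have hη1 : η ≤ η₀ := hη.2.trans ((min_le_left _ _).trans (min_le_left _ _))
  have hη2 : η ≤ m / 2 := hη.2.trans ((min_le_left _ _).trans (min_le_right _ _))
  have hη3 : η ≤ 1 := hη.2.trans ((min_le_right _ _).trans (min_le_left _ _))
  have hη4 : η ≤ h / (K + 1) := hη.2.trans ((min_le_right _ _).trans (min_le_right _ _))
  have hηm : η ∈ Ioc 0 η₀ := ⟨hη0, hη1⟩
  by_contra hcon
  rw [not_lt] at hcon
  have hsx := F.sol x hyx η hηm
  -- the first contact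
  have hc : ContinuousOn (fun u => (G x η u).re - W u) (Icc 0 s) :=
    ((Complex.continuous_re.comp_continuousOn hsx.cont).sub F.hW).mono
      (Icc_subset_Icc_right hs.2)
  obtain ⟨s₀, hs₀, hs₀0⟩ := intermediate_value_Icc' hs.1 hc
    (show (0 : ℝ) ∈ Icc ((G x η s).re - W s) ((G x η 0).re - W 0) from
      ⟨by linarith, by rw [hsx.1]; simp only; linarith⟩)
  simp only at hs₀0
  have hs₀t : s₀ ∈ Icc 0 t := ⟨hs₀.1, hs₀.2.trans hs.2⟩
  have hl := F.re_diff hyl hyx (by linarith) hηm (by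
    rw [sub_sub_cancel, ← hm]; linarith) hs₀t
  have hr := F.re_diff hyx hyr (by linarith) hηm (by
    rw [add_sub_cancel_left, ← hm]; linarith) hs₀t
  rw [sub_sub_cancel, ← hm] at hl
  rw [add_sub_cancel_left, ← hm] at hr
  have hsg : ∀ u ∈ Icc 0 t, |s₀ - u| ≤ h →
      (G (x - a) η u).re - W u < 0 ∧ 0 < (G (x + a) η u).re - W u := by
    intro u hu hd
    have h1 := (abs_le.1 (htime _ hyl η hηm u hu s₀ hs₀t hd))
    have h2 := (abs_le.1 (htime _ hyr η hηm u hu s₀ hs₀t hd))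
    constructor
    · linarith [h1.1]
    · linarith [h2.2]
  have hs₀h : h < s₀ := by
    by_contra hlt
    rw [not_lt] at hlt
    have h1 := (hsg 0 ⟨le_rfl, F.ht⟩ (by rw [sub_zero, abs_of_nonneg hs₀.1]; exact hlt)).1
    rw [(F.sol _ hyl η hηm).1] at h1
    simp only at h1
    linarith
  -- the grid
  set N : ℕ := ⌊2 * a / η⌋₊ with hN
  have hNle : (N : ℝ) * η ≤ 2 * a := by
    have := Nat.floor_le (show 0 ≤ 2 * a / η by positivity)
    rwa [le_div_iff₀ hη0] at this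
  have hgrid : ∀ k ∈ Finset.range (N + 1), x - a + k * η ∈ Icc x₁ x₂ := by
    intro k hk
    have hk' : (k : ℝ) ≤ N := by
      have := Finset.mem_range.1 hk
      exact_mod_cast (by omega : k ≤ N)
    have : (k : ℝ) * η ≤ N * η := mul_le_mul_of_nonneg_right hk' hη0.le
    have : (0 : ℝ) ≤ k * η := by positivity
    constructor <;> linarith
  have hlow : ∀ u ∈ Icc (s₀ - h) s₀, 2 / ((Real.exp L + 1) * η) ^ 2 ≤
      ∑ k ∈ Finset.range (N + 1), qd W (G (x - a + k * η) η) u := by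
    intro u hu
    have hut : u ∈ Icc 0 t := ⟨by linarith [hu.1], hu.2.trans hs₀t.2⟩
    obtain ⟨h1, h2⟩ := hsg u hut (by
      rw [abs_of_nonneg (by linarith [hu.2])]
      linarith [hu.1])
    have hcs : ContinuousOn (fun y => (G y η u).re - W u) (Icc (x - a) (x + a)) :=
      ((F.cont_space hηm hut).sub continuousOn_const).mono (Icc_subset_Icc hxl hxr)
    obtain ⟨v, hv, hv0⟩ := intermediate_value_Icc (by linarith) hcs
      (show (0 : ℝ) ∈ Icc ((G (x - a) η u).re - W u) ((G (x + a) η u).re - W u) from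
        ⟨h1.le, h2.le⟩)
    simp only at hv0
    have hvx : v ∈ Icc x₁ x₂ := ⟨hxl.trans hv.1, hv.2.trans hxr⟩
    have hv1 : 0 ≤ (v - (x - a)) / η := div_nonneg (by linarith [hv.1]) hη0.le
    set k : ℕ := ⌊(v - (x - a)) / η⌋₊ with hk
    have hk1 : (k : ℝ) * η ≤ v - (x - a) := by
      have := Nat.floor_le hv1
      rwa [le_div_iff₀ hη0] at this
    have hk2 : v - (x - a) < (k + 1) * η := by
      have := Nat.lt_floor_add_one ((v - (x - a)) / η)
      rwa [div_lt_iff₀ hη0] at this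
    have hkN : k ∈ Finset.range (N + 1) := by
      rw [Finset.mem_range, Nat.lt_succ_iff, hk, hN]
      refine Nat.floor_le_floor ?_
      gcongr
      linarith [hv.2]
    have hgk := hgrid k hkN
    refine le_trans ?_ (Finset.single_le_sum (f := fun k : ℕ => qd W (G (x - a + k * η) η) u)
      (fun k _ => qd_nonneg _ _ _) hkN)
    simp only [qd]
    have h3 := (F.dist hgk hvx hηm hut).2
    have h4 : |x - a + k * η - v| ≤ η := by
      rw [abs_le]
      constructor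
      · nlinarith
      · linarith
    have h5 : ‖G (x - a + k * η) η u - (W u : ℂ)‖ ≤ (Real.exp L + 1) * η := by
      have e1 : G (x - a + k * η) η u - (W u : ℂ) =
          (G (x - a + k * η) η u - G v η u) + (G v η u - (W u : ℂ)) := by ring
      rw [e1]
      refine (norm_add_le _ _).trans ?_
      have h6 : ‖G v η u - (W u : ℂ)‖ ≤ η := by
        refine (Complex.norm_le_abs_re_add_abs_im _).trans ?_
        rw [Complex.sub_re, Complex.ofReal_re, hv0, abs_zero, zero_add, Complex.sub_im,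
          Complex.ofReal_im, sub_zero]
        obtain ⟨a1, a2⟩ := F.im_bd hvx hηm hut
        rw [abs_of_pos a1]
        exact a2
      have h7 : Real.exp L * |x - a + k * η - v| ≤ Real.exp L * η :=
        mul_le_mul_of_nonneg_left h4 (Real.exp_pos _).le
      linarith
    have h8 : 0 < ‖G (x - a + k * η) η u - (W u : ℂ)‖ :=
      norm_pos_iff.2 (sub_ne_zero.2 ((F.sol _ hgk η hηm).2 u hut).1)
    gcongr
  -- integration
  have hst : s₀ - h ∈ Icc 0 t := ⟨by linarith, by linarith [hs₀t.2]⟩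
  have hint : ∀ k ∈ Finset.range (N + 1),
      IntervalIntegrable (qd W (G (x - a + k * η) η)) volume (s₀ - h) s₀ := fun k hk =>
    qd_int F.hW (F.sol _ (hgrid k hk) η hηm) hst hs₀t
  have h1 : ∫ u in (s₀ - h)..s₀, (2 / ((Real.exp L + 1) * η) ^ 2 : ℝ) ≤
      ∫ u in (s₀ - h)..s₀, ∑ k ∈ Finset.range (N + 1), qd W (G (x - a + k * η) η) u := by
    refine intervalIntegral.integral_mono_on (by linarith) intervalIntegrable_const ?_ hlow
    have := IntervalIntegrable.sum (μ := volume) (a := s₀ - h) (b := s₀)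
      (Finset.range (N + 1)) (f := fun k : ℕ => qd W (G (x - a + k * η) η)) hint
    refine this.congr ?_
    intro u _
    simp only [Finset.sum_apply]
  rw [intervalIntegral.integral_const, intervalIntegral.integral_finsetSum hint,
    sub_sub_cancel, smul_eq_mul] at h1
  have h2 : ∑ k ∈ Finset.range (N + 1), ∫ u in (s₀ - h)..s₀, qd W (G (x - a + k * η) η) u ≤
      (N + 1) * L := by
    refine (Finset.sum_le_sum fun k hk => F.int_le (hgrid k hk) hηm hst.1 (by linarith)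
      hs₀t.2).trans ?_
    rw [Finset.sum_const, Finset.card_range, nsmul_eq_mul]
    push_cast
    exact le_rfl
  have h3 := h1.trans h2
  have hE : 0 < Real.exp L + 1 := by positivity
  rw [mul_div_assoc', div_le_iff₀ (by positivity)] at h3
  have h4 : ((N : ℝ) + 1) * L * ((Real.exp L + 1) * η) ^ 2 ≤ K * η := by
    have e1 : ((N : ℝ) + 1) * L * ((Real.exp L + 1) * η) ^ 2 =
        (Real.exp L + 1) ^ 2 * L * η * (N * η + η) := by ring
    have e2 : K * η = (Real.exp L + 1) ^ 2 * L * η * (2 * a + 1) := by rw [hK]; ring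
    rw [e1, e2]
    refine mul_le_mul_of_nonneg_left (by linarith) (by positivity)
  have h5 : K * η ≤ h := by
    rw [le_div_iff₀ (by positivity)] at hη4
    nlinarith
  linarith

/-- **Real points below a surviving family survive.** -/
theorem Fam.surv (F : Fam W t x₁ x₂ L η₀ G) (hx₁ : W 0 < x₁) (hη₀ : 0 < η₀) {x : ℝ}
    (hx : x ∈ Ioo x₁ x₂) : ∃ y, RSol W x t y := by
  set a : ℝ := min (x - x₁) (x₂ - x) / 2 with ha
  have ha1 : 2 * a ≤ x - x₁ := by rw [ha]; linarith [min_le_left (x - x₁) (x₂ - x)]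
  have ha2 : 2 * a ≤ x₂ - x := by rw [ha]; linarith [min_le_right (x - x₁) (x₂ - x)]
  have ha0 : 0 < a := by
    rw [ha]
    have : 0 < min (x - x₁) (x₂ - x) := lt_min (by linarith [hx.1]) (by linarith [hx.2])
    positivity
  set m : ℝ := Real.exp (-L) * a with hm
  have hm0 : 0 < m := mul_pos (Real.exp_pos _) ha0
  obtain ⟨η₁, hη₁, hη₁', hcr⟩ := F.cross hx₁ hη₀ (x := x - a) ha0 (by linarith) (by linarith)
  set E : ℝ := Real.exp (6 / ((m / 2) / 2) ^ 2 * t) with hE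
  have hE0 : 0 < E := Real.exp_pos _
  set η : ℝ := min η₁ (min (m / 2) ((m / 2) / 2 / E)) with hη
  have hη0 : 0 < η := by positivity
  have hη1 : η ≤ η₁ := min_le_left _ _
  have hη2 : η ≤ m / 2 := (min_le_right _ _).trans (min_le_left _ _)
  have hη3 : η ≤ (m / 2) / 2 / E := (min_le_right _ _).trans (min_le_right _ _)
  have hηm : η ∈ Ioc 0 η₀ := ⟨hη0, hη1.trans hη₁'⟩
  have hyx : x ∈ Icc x₁ x₂ := ⟨hx.1.le, hx.2.le⟩
  have hyl : x - a ∈ Icc x₁ x₂ := ⟨by linarith, by linarith⟩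
  have hsx := F.sol x hyx η hηm
  have hgap : ∀ s ∈ Icc 0 t, m / 2 ≤ ‖G x η s - (W s : ℂ)‖ := by
    intro s hs
    have h1 := F.re_diff hyl hyx (by linarith) hηm (by
      rw [sub_sub_cancel, ← hm]; linarith) hs
    rw [sub_sub_cancel, ← hm] at h1
    have h2 := hcr η ⟨hη0, hη1⟩ s hs
    refine le_trans ?_ (Complex.abs_re_le_norm _)
    rw [Complex.sub_re, Complex.ofReal_re]
    refine le_trans ?_ (le_abs_self _)
    linarith
  obtain ⟨g', hg'⟩ := csol_near (z' := (x : ℂ)) F.ht F.hW (by positivity) hsx hgap (by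
    have e : ‖(x : ℂ) - (⟨x, η⟩ : ℂ)‖ = η := by
      have e1 : (x : ℂ) - (⟨x, η⟩ : ℂ) = ((-η : ℝ) : ℂ) * Complex.I := by
        apply Complex.ext <;> simp
      rw [e1, norm_mul, Complex.norm_I, mul_one, Complex.norm_real, Real.norm_eq_abs, abs_neg,
        abs_of_pos hη0]
    rw [e, ← hE]
    rwa [le_div_iff₀ hE0] at hη3)
  exact ⟨_, hg'.rsol F.hW⟩

end Vale.Agent.P167.H327
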